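import Crest.Agent.N206.TA.Root

/-!
# Row 206, S0317: `a2 : StripStmt → CascadeStmt → MartStmt → A2Stmt` (helper62)
-/

set_option autoImplicit false

noncomputable section

open scoped Classical

namespace Crest.Agent.N206.PL

open Crest.GeometryTopology.GraphMetric Crest.Agent.R206.Iface534 Crest.Agent.N206.TA.Rt

namespace A2o

variable {V : Type} [Fintype V] {G : SimpleGraph V} {ℓ : Sym2 V → ℝ} {δ : ℝ}

/-- localisation of a random function -/
theorem localise (hw : WG G ℓ δ) (Sg : Set V) {R B L : ℝ} (hR : 0 < R) (hB : 0 ≤ B)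
    {Ω : Type} [Fintype Ω] (P : Ω → ℝ) (U : Ω → V → ℝ) (hP : ∀ o, 0 ≤ P o)
    (hL : ∀ x y, G.Adj x y → ∑ o, P o * |U o x - U o y| ≤ L * ℓ s(x, y))
    (hU : ∀ x, (∃ z ∈ Sg, wdist G ℓ z x < R / 10) → ∑ o, P o * |U o x| ≤ B * R) :
    ∃ ρ : V → V → ℝ, IsCut ρ ∧ (∀ x y, G.Adj x y → ρ x y ≤ (10 * B + L) * ℓ s(x, y)) ∧
      (∀ x y, (∀ z ∈ Sg, R / 10 ≤ wdist G ℓ z x) → (∀ z ∈ Sg, R / 10 ≤ wdist G ℓ z y) →
        ρ x y = 0) ∧
      ∀ x ∈ Sg, ∀ y ∈ Sg, ρ x y = ∑ o, P o * |U o x - U o y| := by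
  obtain ⟨χ, χ0, χ1, χS, χn, χl⟩ := exists_cut hw Sg (r := R / 10) (by linarith)
  have key : ∀ x y, G.Adj x y → χ x ≠ 0 →
      ∑ o, P o * |U o x * χ x - U o y * χ y| ≤ (10 * B + L) * ℓ s(x, y) := by
    intro x y hxy hx
    have hl := hw.adj_pos hxy
    have h1 : ∀ o, P o * |U o x * χ x - U o y * χ y| ≤
        P o * |U o x| * (ℓ s(x, y) / (R / 10)) + P o * |U o x - U o y| := fun o => by
      have := mul_le_mul_of_nonneg_left (prod_le (f := U o x) (g := U o y) (χ0 y) (χ1 y) le_rfl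
        (χl x y hxy)) (hP o)
      linarith
    refine (Finset.sum_le_sum fun o _ => h1 o).trans ?_
    rw [Finset.sum_add_distrib, ← Finset.sum_mul]
    have h2 := mul_le_mul_of_nonneg_right (hU x (χn x hx))
      (show 0 ≤ ℓ s(x, y) / (R / 10) by positivity)
    have h3 : B * R * (ℓ s(x, y) / (R / 10)) = 10 * B * ℓ s(x, y) := by field_simp
    have h4 := hL x y hxy
    linarith
  refine ⟨fun x y => ∑ o, P o * |U o x * χ x - U o y * χ y|,
    IsCut.sum _ _ fun o _ => (IsCut.abs fun x => U o x * χ x).smul (hP o), fun x y hxy => ?_,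
    fun x y hx hy => ?_, fun x hx y hy => ?_⟩
  · by_cases hx : χ x = 0
    · by_cases hy : χ y = 0
      · have h4 := hL x y hxy
        have h5 : 0 ≤ ∑ o, P o * |U o x - U o y| :=
          Finset.sum_nonneg fun o _ => mul_nonneg (hP o) (abs_nonneg _)
        have hl := hw.adj_pos hxy
        simp only [hx, hy, mul_zero, sub_zero, abs_zero, Finset.sum_const_zero]
        nlinarith
      · have := key y x hxy.symm hy
        rw [Sym2.eq_swap] at this
        simpa only [abs_sub_comm] using this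
    · exact key x y hxy hx
  · have e : ∀ x, (∀ z ∈ Sg, R / 10 ≤ wdist G ℓ z x) → χ x = 0 := fun x hx => by
      by_contra h
      obtain ⟨z, hz, hd⟩ := χn x h
      exact absurd (hx z hz) (not_le.2 hd)
    simp [e x hx, e y hy]
  · simp only [χS x hx, χS y hy, mul_one]

theorem ww_le {w0 : ℝ} (h : 0 ≤ w0) (j : ℕ) : ww w0 j ≤ w0 * (1 / 2) ^ j := by
  unfold ww
  rw [div_eq_mul_one_div, ← one_div_pow]
  refine mul_le_mul_of_nonneg_left (pow_le_pow_left₀ (by positivity) ?_ j) h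
  unfold Kc
  norm_num

theorem ww_anti {w0 : ℝ} (h : 0 ≤ w0) {l l' : ℕ} (hl : l ≤ l') : ww w0 l' ≤ ww w0 l := by
  unfold ww
  have : (1 : ℝ) ≤ Kc := by unfold Kc; norm_num
  exact div_le_div_of_nonneg_left h (by positivity) (pow_le_pow_right₀ this hl)

/-- one class of scales -/
theorem one_class (strip : StripStmt) (cascade : CascadeStmt) (mart : MartStmt) (hw : WG G ℓ δ)
    (hmf : MF G) {s : V} {T Sg : Set V} {lam R m Δ w0 : ℝ} {n : ℕ} (hR : 0 < R) (hΔ : 1 ≤ Δ)
    (st : StSet G ℓ s T lam R Sg) (hm : ∀ x ∈ Sg, |wdist G ℓ s x - m| ≤ Δ * R) (hw0 : 0 < w0)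
    (hwR : 10 * w0 ≤ R) (hn : ∀ l < n, 16 * δ ≤ ww w0 l) {κ : Type} [Fintype κ] (a b : κ → V)
    (lv : κ → ℕ) (ω : κ → ℝ) (hω : ∀ q, 0 ≤ ω q)
    (hq : ∀ i, a i ∈ Sg ∧ b i ∈ Sg ∧ lv i < n ∧ 20000 * ww w0 (lv i) ≤ wdist G ℓ (a i) (b i) ∧
      wdist G ℓ (a i) (b i) ≤ 40000 * ww w0 (lv i) ∧
      |wdist G ℓ s (a i) - wdist G ℓ s (b i)| ≤ ww w0 (lv i) / 8) :
    ∃ ρ : V → V → ℝ, IsCut ρ ∧ (∀ x y, G.Adj x y → ρ x y ≤ (10 * (Δ + 1) + 2) * ℓ s(x, y)) ∧
      (∀ x y, (∀ z ∈ Sg, R / 10 ≤ wdist G ℓ z x) → (∀ z ∈ Sg, R / 10 ≤ wdist G ℓ z y) →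
        ρ x y = 0) ∧
      1 / 10 ^ 12 * ∑ q, ω q * wdist G ℓ (a q) (b q) ≤ ∑ q, ω q * ρ (a q) (b q) := by
  obtain ⟨κ', q, F, hM, hF, hsum⟩ := cascade V G ℓ δ hw (wdist G ℓ s) Sg w0 n (hw.abs_sub s) hw0 hn
    (fun a0 => strip V G ℓ δ hw hmf s T lam R Sg st a0 w0 n hw0 hwR hn) κ a b lv
    (fun i => ω i * wdist G ℓ (a i) (b i)) (fun i => mul_nonneg (hω i) (hw.nonneg _ _)) hq
  obtain ⟨Ω, _, P, U, hP, hP1, hL, hU, hg⟩ := mart V κ' G ℓ (wdist G ℓ s) 3600 n q F (by norm_num)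
    (fun x y h => hw.abs_edge s h) hM
  obtain ⟨ρ, h1, h2, h3, h4⟩ := localise hw Sg (B := Δ + 1) (L := 2) hR (by linarith) P
    (fun o x => U o x - m) hP (fun x y h => by simpa using hL x y h) (by
      rintro x ⟨z, hz, hd⟩
      have e1 : ∑ j ∈ Finset.range n, |F j x| ≤ 4 * w0 := by
        refine (Finset.sum_le_sum fun j hj => (hF j (Finset.mem_range.1 hj) x).trans
          (mul_le_mul_of_nonneg_left (ww_le hw0.le j) (by norm_num))).trans ?_
        rw [← Finset.mul_sum, ← Finset.mul_sum]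
        have := sum_geometric_two_le n
        nlinarith
      have e2 : |wdist G ℓ s x - m| ≤ Δ * R + R / 10 := by
        have a1 := abs_le.1 (hm z hz)
        have a2 := abs_le.1 (hw.abs_sub s z x)
        rw [abs_le]; constructor <;> linarith
      have e3 : ∑ o, P o * |U o x - m| ≤
          ∑ o, (P o * |U o x - wdist G ℓ s x| + P o * (Δ * R + R / 10)) :=
        Finset.sum_le_sum fun o _ => by
          rw [← mul_add]
          exact mul_le_mul_of_nonneg_left ((abs_sub_le _ (wdist G ℓ s x) _).trans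
            (by linarith)) (hP o)
      rw [Finset.sum_add_distrib, ← Finset.sum_mul, hP1] at e3
      have e4 := hU x
      linarith)
  refine ⟨ρ, h1, h2, h3, ?_⟩
  refine (mul_le_mul_of_nonneg_left hsum (by positivity)).trans ?_
  rw [← mul_assoc, Finset.mul_sum]
  refine Finset.sum_le_sum fun i _ => ?_
  have hρ := mul_nonneg (hω i) (h1.nonneg (a i) (b i))
  split_ifs with hj
  · obtain ⟨j, hj, h5, h6⟩ := hj
    have h7 := hg j hj (a i) (b i) h5
    have h8 := h4 _ (hq i).1 _ (hq i).2.1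
    simp only [sub_sub_sub_cancel_right] at h8
    rw [← h8] at h7
    have h9 := (hq i).2.2.2.2.1
    have h10 := hw.nonneg (a i) (b i)
    have h11 : 1 / 10 ^ 12 * 4 * wdist G ℓ (a i) (b i) ≤ ρ (a i) (b i) := by linarith
    have := mul_le_mul_of_nonneg_left h11 (hω i)
    linarith
  · simpa using hρ

end A2o

open A2o in
theorem a2 (strip : StripStmt) (cascade : CascadeStmt) (mart : MartStmt) : A2Stmt := by
  intro Δ hΔ
  refine ⟨24 * (10 * (Δ + 1) + 2), 1 / 10 ^ 12, 640000, by positivity, by positivity,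
    by norm_num, ?_⟩
  intro V _ G ℓ δ hw hmf s T lam R m Sg hR st hm ι _ a b ω hω hab
  have ht : ∀ q, ∃ t : ℕ, 0 < wdist G ℓ (a q) (b q) →
      2000 * R / 2 ^ t ≤ wdist G ℓ (a q) (b q) ∧ wdist G ℓ (a q) (b q) < 2 * (2000 * R / 2 ^ t) := by
    intro q
    by_cases hd : 0 < wdist G ℓ (a q) (b q)
    · obtain ⟨t, h1, h2⟩ := exists_dyadic (y := 2000 * R / wdist G ℓ (a q) (b q)) (by
        rw [le_div_iff₀ hd]; linarith [(hab q).2.2.2])
      refine ⟨t, fun _ => ⟨?_, ?_⟩⟩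
      · rw [div_le_iff₀ hd] at h1
        rw [div_le_iff₀ (by positivity)]; linarith
      · rw [← mul_div_assoc, lt_div_iff₀ hd] at h2
        rw [← mul_div_assoc, lt_div_iff₀ (by positivity)]; linarith
    · exact ⟨0, fun h => absurd h hd⟩
  choose t ht using ht
  have hsc : ∀ q, 20000 * ww (R / 10 / 2 ^ (t q % 23)) (t q / 23) = 2000 * R / 2 ^ t q := by
    intro q
    have e : (2 : ℝ) ^ t q = 2 ^ (t q % 23) * (Kc : ℝ) ^ (t q / 23) := by
      rw [show (Kc : ℝ) = 2 ^ 23 by unfold Kc; norm_num, ← pow_mul, ← pow_add, Nat.mod_add_div]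
    have : (0 : ℝ) < Kc := by unfold Kc; norm_num
    rw [e, ww]
    field_simp
    norm_num
  set P : ℕ → ι → Prop := fun r q => (0 < wdist G ℓ (a q) (b q) ∧
    |wdist G ℓ s (a q) - wdist G ℓ s (b q)| ≤ ww (R / 10 / 2 ^ (t q % 23)) (t q / 23) / 8) ∧
    t q % 23 = r with hP
  have hcl : ∀ r : ℕ, ∃ ρ : V → V → ℝ, IsCut ρ ∧
      (∀ x y, G.Adj x y → ρ x y ≤ (10 * (Δ + 1) + 2) * ℓ s(x, y)) ∧
      (∀ x y, (∀ z ∈ Sg, R / 10 ≤ wdist G ℓ z x) → (∀ z ∈ Sg, R / 10 ≤ wdist G ℓ z y) →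
        ρ x y = 0) ∧
      1 / 10 ^ 12 * ∑ q ∈ Finset.univ.filter (P r), ω q * wdist G ℓ (a q) (b q) ≤
        ∑ q ∈ Finset.univ.filter (P r), ω q * ρ (a q) (b q) := by
    intro r
    rcases (Finset.univ.filter (P r)).eq_empty_or_nonempty with he | hne
    · exact ⟨fun _ _ => 0, IsCut.zero, fun x y hxy => mul_nonneg (by linarith)
        (hw.adj_pos hxy).le, fun _ _ _ _ => rfl, by simp [he]⟩
    obtain ⟨q₀, hq₀, hmax⟩ := Finset.exists_max_image _ (fun q => t q / 23) hne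
    have hq₀' : P r q₀ := by simpa using hq₀
    have hw0 : 0 < R / 10 / 2 ^ r := by positivity
    obtain ⟨ρ, h1, h2, h3, h4⟩ := one_class strip cascade mart hw hmf (n := t q₀ / 23 + 1) hR hΔ st
      hm hw0 (by
        have : (1 : ℝ) ≤ 2 ^ r := one_le_pow₀ (by norm_num)
        have := div_le_self (show 0 ≤ R / 10 by linarith) this
        linarith) (fun l hl => by
        refine le_trans ?_ (ww_anti hw0.le (Nat.lt_succ_iff.1 hl))
        have e1 := (ht q₀ hq₀'.1.1).2
        have e2 := (hab q₀).2.2.1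
        rw [← hsc q₀, hq₀'.2] at e1
        linarith)
      (κ := {q // P r q}) (fun q => a q) (fun q => b q) (fun q => t q / 23) (fun q => ω q)
      (fun q => hω q) fun q => by
        have e1 := ht q q.2.1.1
        have e2 := q.2.1.2
        rw [← hsc q, q.2.2] at e1
        rw [q.2.2] at e2
        exact ⟨(hab q).1, (hab q).2.1, Nat.lt_succ_of_le (hmax q (by simpa using q.2)), e1.1,
          by linarith [e1.2], e2⟩
    refine ⟨ρ, h1, h2, h3, ?_⟩
    rw [Finset.sum_subtype (Finset.univ.filter (P r)) (p := P r) (by simp),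
      Finset.sum_subtype (Finset.univ.filter (P r)) (p := P r) (by simp)]
    exact h4
  choose ρ c1 c2 c3 c4 using hcl
  obtain ⟨ρ₀, d1, d2, d3, d4⟩ := localise hw Sg (B := Δ + 1) (L := 2) hR (by linarith)
    (fun _ : Unit => (1 : ℝ)) (fun _ x => wdist G ℓ s x - m) (fun _ => zero_le_one)
    (fun x y h => by
      have := hw.abs_edge s h
      have := hw.adj_pos h
      simp only [Finset.univ_unique, Finset.sum_singleton, one_mul, sub_sub_sub_cancel_right]
      linarith) (by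
      rintro x ⟨z, hz, hd⟩
      have a1 := abs_le.1 (hm z hz)
      have a2 := abs_le.1 (hw.abs_sub s z x)
      simp only [Finset.univ_unique, Finset.sum_singleton, one_mul]
      rw [abs_le]; constructor <;> linarith)
  refine ⟨fun x y => ρ₀ x y + ∑ r ∈ Finset.range 23, ρ r x y,
    d1.add (IsCut.sum _ _ fun r _ => c1 r), fun x y hxy => ?_, fun x y hx hy => ?_, ?_⟩
  · have := Finset.sum_le_sum fun r (_ : r ∈ Finset.range 23) => c2 r x y hxy
    simp only [Finset.sum_const, Finset.card_range, nsmul_eq_mul] at this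
    have := d2 x y hxy
    push_cast at *
    linarith
  · show ρ₀ x y + ∑ r ∈ Finset.range 23, ρ r x y = 0
    rw [d3 x y hx hy, Finset.sum_eq_zero fun r _ => c3 r x y hx hy, add_zero]
  · have e1 : ∀ q, 1 / 10 ^ 12 * (ω q * wdist G ℓ (a q) (b q)) ≤ ω q * ρ₀ (a q) (b q) +
        1 / 10 ^ 12 * ∑ r ∈ Finset.range 23,
          if P r q then ω q * wdist G ℓ (a q) (b q) else 0 := by
      intro q
      have n0 := mul_nonneg (hω q) (d1.nonneg (a q) (b q))
      have n1 : ∀ r ∈ Finset.range 23, 0 ≤ if P r q then ω q * wdist G ℓ (a q) (b q) else 0 :=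
        fun r _ => by
          split_ifs
          · exact mul_nonneg (hω q) (hw.nonneg _ _)
          · exact le_rfl
      have n2 := Finset.sum_nonneg n1
      by_cases hd : 0 < wdist G ℓ (a q) (b q)
      swap
      · have : wdist G ℓ (a q) (b q) = 0 := le_antisymm (not_lt.1 hd) (hw.nonneg _ _)
        have e : ω q * wdist G ℓ (a q) (b q) = 0 := by rw [this, mul_zero]
        linarith
      by_cases hq : P (t q % 23) q
      · have := Finset.single_le_sum n1 (Finset.mem_range.2 (Nat.mod_lt (t q) (by norm_num)))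
        rw [if_pos hq] at this
        linarith
      · have e2 : ww (R / 10 / 2 ^ (t q % 23)) (t q / 23) / 8 <
            |wdist G ℓ s (a q) - wdist G ℓ s (b q)| := by
          by_contra h
          exact hq ⟨⟨hd, not_lt.1 h⟩, rfl⟩
        have e3 := d4 _ (hab q).1 _ (hab q).2.1
        simp only [Finset.univ_unique, Finset.sum_singleton, one_mul,
          sub_sub_sub_cancel_right] at e3
        have e4 := (ht q hd).2
        rw [← hsc q] at e4
        have e5 : 1 / 10 ^ 12 * wdist G ℓ (a q) (b q) ≤ ρ₀ (a q) (b q) := by linarith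
        have := mul_le_mul_of_nonneg_left e5 (hω q)
        linarith
    rw [Finset.mul_sum]
    refine (Finset.sum_le_sum fun q _ => e1 q).trans ?_
    simp only [mul_add]
    rw [Finset.sum_add_distrib, Finset.sum_add_distrib, ← Finset.mul_sum, Finset.sum_comm,
      Finset.mul_sum]
    refine add_le_add le_rfl ?_
    rw [show ∑ q, ω q * ∑ r ∈ Finset.range 23, ρ r (a q) (b q) =
      ∑ r ∈ Finset.range 23, ∑ q, ω q * ρ r (a q) (b q) by
        rw [Finset.sum_comm]; simp only [Finset.mul_sum]]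
    refine Finset.sum_le_sum fun r _ => ?_
    rw [← Finset.sum_filter]
    exact (c4 r).trans (Finset.sum_le_sum_of_subset_of_nonneg
      (Finset.filter_subset _ _) fun q _ _ => mul_nonneg (hω q) ((c1 r).nonneg _ _))

end Crest.Agent.N206.PL
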