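import Crest.Agent.N206.PL.Defs

/-!
# Row 206, S0317: basic facts on walks, geodesics, connected sets and cut semimetrics (helper55)
-/

set_option autoImplicit false

noncomputable section

open scoped Classical

namespace Crest.Agent.N206.PL

open Crest.GeometryTopology.GraphMetric Crest.Agent.R206.Iface534 SimpleGraph

/-! ### walk length -/

section walks

variable {V : Type} {G : SimpleGraph V} {ℓ : Sym2 V → ℝ} {δ : ℝ}

@[simp] theorem wl_nil (x : V) : wl ℓ (Walk.nil : G.Walk x x) = 0 := by simp [wl]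

@[simp] theorem wl_cons {x y z : V} (h : G.Adj x y) (p : G.Walk y z) :
    wl ℓ (Walk.cons h p) = ℓ s(x, y) + wl ℓ p := by simp [wl]

@[simp] theorem wl_append {x y z : V} (p : G.Walk x y) (q : G.Walk y z) :
    wl ℓ (p.append q) = wl ℓ p + wl ℓ q := by simp [wl, Walk.edges_append]

@[simp] theorem wl_reverse {x y : V} (p : G.Walk x y) : wl ℓ p.reverse = wl ℓ p := by
  simp [wl, Walk.edges_reverse, List.sum_reverse]

@[simp] theorem wl_concat {x y z : V} (p : G.Walk x y) (h : G.Adj y z) :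
    wl ℓ (p.concat h) = wl ℓ p + ℓ s(y, z) := by simp [wl]

@[simp] theorem wl_copy {x y x' y' : V} (p : G.Walk x y) (h : x = x') (h' : y = y') :
    wl ℓ (p.copy h h') = wl ℓ p := by subst h h'; rfl

theorem wl_nonneg' (hℓ : ∀ e ∈ G.edgeSet, 0 ≤ ℓ e) {x y : V} (p : G.Walk x y) : 0 ≤ wl ℓ p := by
  refine List.sum_nonneg fun t ht => ?_
  obtain ⟨e, he, rfl⟩ := List.mem_map.1 ht
  exact hℓ e (p.edges_subset_edgeSet he)

theorem wl_take_drop {x y v : V} (p : G.Walk x y) (h : v ∈ p.support) :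
    wl ℓ (p.takeUntil v h) + wl ℓ (p.dropUntil v h) = wl ℓ p := by
  rw [← wl_append, Walk.take_spec]

theorem wl_bypass_le (hℓ : ∀ e ∈ G.edgeSet, 0 ≤ ℓ e) {x y : V} (p : G.Walk x y) :
    wl ℓ p.bypass ≤ wl ℓ p := by
  induction p with
  | nil => simp [Walk.bypass]
  | @cons a b c h p ih =>
    have h0 : 0 ≤ ℓ s(a, b) := hℓ _ h
    simp only [Walk.bypass]
    split_ifs with hs
    · have h1 := wl_take_drop (ℓ := ℓ) p.bypass hs
      have h2 := wl_nonneg' hℓ (p.bypass.takeUntil a hs)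
      rw [wl_cons]; linarith
    · simp only [wl_cons]; linarith

/-- a shortest walk exists (nonnegative lengths), and may be taken to be a path -/
theorem exists_short [Fintype V] (hG : G.Connected) (hℓ : ∀ e ∈ G.edgeSet, 0 ≤ ℓ e) (x y : V) :
    ∃ p : G.Walk x y, p.IsPath ∧ ∀ p' : G.Walk x y, wl ℓ p ≤ wl ℓ p' := by
  obtain ⟨p0⟩ := hG.preconnected x y
  have : Nonempty (G.Path x y) := ⟨p0.toPath⟩
  obtain ⟨p, hp⟩ := Finite.exists_min fun p : G.Path x y => wl ℓ p.1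
  exact ⟨p.1, p.2, fun p' => (hp p'.toPath).trans (wl_bypass_le hℓ p')⟩

namespace WG

theorem nn (h : WG G ℓ δ) : ∀ e ∈ G.edgeSet, 0 ≤ ℓ e := fun e he => (h.pos e he).le

theorem adj_pos (h : WG G ℓ δ) {x y : V} (hxy : G.Adj x y) : 0 < ℓ s(x, y) := h.pos _ hxy

theorem adj_le (h : WG G ℓ δ) {x y : V} (hxy : G.Adj x y) : ℓ s(x, y) ≤ δ := h.small _ hxy

theorem mono (h : WG G ℓ δ) {δ' : ℝ} (hδ : δ ≤ δ') : WG G ℓ δ' :=
  ⟨h.conn, h.pos, fun e he => (h.small e he).trans hδ⟩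

/-- lengths changed by a factor at most two -/
theorem two (h : WG G ℓ δ) {ℓ' : Sym2 V → ℝ}
    (hl : ∀ ed ∈ G.edgeSet, ℓ ed ≤ ℓ' ed ∧ ℓ' ed ≤ 2 * ℓ ed) : WG G ℓ' (2 * δ) :=
  ⟨h.conn, fun e he => (h.pos e he).trans_le (hl e he).1,
    fun e he => (hl e he).2.trans (by linarith [h.small e he])⟩

theorem wl_nonneg (h : WG G ℓ δ) {x y : V} (p : G.Walk x y) : 0 ≤ wl ℓ p := wl_nonneg' h.nn p

theorem le_wl (h : WG G ℓ δ) {x y : V} (p : G.Walk x y) : wdist G ℓ x y ≤ wl ℓ p :=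
  wdist_le_walk h.pos p

theorem le_d (h : WG G ℓ δ) {x y : V} {a : ℝ} (ha : ∀ p : G.Walk x y, a ≤ wl ℓ p) :
    a ≤ wdist G ℓ x y := le_wdist h.conn ha

@[simp] theorem self (h : WG G ℓ δ) (x : V) : wdist G ℓ x x = 0 := wdist_self h.conn h.pos x

theorem nonneg (h : WG G ℓ δ) (x y : V) : 0 ≤ wdist G ℓ x y := wdist_nonneg h.conn h.pos x y

theorem comm (h : WG G ℓ δ) (x y : V) : wdist G ℓ x y = wdist G ℓ y x :=
  wdist_comm h.conn h.pos x y

theorem tri (h : WG G ℓ δ) (x y z : V) : wdist G ℓ x z ≤ wdist G ℓ x y + wdist G ℓ y z :=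
  wdist_triangle h.conn h.pos x y z

theorem edge (h : WG G ℓ δ) {x y : V} (hxy : G.Adj x y) : wdist G ℓ x y ≤ ℓ s(x, y) :=
  wdist_edge_le h.pos hxy

theorem edge' (h : WG G ℓ δ) {x y : V} (hxy : G.Adj x y) : wdist G ℓ x y ≤ δ :=
  (h.edge hxy).trans (h.adj_le hxy)

theorem abs_sub (h : WG G ℓ δ) (s x y : V) :
    |wdist G ℓ s x - wdist G ℓ s y| ≤ wdist G ℓ x y := by
  have h1 := h.tri s x y
  have h2 := h.tri s y x
  rw [h.comm y x] at h2
  rw [abs_le]; constructor <;> linarith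

theorem abs_edge (h : WG G ℓ δ) (s : V) {x y : V} (hxy : G.Adj x y) :
    |wdist G ℓ s x - wdist G ℓ s y| ≤ ℓ s(x, y) := (h.abs_sub s x y).trans (h.edge hxy)

/-- a function that is `C`-Lipschitz on edges is `C`-Lipschitz -/
theorem lip (h : WG G ℓ δ) (φ : V → ℝ) {C : ℝ} (hC : 0 ≤ C)
    (hφ : ∀ x y, G.Adj x y → |φ x - φ y| ≤ C * ℓ s(x, y)) (x y : V) :
    |φ x - φ y| ≤ C * wdist G ℓ x y :=
  le_mul_wdist h.conn (fun x y => |φ x - φ y|) C hC (fun x => by simp)
    (fun x y z => abs_sub_le _ _ _) hφ x y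

theorem two_le (h : WG G ℓ δ) {ℓ' : Sym2 V → ℝ}
    (hl : ∀ ed ∈ G.edgeSet, ℓ ed ≤ ℓ' ed ∧ ℓ' ed ≤ 2 * ℓ ed) (x y : V) :
    wdist G ℓ x y ≤ wdist G ℓ' x y ∧ wdist G ℓ' x y ≤ 2 * wdist G ℓ x y := by
  have h' := h.two hl
  constructor
  · have := le_mul_wdist (ℓ := ℓ') h.conn (wdist G ℓ) 1 zero_le_one h.self h.tri
      (fun u v huv => by rw [one_mul]; exact (h.edge huv).trans (hl _ huv).1) x y
    linarith
  · exact le_mul_wdist h.conn (wdist G ℓ') 2 zero_le_two h'.self h'.tri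
      (fun u v huv => (h'.edge huv).trans (hl _ huv).2) x y

/-- a geodesic path exists -/
theorem exists_geo [Fintype V] (h : WG G ℓ δ) (x y : V) :
    ∃ p : G.Walk x y, p.IsPath ∧ wl ℓ p = wdist G ℓ x y := by
  obtain ⟨p, hp, hmin⟩ := exists_short h.conn h.nn x y
  exact ⟨p, hp, le_antisymm (h.le_d hmin) (h.le_wl p)⟩

theorem mem_le (h : WG G ℓ δ) {x y v : V} (p : G.Walk x y) (hv : v ∈ p.support) :
    wdist G ℓ x v + wdist G ℓ v y ≤ wl ℓ p := by
  rw [← wl_take_drop p hv]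
  exact add_le_add (h.le_wl _) (h.le_wl _)

theorem mem_left (h : WG G ℓ δ) {x y v : V} (p : G.Walk x y) (hv : v ∈ p.support) :
    wdist G ℓ x v ≤ wl ℓ p := by linarith [h.mem_le p hv, h.nonneg v y]

theorem mem_right (h : WG G ℓ δ) {x y v : V} (p : G.Walk x y) (hv : v ∈ p.support) :
    wdist G ℓ v y ≤ wl ℓ p := by linarith [h.mem_le p hv, h.nonneg x v]

theorem mem_mem (h : WG G ℓ δ) {x y v w : V} (p : G.Walk x y) (hv : v ∈ p.support)
    (hw : w ∈ p.support) : wdist G ℓ v w ≤ wl ℓ p := by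
  have h1 := wl_take_drop (ℓ := ℓ) p hv
  have h2 := h.wl_nonneg (p.takeUntil v hv)
  have h3 := h.wl_nonneg (p.dropUntil v hv)
  rw [← Walk.take_spec p hv, Walk.mem_support_append_iff] at hw
  rcases hw with hw | hw
  · have := h.mem_right _ hw
    rw [h.comm]; linarith
  · linarith [h.mem_left _ hw]

/-- vertices of a geodesic walk -/
theorem geo_mem (h : WG G ℓ δ) {x y v : V} {p : G.Walk x y} (hp : wl ℓ p = wdist G ℓ x y)
    (hv : v ∈ p.support) : wdist G ℓ x v + wdist G ℓ v y = wdist G ℓ x y :=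
  le_antisymm (hp ▸ h.mem_le p hv) (h.tri x v y)

theorem geo_take (h : WG G ℓ δ) {x y v : V} {p : G.Walk x y} (hp : wl ℓ p = wdist G ℓ x y)
    (hv : v ∈ p.support) : wl ℓ (p.takeUntil v hv) = wdist G ℓ x v := by
  have := wl_take_drop (ℓ := ℓ) p hv
  linarith [h.le_wl (p.takeUntil v hv), h.le_wl (p.dropUntil v hv), h.tri x v y]

theorem geo_drop (h : WG G ℓ δ) {x y v : V} {p : G.Walk x y} (hp : wl ℓ p = wdist G ℓ x y)
    (hv : v ∈ p.support) : wl ℓ (p.dropUntil v hv) = wdist G ℓ v y := by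
  have := wl_take_drop (ℓ := ℓ) p hv
  linarith [h.le_wl (p.takeUntil v hv), h.le_wl (p.dropUntil v hv), h.tri x v y]

theorem eq_of_d [Fintype V] (h : WG G ℓ δ) {x y : V} (hxy : wdist G ℓ x y ≤ 0) : x = y := by
  obtain ⟨p, -, hp⟩ := h.exists_geo x y
  cases p with
  | nil => rfl
  | cons ha p =>
    rw [wl_cons] at hp
    linarith [h.adj_pos ha, h.wl_nonneg p]

end WG

/-- first hit of a set: the prefix ends in `A` and meets `A` only there -/
theorem first_hit {x y : V} (p : G.Walk x y) (A : Set V) (hA : ∃ v ∈ p.support, v ∈ A) :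
    ∃ a ∈ A, ∃ (p₁ : G.Walk x a) (p₂ : G.Walk a y), p = p₁.append p₂ ∧
      ∀ v ∈ p₁.support, v ∈ A → v = a := by
  induction p with
  | @nil x =>
    obtain ⟨v, hv, hvA⟩ := hA
    simp only [Walk.support_nil, List.mem_singleton] at hv
    subst hv
    exact ⟨v, hvA, Walk.nil, Walk.nil, rfl, by simp⟩
  | @cons a b c h p ih =>
    by_cases ha : a ∈ A
    · exact ⟨a, ha, Walk.nil, Walk.cons h p, rfl, by simp⟩
    · obtain ⟨v, hv, hvA⟩ := hA
      simp only [Walk.support_cons, List.mem_cons] at hv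
      rcases hv with rfl | hv
      · exact absurd hvA ha
      obtain ⟨a', ha', p₁, p₂, rfl, hp⟩ := ih ⟨v, hv, hvA⟩
      refine ⟨a', ha', Walk.cons h p₁, p₂, rfl, fun w hw hwA => ?_⟩
      simp only [Walk.support_cons, List.mem_cons] at hw
      rcases hw with rfl | hw
      · exact absurd hwA ha
      · exact hp w hw hwA

/-- first exit: an edge `b a` of `p` with `a ∈ A` and a prefix up to `b` avoiding `A` -/
theorem first_exit {x y : V} (p : G.Walk x y) (A : Set V) (hx : x ∉ A)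
    (hA : ∃ v ∈ p.support, v ∈ A) :
    ∃ (b a : V) (h : G.Adj b a) (p₁ : G.Walk x b) (p₂ : G.Walk a y),
      p = p₁.append (Walk.cons h p₂) ∧ a ∈ A ∧ ∀ v ∈ p₁.support, v ∉ A := by
  induction p with
  | @nil x =>
    obtain ⟨v, hv, hvA⟩ := hA
    simp only [Walk.support_nil, List.mem_singleton] at hv
    subst hv
    exact absurd hvA hx
  | @cons a b c h p ih =>
    by_cases hb : b ∈ A
    · exact ⟨a, b, h, Walk.nil, p, rfl, hb, by simpa using hx⟩
    · obtain ⟨v, hv, hvA⟩ := hA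
      simp only [Walk.support_cons, List.mem_cons] at hv
      rcases hv with rfl | hv
      · exact absurd hvA hx
      obtain ⟨b', a', h', p₁, p₂, rfl, ha', hp⟩ := ih hb ⟨v, hv, hvA⟩
      refine ⟨b', a', h', Walk.cons h p₁, p₂, rfl, ha', fun w hw => ?_⟩
      simp only [Walk.support_cons, List.mem_cons] at hw
      rcases hw with rfl | hw
      · exact hx
      · exact hp w hw

/-- a property preserved along the edges of a walk inside `S` -/
theorem walk_ind {x y : V} (p : G.Walk x y) (S : Set V) (P : V → Prop)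
    (hS : ∀ v ∈ p.support, v ∈ S) (hx : P x)
    (hstep : ∀ a b, a ∈ S → b ∈ S → G.Adj a b → P a → P b) : ∀ v ∈ p.support, P v := by
  induction p with
  | nil => simpa using hx
  | @cons a b c h p ih =>
    intro v hv
    simp only [Walk.support_cons, List.mem_cons] at hv
    have hb : b ∈ S := hS b (by simp)
    rcases hv with rfl | hv
    · exact hx
    · exact ih (fun v hv => hS v (by simp [hv])) (hstep a b (hS a (by simp)) hb h hx) v hv

/-- discrete intermediate values along a walk -/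
theorem walk_ivt {x y : V} (p : G.Walk x y) (g : V → ℝ) (t ε : ℝ) (hε : 0 ≤ ε)
    (hg : ∀ a ∈ p.support, ∀ b ∈ p.support, G.Adj a b → g b ≤ g a + ε) (hx : g x ≤ t)
    (hy : t ≤ g y) : ∃ v ∈ p.support, t ≤ g v ∧ g v ≤ t + ε := by
  by_cases h0 : t ≤ g x
  · exact ⟨x, p.start_mem_support, h0, by linarith⟩
  obtain ⟨b, a, h, p₁, p₂, rfl, ha, hp⟩ := first_exit p {v | t ≤ g v} h0
    ⟨y, p.end_mem_support, hy⟩
  have hb : ¬ t ≤ g b := hp b p₁.end_mem_support
  have h1 := hg b (by simp) a (by simp) h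
  exact ⟨a, by simp, ha, by linarith [not_le.1 hb]⟩

end walks

/-! ### geodesic lines -/

namespace Geo

variable {V : Type} {G : SimpleGraph V} {ℓ : Sym2 V → ℝ} {δ : ℝ}

theorem el_eq (Q : Geo G ℓ) {i : ℕ} (hi : i < Q.n) : Q.el i = ℓ s(Q.v i, Q.v (i + 1)) := by
  simp [el, Q.step i hi]

theorem el_pos (h : WG G ℓ δ) (Q : Geo G ℓ) {i : ℕ} (hi : i < Q.n) : 0 < Q.el i := by
  rw [Q.el_eq hi]; exact h.adj_pos (Q.adj i hi)

theorem el_le (h : WG G ℓ δ) (Q : Geo G ℓ) {i : ℕ} (hi : i < Q.n) : Q.el i ≤ δ := by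
  rw [Q.el_eq hi]; exact h.adj_le (Q.adj i hi)

theorem pos_mono (h : WG G ℓ δ) (Q : Geo G ℓ) {i j : ℕ} (hij : i ≤ j) (hj : j ≤ Q.n) :
    Q.pos i ≤ Q.pos j := by linarith [Q.dist i j hij hj, h.nonneg (Q.v i) (Q.v j)]

theorem pos_lt (h : WG G ℓ δ) (Q : Geo G ℓ) {i j : ℕ} (hij : i < j) (hj : j ≤ Q.n) :
    Q.pos i < Q.pos j := by
  have h1 := Q.el_pos h (lt_of_lt_of_le hij hj)
  have h2 := Q.pos_mono h (show i + 1 ≤ j from hij) hj
  unfold el at h1; linarith

theorem d_abs (h : WG G ℓ δ) (Q : Geo G ℓ) {i j : ℕ} (hi : i ≤ Q.n) (hj : j ≤ Q.n) :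
    wdist G ℓ (Q.v i) (Q.v j) = |Q.pos i - Q.pos j| := by
  rcases le_total i j with hij | hij
  · rw [Q.dist i j hij hj, abs_sub_comm, abs_of_nonneg (by linarith [Q.pos_mono h hij hj])]
  · rw [h.comm, Q.dist j i hij hi, abs_of_nonneg (by linarith [Q.pos_mono h hij hi])]

theorem v_inj (h : WG G ℓ δ) (Q : Geo G ℓ) {i j : ℕ} (hi : i ≤ Q.n) (hj : j ≤ Q.n)
    (hv : Q.v i = Q.v j) : i = j := by
  have h1 := Q.d_abs h hi hj
  rw [hv, h.self] at h1
  have h2 : Q.pos i = Q.pos j := by linarith [abs_eq_zero.1 h1.symm]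
  rcases lt_trichotomy i j with hij | hij | hij
  · linarith [Q.pos_lt h hij hj]
  · exact hij
  · linarith [Q.pos_lt h hij hi]

theorem sum_el (Q : Geo G ℓ) {i j : ℕ} (hij : i ≤ j) :
    ∑ k ∈ Finset.Ico i j, Q.el k = Q.pos j - Q.pos i := by
  induction j, hij using Nat.le_induction with
  | base => simp
  | succ j hij ih => rw [Finset.sum_Ico_succ_top hij, ih, el]; ring

/-- the segment of a line as a walk -/
theorem walk (Q : Geo G ℓ) {i j : ℕ} (hij : i ≤ j) (hj : j ≤ Q.n) :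
    ∃ p : G.Walk (Q.v i) (Q.v j), wl ℓ p = Q.pos j - Q.pos i ∧
      ∀ x, x ∈ p.support ↔ ∃ k, i ≤ k ∧ k ≤ j ∧ Q.v k = x := by
  induction j, hij using Nat.le_induction with
  | base =>
    refine ⟨Walk.nil, by simp, fun x => ?_⟩
    simp only [Walk.support_nil, List.mem_singleton]
    exact ⟨fun hx => ⟨i, le_rfl, le_rfl, hx.symm⟩,
      fun ⟨k, h1, h2, h3⟩ => by rw [← h3, le_antisymm h2 h1]⟩
  | succ j hij ih =>
    obtain ⟨p, hp, hs⟩ := ih (Nat.le_of_succ_le hj)
    refine ⟨p.concat (Q.adj j hj), by rw [wl_concat, hp, Q.step j hj]; ring, fun x => ?_⟩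
    rw [Walk.support_concat, List.mem_append, hs, List.mem_singleton]
    constructor
    · rintro (⟨k, h1, h2, h3⟩ | rfl)
      · exact ⟨k, h1, h2.trans (Nat.le_succ j), h3⟩
      · exact ⟨j + 1, hij.trans (Nat.le_succ j), le_rfl, rfl⟩
    · rintro ⟨k, h1, h2, h3⟩
      rcases Nat.of_le_succ h2 with h2 | rfl
      · exact Or.inl ⟨k, h1, h2, h3⟩
      · exact Or.inr h3.symm

/-- the reversed line -/
def rev (h : WG G ℓ δ) (Q : Geo G ℓ) : Geo G ℓ where
  n := Q.n
  v i := Q.v (Q.n - i)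
  pos i := - Q.pos (Q.n - i)
  adj i hi := by
    have := (Q.adj (Q.n - (i + 1)) (by omega)).symm
    rwa [show Q.n - (i + 1) + 1 = Q.n - i by omega] at this
  step i hi := by
    have := Q.step (Q.n - (i + 1)) (by omega)
    rw [show Q.n - (i + 1) + 1 = Q.n - i by omega] at this
    rw [this, Sym2.eq_swap]; ring
  dist i j hij hj := by
    rw [h.comm, Q.dist (Q.n - j) (Q.n - i) (by omega) (by omega)]; ring

end Geo

section ofwalk

variable {V : Type} {G : SimpleGraph V} {ℓ : Sym2 V → ℝ} {δ : ℝ}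

theorem wl_take_succ {x y : V} (p : G.Walk x y) {i : ℕ} (hi : i < p.length) :
    wl ℓ (p.take (i + 1)) = wl ℓ (p.take i) + ℓ s(p.getVert i, p.getVert (i + 1)) := by
  induction p generalizing i with
  | nil => simp at hi
  | @cons a b c h p ih =>
    cases i with
    | zero => simp [Walk.take]
    | succ i =>
      have := ih (i := i) (by simpa using hi)
      simp only [Walk.take, wl_cons, Walk.getVert_cons_succ] at this ⊢
      rw [this]; ring

/-- a geodesic walk as a line -/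
theorem WG.geo_of_walk (h : WG G ℓ δ) {x y : V} (p : G.Walk x y)
    (hp : wl ℓ p = wdist G ℓ x y) :
    ∃ Q : Geo G ℓ, Q.n = p.length ∧ (∀ i, Q.v i = p.getVert i) ∧ Q.pos 0 = 0 ∧
      Q.pos Q.n = wl ℓ p := by
  have hstep := fun i (hi : i < p.length) => wl_take_succ (ℓ := ℓ) p hi
  have hup : ∀ i j, i ≤ j → j ≤ p.length →
      wdist G ℓ (p.getVert i) (p.getVert j) ≤ wl ℓ (p.take j) - wl ℓ (p.take i) := by
    intro i j hij hj
    induction j, hij using Nat.le_induction with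
    | base => simp [h.self]
    | succ j hij ih =>
      have h1 := ih (Nat.le_of_succ_le hj)
      have h2 := h.edge (p.adj_getVert_succ (show j < p.length from hj))
      rw [hstep j hj]
      linarith [h.tri (p.getVert i) (p.getVert j) (p.getVert (j + 1))]
  have h0 : wl ℓ (p.take 0) = 0 := by cases p <;> simp [Walk.take]
  have hn : wl ℓ (p.take p.length) = wl ℓ p := by
    clear hp hstep hup h0
    induction p with
    | nil => simp [Walk.take]
    | cons ha p ih => simp only [Walk.length_cons, Walk.take, wl_cons]; exact congrArg _ ih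
  refine ⟨⟨p.length, p.getVert, fun i => wl ℓ (p.take i), fun i hi => p.adj_getVert_succ hi,
    hstep, fun i j hij hj => le_antisymm (hup i j hij hj) ?_⟩, rfl, fun _ => rfl, h0, hn⟩
  have h1 := hup 0 i (Nat.zero_le i) (hij.trans hj)
  have h2 := hup j p.length hj le_rfl
  rw [h0, Walk.getVert_zero] at h1
  rw [hn, Walk.getVert_length] at h2
  linarith [h.tri x (p.getVert i) y, h.tri (p.getVert i) (p.getVert j) y]

/-- a line between any two vertices -/
theorem WG.exists_line [Fintype V] (h : WG G ℓ δ) (x y : V) :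
    ∃ Q : Geo G ℓ, Q.v 0 = x ∧ Q.v Q.n = y ∧ Q.pos 0 = 0 ∧ Q.pos Q.n = wdist G ℓ x y := by
  obtain ⟨p, -, hp⟩ := h.exists_geo x y
  obtain ⟨Q, hn, hv, h0, h1⟩ := h.geo_of_walk p hp
  exact ⟨Q, by simp [hv], by simp [hv, hn], h0, h1.trans hp⟩

end ofwalk

end Crest.Agent.N206.PL
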