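import Crest.Agent.N206.PL.Basic

/-!
# Row 206, S0317: connected sets, minor models, cut semimetrics (helper55)
-/

set_option autoImplicit false

noncomputable section

open scoped Classical

namespace Crest.Agent.N206.PL

open Crest.GeometryTopology.GraphMetric Crest.Agent.R206.Iface534 SimpleGraph

section conn

variable {V : Type} {G : SimpleGraph V} {ℓ : Sym2 V → ℝ} {δ : ℝ}

/-- a set is connected when all its points are joined inside it to one point -/
theorem Cn.of_root {S : Set V} {r : V} (hr : r ∈ S)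
    (h : ∀ x ∈ S, ∃ p : G.Walk r x, ∀ v ∈ p.support, v ∈ S) : Cn G S := by
  refine ⟨⟨r, hr⟩, fun x hx y hy => ?_⟩
  obtain ⟨p, hp⟩ := h x hx
  obtain ⟨q, hq⟩ := h y hy
  refine ⟨p.reverse.append q, fun v hv => ?_⟩
  rw [Walk.mem_support_append_iff, Walk.support_reverse, List.mem_reverse] at hv
  exact hv.elim (hp v) (hq v)

theorem Cn.single (x : V) : Cn G {x} :=
  Cn.of_root rfl fun y hy => by
    obtain rfl : y = x := hy
    exact ⟨Walk.nil, by simp⟩

theorem Cn.support {x y : V} (p : G.Walk x y) : Cn G {v | v ∈ p.support} :=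
  Cn.of_root p.start_mem_support fun v hv =>
    ⟨p.takeUntil v hv, fun _ hw => p.support_takeUntil_subset_support hv hw⟩

theorem Cn.union {A B : Set V} (hA : Cn G A) (hB : Cn G B) {x : V} (hxA : x ∈ A) (hxB : x ∈ B) :
    Cn G (A ∪ B) :=
  Cn.of_root (Or.inl hxA) fun y hy => by
    rcases hy with hy | hy
    · obtain ⟨p, hp⟩ := hA.2 x hxA y hy
      exact ⟨p, fun v hv => Or.inl (hp v hv)⟩
    · obtain ⟨p, hp⟩ := hB.2 x hxB y hy
      exact ⟨p, fun v hv => Or.inr (hp v hv)⟩

theorem Cn.union_tch {A B : Set V} (hA : Cn G A) (hB : Cn G B) (h : Tch G A B) :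
    Cn G (A ∪ B) := by
  obtain ⟨a, ha, b, hb, hab⟩ := h
  refine Cn.of_root (Or.inl ha) fun y hy => ?_
  rcases hy with hy | hy
  · obtain ⟨p, hp⟩ := hA.2 a ha y hy
    exact ⟨p, fun v hv => Or.inl (hp v hv)⟩
  · obtain ⟨p, hp⟩ := hB.2 b hb y hy
    refine ⟨Walk.cons hab p, fun v hv => ?_⟩
    simp only [Walk.support_cons, List.mem_cons] at hv
    rcases hv with rfl | hv
    · exact Or.inl ha
    · exact Or.inr (hp v hv)

/-- connected sets attached to a connected set -/
theorem Cn.attach {A : Set V} {ι : Type} (B : ι → Set V) (hA : Cn G A) (hB : ∀ i, Cn G (B i))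
    (h : ∀ i, (A ∩ B i).Nonempty ∨ Tch G A (B i)) : Cn G (A ∪ ⋃ i, B i) := by
  obtain ⟨a, ha⟩ := hA.1
  refine Cn.of_root (Or.inl ha) fun y hy => ?_
  rcases hy with hy | hy
  · obtain ⟨p, hp⟩ := hA.2 a ha y hy
    exact ⟨p, fun v hv => Or.inl (hp v hv)⟩
  · obtain ⟨i, hi⟩ := Set.mem_iUnion.1 hy
    have hc : Cn G (A ∪ B i) := by
      rcases h i with ⟨x, hx⟩ | h
      · exact hA.union (hB i) hx.1 hx.2
      · exact hA.union_tch (hB i) h
    obtain ⟨p, hp⟩ := hc.2 a (Or.inl ha) y (Or.inr hi)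
    exact ⟨p, fun v hv => (hp v hv).imp id fun h' => Set.mem_iUnion.2 ⟨i, h'⟩⟩

theorem Tch.symm {A B : Set V} (h : Tch G A B) : Tch G B A := by
  obtain ⟨a, ha, b, hb, hab⟩ := h
  exact ⟨b, hb, a, ha, hab.symm⟩

theorem Tch.mono {A B A' B' : Set V} (h : Tch G A B) (hA : A ⊆ A') (hB : B ⊆ B') :
    Tch G A' B' := by
  obtain ⟨a, ha, b, hb, hab⟩ := h
  exact ⟨a, hA ha, b, hB hb, hab⟩

/-- the component of `x` inside `S` (empty when `x ∉ S`) -/
def cmp (G : SimpleGraph V) (S : Set V) (x : V) : Set V :=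
  {y | ∃ p : G.Walk x y, ∀ v ∈ p.support, v ∈ S}

theorem cmp_sub (S : Set V) (x : V) : cmp G S x ⊆ S := fun _ ⟨p, hp⟩ => hp _ p.end_mem_support

theorem mem_cmp_self {S : Set V} {x : V} (hx : x ∈ S) : x ∈ cmp G S x := ⟨Walk.nil, by simpa⟩

theorem support_sub_cmp {S : Set V} {x y : V} (p : G.Walk x y) (hp : ∀ v ∈ p.support, v ∈ S) :
    ∀ v ∈ p.support, v ∈ cmp G S x := fun v hv =>
  ⟨p.takeUntil v hv, fun w hw => hp w (p.support_takeUntil_subset_support hv hw)⟩

theorem cn_cmp {S : Set V} {x : V} (hx : x ∈ S) : Cn G (cmp G S x) :=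
  Cn.of_root (mem_cmp_self hx) fun _ ⟨p, hp⟩ => ⟨p, support_sub_cmp p hp⟩

theorem cmp_symm {S : Set V} {x y : V} (h : y ∈ cmp G S x) : x ∈ cmp G S y := by
  obtain ⟨p, hp⟩ := h
  exact ⟨p.reverse, by simpa using hp⟩

theorem cmp_trans {S : Set V} {x y z : V} (h : y ∈ cmp G S x) (h' : z ∈ cmp G S y) :
    z ∈ cmp G S x := by
  obtain ⟨p, hp⟩ := h
  obtain ⟨q, hq⟩ := h'
  refine ⟨p.append q, fun v hv => ?_⟩
  rw [Walk.mem_support_append_iff] at hv
  exact hv.elim (hp v) (hq v)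

theorem cmp_eq {S : Set V} {x y : V} (h : y ∈ cmp G S x) : cmp G S y = cmp G S x :=
  Set.Subset.antisymm (fun _ hz => cmp_trans h hz) fun _ hz => cmp_trans (cmp_symm h) hz

theorem cmp_adj {S : Set V} {x y z : V} (h : y ∈ cmp G S x) (hyz : G.Adj y z) (hz : z ∈ S) :
    z ∈ cmp G S x :=
  cmp_trans h ⟨Walk.cons hyz Walk.nil, fun v hv => by
    simp only [Walk.support_cons, Walk.support_nil, List.mem_cons, List.not_mem_nil,
      or_false] at hv
    rcases hv with rfl | rfl
    · exact cmp_sub S x h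
    · exact hz⟩

theorem Cn.sub_cmp {S A : Set V} (hA : Cn G A) (hAS : A ⊆ S) {x : V} (hx : x ∈ A) :
    A ⊆ cmp G S x := fun y hy => by
  obtain ⟨p, hp⟩ := hA.2 x hx y hy
  exact ⟨p, fun v hv => hAS (hp v hv)⟩

theorem cmp_mono {S S' : Set V} (h : S ⊆ S') (x : V) : cmp G S x ⊆ cmp G S' x :=
  fun _ ⟨p, hp⟩ => ⟨p, fun v hv => h (hp v hv)⟩

theorem cmp_disjoint {S : Set V} {x y : V} (h : y ∉ cmp G S x) :
    Disjoint (cmp G S x) (cmp G S y) :=
  Set.disjoint_left.2 fun _ hz hz' => h (cmp_trans hz (cmp_symm hz'))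

theorem mem_bl {p v : V} {r : ℝ} : v ∈ bl G ℓ p r ↔ wdist G ℓ p v ≤ r := Iff.rfl

theorem WG.cn_bl [Fintype V] (h : WG G ℓ δ) (p : V) {r : ℝ} (hr : 0 ≤ r) : Cn G (bl G ℓ p r) :=
  Cn.of_root (r := p) (by simpa [mem_bl, h.self] using hr) fun x hx => by
    obtain ⟨q, -, hq⟩ := h.exists_geo p x
    exact ⟨q, fun v hv => (h.mem_left q hv).trans (hq.le.trans hx)⟩

theorem Sep.mono {A B : Set V} {x y : V} (h : Sep G A x y) (hAB : A ⊆ B) : Sep G B x y :=
  fun p => let ⟨v, hv, hA⟩ := h p; ⟨v, hv, hAB hA⟩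

theorem Sep.symm {A : Set V} {x y : V} (h : Sep G A x y) : Sep G A y x := fun p => by
  simpa using h p.reverse

theorem not_sep_iff {A : Set V} {x y : V} : ¬ Sep G A x y ↔ y ∈ cmp G Aᶜ x := by
  simp [Sep, cmp]

theorem MF.k33' (h : MF G) (A₁ A₂ A₃ B₁ B₂ B₃ : Set V) (a₁ : Cn G A₁) (a₂ : Cn G A₂)
    (a₃ : Cn G A₃) (b₁ : Cn G B₁) (b₂ : Cn G B₂) (b₃ : Cn G B₃) (a12 : Disjoint A₁ A₂)
    (a13 : Disjoint A₁ A₃) (a23 : Disjoint A₂ A₃) (b12 : Disjoint B₁ B₂) (b13 : Disjoint B₁ B₃)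
    (b23 : Disjoint B₂ B₃) (d11 : Disjoint A₁ B₁) (d12 : Disjoint A₁ B₂) (d13 : Disjoint A₁ B₃)
    (d21 : Disjoint A₂ B₁) (d22 : Disjoint A₂ B₂) (d23 : Disjoint A₂ B₃) (d31 : Disjoint A₃ B₁)
    (d32 : Disjoint A₃ B₂) (d33 : Disjoint A₃ B₃) (t11 : Tch G A₁ B₁) (t12 : Tch G A₁ B₂)
    (t13 : Tch G A₁ B₃) (t21 : Tch G A₂ B₁) (t22 : Tch G A₂ B₂) (t23 : Tch G A₂ B₃)
    (t31 : Tch G A₃ B₁) (t32 : Tch G A₃ B₂) (t33 : Tch G A₃ B₃) : False := by
  refine h.k33 ![A₁, A₂, A₃] ![B₁, B₂, B₃] (fun i => ?_) (fun i => ?_) (fun i j hij => ?_)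
    (fun i j hij => ?_) (fun i j => ?_) (fun i j => ?_)
  · fin_cases i <;> assumption
  · fin_cases i <;> assumption
  · fin_cases i <;> fin_cases j <;>
      first | exact absurd rfl hij | assumption | (apply Disjoint.symm; assumption)
  · fin_cases i <;> fin_cases j <;>
      first | exact absurd rfl hij | assumption | (apply Disjoint.symm; assumption)
  · fin_cases i <;> fin_cases j <;> assumption
  · fin_cases i <;> fin_cases j <;> assumption

theorem MF.k5' (h : MF G) (A B C D E : Set V) (a : Cn G A) (b : Cn G B) (c : Cn G C)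
    (d : Cn G D) (e : Cn G E) (ab : Disjoint A B) (ac : Disjoint A C) (ad : Disjoint A D)
    (ae : Disjoint A E) (bc : Disjoint B C) (bd : Disjoint B D) (be : Disjoint B E)
    (cd : Disjoint C D) (ce : Disjoint C E) (de : Disjoint D E) (tab : Tch G A B)
    (tac : Tch G A C) (tad : Tch G A D) (tae : Tch G A E) (tbc : Tch G B C) (tbd : Tch G B D)
    (tbe : Tch G B E) (tcd : Tch G C D) (tce : Tch G C E) (tde : Tch G D E) : False := by
  refine h.k5 ![A, B, C, D, E] (fun i => ?_) (fun i j hij => ?_) (fun i j hij => ?_)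
  · fin_cases i <;> assumption
  · fin_cases i <;> fin_cases j <;>
      first | exact absurd rfl hij | assumption | (apply Disjoint.symm; assumption)
  · fin_cases i <;> fin_cases j <;>
      first | exact absurd rfl hij | assumption | (apply Tch.symm; assumption)

end conn

/-! ### cut semimetrics -/

namespace IsCut

variable {V : Type} [Fintype V] {ρ ρ' : V → V → ℝ}

theorem zero : IsCut fun _ _ : V => (0 : ℝ) := ⟨fun _ => 0, fun _ => le_rfl, by simp [cutw]⟩

theorem add (h : IsCut ρ) (h' : IsCut ρ') : IsCut fun x y => ρ x y + ρ' x y := by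
  obtain ⟨w, hw, e⟩ := h
  obtain ⟨w', hw', e'⟩ := h'
  refine ⟨fun S => w S + w' S, fun S => add_nonneg (hw S) (hw' S), fun x y => ?_⟩
  simp only [e, e', cutw, add_mul, Finset.sum_add_distrib]

theorem smul (h : IsCut ρ) {c : ℝ} (hc : 0 ≤ c) : IsCut fun x y => c * ρ x y := by
  obtain ⟨w, hw, e⟩ := h
  refine ⟨fun S => c * w S, fun S => mul_nonneg hc (hw S), fun x y => ?_⟩
  simp only [e, cutw, Finset.mul_sum, mul_assoc]

theorem congr (h : IsCut ρ) (e : ∀ x y, ρ' x y = ρ x y) : IsCut ρ' := by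
  obtain ⟨w, hw, e'⟩ := h
  exact ⟨w, hw, fun x y => (e x y).trans (e' x y)⟩

theorem sum {ι : Type} (s : Finset ι) (r : ι → V → V → ℝ) (h : ∀ i ∈ s, IsCut (r i)) :
    IsCut fun x y => ∑ i ∈ s, r i x y := by
  induction s using Finset.induction_on with
  | empty => simpa using zero
  | insert a s ha ih =>
    refine ((h a (by simp)).add (ih fun i hi => h i (by simp [hi]))).congr fun x y => ?_
    rw [Finset.sum_insert ha]

/-- one cut -/
theorem one (S : Set V) : IsCut fun x y => if (x ∈ S ↔ y ∈ S) then (0 : ℝ) else 1 := by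
  refine ⟨fun T => if T = S.toFinset then 1 else 0, fun T => by dsimp only; split_ifs <;> norm_num,
    fun x y => ?_⟩
  simp only [cutw, ite_mul, one_mul, zero_mul, Finset.sum_ite_eq', Finset.mem_univ, if_true,
    Set.mem_toFinset]

theorem self (h : IsCut ρ) (x : V) : ρ x x = 0 := by
  obtain ⟨w, -, e⟩ := h
  rw [e, cutw_self]

theorem tri (h : IsCut ρ) (x y z : V) : ρ x z ≤ ρ x y + ρ y z := by
  obtain ⟨w, hw, e⟩ := h
  simp only [e]
  exact cutw_triangle w hw x y z

theorem symm (h : IsCut ρ) (x y : V) : ρ x y = ρ y x := by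
  obtain ⟨w, -, e⟩ := h
  simp only [e, cutw]
  exact Finset.sum_congr rfl fun S _ => by simp only [@iff_comm (x ∈ S)]

theorem nonneg (h : IsCut ρ) (x y : V) : 0 ≤ ρ x y := by
  have := h.tri x y x
  rw [h.self, h.symm y x] at this
  linarith

theorem le_d {G : SimpleGraph V} {ℓ : Sym2 V → ℝ} {δ K : ℝ} (h : IsCut ρ) (hG : WG G ℓ δ)
    (hK : 0 ≤ K) (he : ∀ x y, G.Adj x y → ρ x y ≤ K * ℓ s(x, y)) (x y : V) :
    ρ x y ≤ K * wdist G ℓ x y := le_mul_wdist hG.conn ρ K hK h.self h.tri he x y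

/-- a line metric is a cut semimetric -/
theorem abs (φ : V → ℝ) : IsCut fun x y => |φ x - φ y| := by
  generalize hn : (Finset.univ.image φ).card = n
  induction n using Nat.strong_induction_on generalizing φ with
  | _ n ih =>
    by_cases hc : ∀ x y, φ x = φ y
    · exact zero.congr fun x y => by rw [hc x y]; simp
    push Not at hc
    obtain ⟨x₀, y₀, hxy⟩ := hc
    obtain ⟨a, -, ha⟩ := Finset.exists_max_image Finset.univ φ ⟨x₀, Finset.mem_univ _⟩
    have hne : (Finset.univ.filter fun v => φ v ≠ φ a).Nonempty := by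
      by_cases h1 : φ x₀ = φ a
      · exact ⟨y₀, by simpa using fun h2 => hxy (h1.trans h2.symm)⟩
      · exact ⟨x₀, by simpa using h1⟩
    obtain ⟨b, hb, hbm⟩ := Finset.exists_max_image _ φ hne
    have hb' : φ b ≠ φ a := by simpa using hb
    have hba : φ b < φ a := lt_of_le_of_ne (ha b (Finset.mem_univ _)) hb'
    have hbm' : ∀ v, φ v ≠ φ a → φ v ≤ φ b := fun v hv => hbm v (by simpa using hv)
    let ψ : V → ℝ := fun v => if φ v = φ a then φ b else φ v
    have hsub : Finset.univ.image ψ ⊆ (Finset.univ.image φ).erase (φ a) := by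
      intro t ht
      obtain ⟨v, -, rfl⟩ := Finset.mem_image.1 ht
      by_cases hv : φ v = φ a
      · simp only [ψ, hv, if_true]
        exact Finset.mem_erase.2 ⟨hb', Finset.mem_image_of_mem _ (Finset.mem_univ _)⟩
      · simp only [ψ, hv, if_false]
        exact Finset.mem_erase.2 ⟨hv, Finset.mem_image_of_mem _ (Finset.mem_univ _)⟩
    have hlt : (Finset.univ.image ψ).card < n := hn ▸ (Finset.card_le_card hsub).trans_lt
      (Finset.card_erase_lt_of_mem (Finset.mem_image_of_mem _ (Finset.mem_univ _)))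
    refine ((ih _ hlt ψ rfl).add ((one {v | φ v = φ a}).smul (sub_pos.2 hba).le)).congr
      fun x y => ?_
    by_cases hx : φ x = φ a <;> by_cases hy : φ y = φ a
    · simp [ψ, hx, hy]
    · have := hbm' y hy
      simp only [ψ, hx, hy, if_true, if_false, Set.mem_ofPred_eq, iff_false, not_true, mul_one]
      rw [abs_of_nonneg (by linarith), abs_of_nonneg (by linarith)]; ring
    · have := hbm' x hx
      simp only [ψ, hx, hy, if_true, if_false, Set.mem_ofPred_eq, false_iff, not_true, mul_one]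
      rw [abs_of_nonpos (by linarith), abs_of_nonpos (by linarith)]; ring
    · simp [ψ, hx, hy]

/-- a function with cells: `|F x - F y|` inside a cell, `|F x| + |F y|` across cells -/
theorem cells {κ : Type} (c : V → κ) (F : V → ℝ) :
    IsCut fun x y => if c x = c y then |F x - F y| else |F x| + |F y| := by
  refine (sum (Finset.univ.image c)
    (fun k x y => |(if c x = k then F x else 0) - if c y = k then F y else 0|)
    fun k _ => abs fun x => if c x = k then F x else 0).congr fun x y => ?_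
  have hx : c x ∈ Finset.univ.image c := Finset.mem_image_of_mem _ (Finset.mem_univ _)
  have hy : c y ∈ Finset.univ.image c := Finset.mem_image_of_mem _ (Finset.mem_univ _)
  split_ifs with h
  · rw [Finset.sum_eq_single_of_mem (c x) hx]
    · simp [h]
    · intro k _ hk
      simp [← h, hk.symm]
  · rw [Finset.sum_eq_add_of_mem (c x) (c y) hx hy h]
    · simp [h, Ne.symm h]
    · intro k _ hk
      simp [hk.1.symm, hk.2.symm]

/-- pull back along a map -/
theorem comap {W : Type} [Fintype W] (h : IsCut ρ) (g : W → V) :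
    IsCut fun x y => ρ (g x) (g y) := by
  obtain ⟨w, hw, e⟩ := h
  refine (sum Finset.univ
    (fun S x y => w S * if (x ∈ {v | g v ∈ S} ↔ y ∈ {v | g v ∈ S}) then (0 : ℝ) else 1)
    fun S _ => ((one {v | g v ∈ S}).smul (hw S)).congr fun x y => by congr).congr fun x y => ?_
  rw [e, cutw]
  exact Finset.sum_congr rfl fun S _ => by simp only [Set.mem_ofPred_eq]

end IsCut

end Crest.Agent.N206.PL
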