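import Crest.Agent.N206.PL.Defs

/-!
# Row 206, S0317: summation over the levels (`EffStmt`, helper61)
-/

set_option autoImplicit false

noncomputable section

open scoped Classical

namespace Crest.Agent.N206.PL

open Finset Crest.GeometryTopology.GraphMetric Crest.Agent.R206.Iface534

namespace Eff

variable {V : Type} {G : SimpleGraph V} {ℓ : Sym2 V → ℝ}

theorem cut_nonneg [Fintype V] {ρ : V → V → ℝ} (h : IsCut ρ) (x y : V) : 0 ≤ ρ x y := by
  obtain ⟨w, hw, h⟩ := h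
  rw [h, cutw]
  exact sum_nonneg fun S _ => mul_nonneg (hw S) (by split_ifs <;> norm_num)

theorem cut_sum [Fintype V] {κ : Type} (s : Finset κ) (a : κ → ℝ) (ρ : κ → V → V → ℝ)
    (ha : ∀ k, 0 ≤ a k) (h : ∀ k, IsCut (ρ k)) : IsCut fun x y => ∑ k ∈ s, a k * ρ k x y := by
  choose w hw h using h
  refine ⟨fun S => ∑ k ∈ s, a k * w k S, fun S => sum_nonneg fun k _ => mul_nonneg (ha k) (hw k S),
    fun x y => ?_⟩
  simp only [h, cutw, mul_sum, sum_mul, mul_assoc]
  exact sum_comm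

theorem count {a t C : ℝ} (ha : 0 < a) (hC : 0 ≤ C) (N : ℕ) :
    ∑ k ∈ range N, (if a * 2 ^ k ≤ t ∧ t ≤ C * (a * 2 ^ k) then (1 : ℝ) else 0) ≤ 2 * C := by
  rcases le_or_gt t 0 with ht | ht
  · rw [sum_eq_zero fun k _ => if_neg fun h => by
      have : 0 < a * 2 ^ k := by positivity
      linarith [h.1]]
    positivity
  have h : ∀ N, ∑ k ∈ range N, (if a * 2 ^ k ≤ t then a * 2 ^ k else 0) ≤ min (2 * t) (a * 2 ^ N) := by
    intro N
    induction N with
    | zero => simp only [range_zero, sum_empty]; positivity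
    | succ N ih =>
      rw [sum_range_succ, pow_succ]
      have h1 : 0 < a * 2 ^ N := by positivity
      rw [le_min_iff] at ih ⊢
      split_ifs <;> constructor <;> linarith [ih.1, ih.2]
  refine le_of_mul_le_mul_left ?_ ht
  refine le_trans ?_ ((mul_le_mul_of_nonneg_left ((h N).trans (min_le_left _ _)) hC).trans_eq
    (by ring))
  rw [mul_sum, mul_sum]
  refine sum_le_sum fun k _ => ?_
  by_cases h1 : a * 2 ^ k ≤ t ∧ t ≤ C * (a * 2 ^ k)
  · rw [if_pos h1, if_pos h1.1, mul_one]; exact h1.2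
  · rw [if_neg h1, mul_zero]; split_ifs <;> positivity

theorem geom (m I : ℕ) : ∑ i ∈ range I, (2 : ℝ) ^ i * (1 / 4) ^ (i - m) ≤ 3 * 2 ^ m := by
  have h : ∑ i ∈ range I, (2 : ℝ) ^ i * (1 / 4) ^ (i - m) ≤
      2 ^ (min I (m + 1)) + 2 ^ m * (1 - (1 / 2) ^ (I - (m + 1))) := by
    induction I with
    | zero => simp
    | succ I ih =>
      rw [sum_range_succ]
      rcases le_or_gt I m with h | h
      · rw [min_eq_left (by omega), show I - (m + 1) = 0 by omega] at ih
        rw [min_eq_left (by omega), show I + 1 - (m + 1) = 0 by omega, show I - m = 0 by omega,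
          pow_succ]
        linarith
      · obtain ⟨j, rfl⟩ : ∃ j, I = m + 1 + j := ⟨I - (m + 1), by omega⟩
        rw [min_eq_right (by omega), show m + 1 + j - (m + 1) = j by omega] at ih
        rw [min_eq_right (by omega), show m + 1 + j + 1 - (m + 1) = j + 1 by omega,
          show m + 1 + j - m = j + 1 by omega]
        have e : (2 : ℝ) ^ (m + 1 + j) * (1 / 4) ^ (j + 1) = 2 ^ m * (1 / 2) ^ (j + 1) := by
          rw [add_assoc, add_comm 1 j, pow_add, mul_assoc, ← mul_pow]; norm_num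
        rw [e, pow_succ (1 / 2 : ℝ)]
        linarith
  have h1 : (2 : ℝ) ^ (min I (m + 1)) ≤ 2 ^ (m + 1) :=
    pow_le_pow_right₀ one_le_two (min_le_right _ _)
  have h2 : (0 : ℝ) ≤ 2 ^ m * (1 / 2) ^ (I - (m + 1)) := by positivity
  rw [pow_succ] at h1
  linarith

/-- the next element of `P` -/
def nx (P : Finset ℕ) (p : ℕ) : ℕ := sInf {r | r ∈ P ∧ p < r}

theorem cons_nx {P : Finset ℕ} {p n : ℕ} (hp : p ∈ P) (hn : n ∈ P) (h : p < n) :
    Cons P p (nx P p) :=
  have h1 := Nat.sInf_mem (s := {r | r ∈ P ∧ p < r}) ⟨n, hn, h⟩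
  ⟨hp, h1.1, h1.2, fun _ hr h' => Nat.sInf_le ⟨hr, h'⟩⟩

theorem sum_le_pieces {P : Finset ℕ} {n : ℕ} (h0 : 0 ∈ P) (hn : n ∈ P) (g : ℕ → ℝ)
    (hg : ∀ i < n, 0 ≤ g i) :
    ∑ i ∈ range n, g i ≤ ∑ p ∈ P.filter (· < n), ∑ i ∈ Ico p (nx P p), g i := by
  have h1 : ∀ p ∈ P.filter (· < n), ∑ i ∈ Ico p (nx P p), g i =
      ∑ i ∈ range n, if i ∈ Ico p (nx P p) then g i else 0 := fun p hp => by
    rw [← sum_filter]
    congr 1
    ext i
    have := (cons_nx (mem_filter.1 hp).1 hn (mem_filter.1 hp).2).2.2.2 n hn (mem_filter.1 hp).2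
    simp only [mem_filter, mem_range, mem_Ico]
    omega
  rw [sum_congr rfl h1, sum_comm]
  refine sum_le_sum fun i hi => ?_
  have hi' := mem_range.1 hi
  have h2 : Nat.findGreatest (· ∈ P) i ∈ P := Nat.findGreatest_spec (P := (· ∈ P)) (Nat.zero_le i) h0
  have h3 := Nat.findGreatest_le (P := (· ∈ P)) i
  have h4 := cons_nx h2 hn (by omega)
  refine le_trans ?_ (single_le_sum (f := fun p => if i ∈ Ico p (nx P p) then g i else 0)
    (fun p _ => by split_ifs; exacts [hg i hi', le_rfl]) (mem_filter.2 ⟨h2, by omega⟩))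
  rw [if_pos (mem_Ico.2 ⟨h3, not_le.1 fun h => Nat.findGreatest_is_greatest h4.2.2.1 h h4.2.1⟩)]

theorem pos_mono {δ : ℝ} (hG : WG G ℓ δ) (Q : Geo G ℓ) {i j : ℕ} (h : i ≤ j) (hj : j ≤ Q.n) :
    Q.pos i ≤ Q.pos j := by
  linarith [Q.dist i j h hj, wdist_nonneg hG.conn hG.pos (Q.v i) (Q.v j)]

theorem el_eq (Q : Geo G ℓ) {i : ℕ} (h : i < Q.n) : Q.el i = ℓ s(Q.v i, Q.v (i + 1)) := by
  rw [Geo.el, Q.step i h]; ring

theorem el_nonneg {δ : ℝ} (hG : WG G ℓ δ) (Q : Geo G ℓ) {i : ℕ} (h : i < Q.n) : 0 ≤ Q.el i :=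
  sub_nonneg.2 (pos_mono hG Q (Nat.le_succ i) h)

theorem short_le {δ : ℝ} (hG : WG G ℓ δ) (Q : Geo G ℓ) {p p' : ℕ} (h : p ≤ p') (hp : p' ≤ Q.n)
    {r : ℝ} (hr : 0 ≤ r) (hδ : 0 ≤ δ) (A : ℕ → Prop)
    (hA : ∀ i, p ≤ i → i < p' → A i → Q.pos i - Q.pos p ≤ r ∨ Q.pos p' - Q.pos i ≤ r) :
    ∑ i ∈ Ico p p', (if A i then Q.el i else 0) ≤ 2 * r + δ := by
  let φ : ℕ → ℝ := fun i => min (Q.pos i) (Q.pos p + r + δ) + max (Q.pos i) (Q.pos p' - r)
  refine (sum_le_sum (g := fun i => φ (i + 1) - φ i) fun i hi => ?_).trans ?_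
  · obtain ⟨h1, h2⟩ := mem_Ico.1 hi
    have h3 := pos_mono hG Q (Nat.le_succ i) (by omega)
    have h4 : Q.pos (i + 1) - Q.pos i ≤ δ := by
      have := el_eq Q (i := i) (by omega)
      rw [Geo.el] at this
      exact this.trans_le (hG.small _ (Q.adj i (by omega)))
    have h5 := min_le_min_right (Q.pos p + r + δ) h3
    have h6 := max_le_max_right (Q.pos p' - r) h3
    simp only [φ, Geo.el, Nat.succ_eq_add_one] at *
    split_ifs with hi
    · rcases hA i h1 h2 hi with h7 | h7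
      · rw [min_eq_left (by linarith), min_eq_left (by linarith)]; linarith
      · rw [max_eq_left (by linarith), max_eq_left (by linarith)]; linarith
    · linarith
  · rw [sum_Ico_sub _ h]
    have h3 := pos_mono hG Q h hp
    simp only [φ]
    rw [min_eq_left (a := Q.pos p) (by linarith), max_eq_left (a := Q.pos p') (by linarith)]
    linarith [min_le_right (Q.pos p') (Q.pos p + r + δ), le_max_right (Q.pos p) (Q.pos p' - r)]

/-- the scale functions -/
theorem exists_scales [Fintype V] {δ B : ℝ} (hG : WG G ℓ δ) (hB : 4 ≤ B)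
    (R : (V → ℝ) → Set V → Prop)
    (h : ∀ t : V → ℝ, (∀ x, 0 ≤ t x) → (∀ x y, B * |t x - t y| ≤ wdist G ℓ x y) → ∃ S, R t S)
    {s0 : ℝ} (hs : 0 < s0) :
    ∃ (t : ℕ → V → ℝ) (Sg : ℕ → Set V) (I : ℕ), (∀ i, R (t i) (Sg i)) ∧
      (∀ x y, wdist G ℓ x y ≤ t 0 x) ∧ (∀ x, t I x < s0) ∧
      (∀ i x y, 4 * |t i x - t i y| ≤ wdist G ℓ x y) ∧ (∀ i x, 4 * t (i + 1) x ≤ t i x) ∧
      (∀ i, ∀ x ∈ Sg i, t (i + 1) x ≤ 0) ∧
      ∀ i x r, t (i + 1) x < r → t i x < B * r ∨ ∃ y ∈ Sg i, wdist G ℓ x y < B * r := by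
  have hd := wdist_nonneg hG.conn hG.pos
  have hB0 : 0 < B := by linarith
  choose! sg hsg using h
  let st : (V → ℝ) → V → ℝ := fun t x =>
    (univ.filter (· ∈ sg t)).fold min (t x) (wdist G ℓ x) / B
  obtain ⟨T0, hT0⟩ := (Set.finite_range fun z : V × V => wdist G ℓ z.1 z.2).bddAbove
  let t : ℕ → V → ℝ := fun i => st^[i] fun _ => max T0 0
  have ht : ∀ i x, B * t (i + 1) x = (univ.filter (· ∈ sg (t i))).fold min (t i x) (wdist G ℓ x) :=
    fun i x => by simp only [t, Function.iterate_succ_apply', st]; field_simp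
  have h1 : ∀ i, (∀ x, 0 ≤ t i x) ∧ ∀ x y, B * |t i x - t i y| ≤ wdist G ℓ x y := by
    intro i
    induction i with
    | zero => exact ⟨fun _ => le_max_right _ _, fun x y => by simpa [t] using hd x y⟩
    | succ i ih =>
      refine ⟨fun x => le_of_mul_le_mul_left ?_ hB0, ?_⟩
      · rw [ht, mul_zero, le_fold_min]; exact ⟨ih.1 x, fun y _ => hd x y⟩
      have key : ∀ x y, B * t (i + 1) x - wdist G ℓ x y ≤ B * t (i + 1) y := fun x y => by
        rw [ht i y, le_fold_min, ht i x]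
        refine ⟨sub_le_iff_le_add.2 ((fold_min_le _).2 (.inl ?_)), fun z hz =>
          sub_le_iff_le_add.2 ((fold_min_le _).2 (.inr ⟨z, hz, ?_⟩))⟩
        · nlinarith [ih.2 x y, le_abs_self (t i x - t i y), abs_nonneg (t i x - t i y)]
        · linarith [wdist_triangle hG.conn hG.pos x y z]
      intro x y
      rw [← abs_of_pos hB0, ← abs_mul, abs_le, mul_sub]
      constructor <;> linarith [key x y, key y x, wdist_comm hG.conn hG.pos x y]
  have h2 : ∀ i x, 4 * t (i + 1) x ≤ t i x := fun i x => by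
    have : B * t (i + 1) x ≤ t i x := by rw [ht]; exact (fold_min_le _).2 (.inl le_rfl)
    nlinarith [(h1 (i + 1)).1 x]
  have h3 : ∀ i x, t i x ≤ max T0 0 * (1 / 4) ^ i := fun i x => by
    induction i with
    | zero => simp [t]
    | succ i ih => rw [pow_succ]; linarith [h2 i x]
  obtain ⟨I, hI⟩ := exists_pow_lt_of_lt_one (div_pos hs (show 0 < max T0 0 + 1 by positivity))
    (show (1 / 4 : ℝ) < 1 by norm_num)
  refine ⟨t, fun i => sg (t i), I, fun i => hsg _ (h1 i).1 (h1 i).2,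
    fun x y => le_max_of_le_left (hT0 ⟨(x, y), rfl⟩), fun x => (h3 I x).trans_lt ?_,
    fun i x y => by nlinarith [(h1 i).2 x y, abs_nonneg (t i x - t i y)], h2,
    fun i x hx => le_of_mul_le_mul_left ?_ hB0, fun i x r hr => ?_⟩
  · rw [lt_div_iff₀ (by positivity)] at hI
    have : (0 : ℝ) < (1 / 4) ^ I := by positivity
    nlinarith
  · rw [ht, mul_zero]
    exact (fold_min_le _).2 (.inr ⟨x, mem_filter.2 ⟨mem_univ _, hx⟩, (wdist_self hG.conn hG.pos x).le⟩)
  · have := mul_lt_mul_of_pos_left hr hB0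
    rw [ht, fold_min_lt] at this
    exact this.imp id fun ⟨y, hy, h⟩ => ⟨y, (mem_filter.1 hy).2, h⟩

theorem vol_nonneg {δ : ℝ} (hG : WG G ℓ δ) {ι : Type} [Fintype ι] (Q : ι → Geo G ℓ) {f : ι → ℝ}
    (hf : ∀ q, 0 ≤ f q) (A : ι → ℕ → Prop) : 0 ≤ vol Q f A :=
  sum_nonneg fun q _ => mul_nonneg (hf q) (sum_nonneg fun i hi => by
    split_ifs; exacts [el_nonneg hG _ (mem_range.1 hi), le_rfl])

theorem vol_le_add {δ : ℝ} (hG : WG G ℓ δ) {ι : Type} [Fintype ι] (Q : ι → Geo G ℓ) {f : ι → ℝ}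
    (hf : ∀ q, 0 ≤ f q) {A A₁ A₂ : ι → ℕ → Prop} (h : ∀ q i, A q i → A₁ q i ∨ A₂ q i) :
    vol Q f A ≤ vol Q f A₁ + vol Q f A₂ := by
  simp only [vol, ← sum_add_distrib, ← mul_add]
  refine sum_le_sum fun q _ => mul_le_mul_of_nonneg_left (sum_le_sum fun i hi => ?_) (hf q)
  have := el_nonneg hG _ (mem_range.1 hi)
  have := h q i
  split_ifs <;> first | linarith | tauto

end Eff

open Eff in
theorem eff (level : LevelStmt) (split : SplitStmt) (neck : NeckIneqStmt) : EffStmt := by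
  obtain ⟨B, X, K, c, ε, hB, hX, hK, hc, hε, level⟩ := level
  obtain ⟨η, hη, hη1, hη2⟩ : ∃ η : ℝ, 0 < η ∧ η ≤ 1 / 4 ∧ 52224 * K * η ≤ c / 2 :=
    ⟨min (1 / 4) (c / 2 / (52224 * K)), by positivity, min_le_left _ _, by
      rw [← le_div_iff₀' (by positivity)]; exact min_le_right _ _⟩
  refine ⟨16 * K * (2 + 96 * (8 * X / η + 2)) * (2 / c), min ε 1, by positivity, ?_⟩
  intro V _ G ℓ δ s0 hG hMF hs hδ ι _ Q f hf hf0 hlen
  have hδ1 : δ ≤ s0 := hδ.trans (mul_le_of_le_one_left hs.le (min_le_right _ _))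
  obtain ⟨t, Sg, I, hR, t0, tI, tlip, tdec, tS, tnext⟩ := exists_scales hG hB _
    (fun t h1 h2 => level V G ℓ δ hG hMF s0 hs
      (hδ.trans (mul_le_mul_of_nonneg_right (min_le_left _ _) hs.le)) t h1 h2 ι Q f hf) hs
  have hvol := fun i => (hR i).1
  have hserve := fun i => (hR i).2
  clear hR level
  have S : ∀ q, Splits (Q q) η s0 := fun q => (split V G ℓ δ hG (Q q) η s0 hη hs).some
  let PP : ι → Finset ℕ := fun q => (S q).P.filter (· < (Q q).n)
  let nn : ι → ℕ → ℕ := fun q p => nx (S q).P p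
  let L : ι → ℕ → ℝ := fun q p => (Q q).pos (nn q p) - (Q q).pos p
  let m : ι → ℕ → ℕ := fun q p => Nat.findGreatest (fun i => L q p ≤ t i ((Q q).v p)) I
  let W : ι → ℕ → ℕ → ℝ := fun q p i => 8 * L q p * (1 / 4) ^ (i - m q p)
  have hcons : ∀ q, ∀ p ∈ PP q, Cons (S q).P p (nn q p) := fun q p hp =>
    cons_nx (mem_filter.1 hp).1 (S q).n_mem (mem_filter.1 hp).2
  have hnn : ∀ q, ∀ p ∈ PP q, nn q p ≤ (Q q).n := fun q p hp => (S q).le_n _ (hcons q p hp).2.1
  have hLd : ∀ q, ∀ p ∈ PP q, wdist G ℓ ((Q q).v p) ((Q q).v (nn q p)) = L q p := fun q p hp =>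
    (Q q).dist _ _ (hcons q p hp).2.2.1.le (hnn q p hp)
  have hL0 : ∀ q, ∀ p ∈ PP q, 0 ≤ L q p := fun q p hp =>
    hLd q p hp ▸ wdist_nonneg hG.conn hG.pos _ _
  have hD : ∀ q, ∀ p ∈ PP q, (S q).D p ≤ η * L q p ∧ (S q).D (nn q p) ≤ η * L q p := by
    intro q p hp
    obtain ⟨h1, h2, h3, -⟩ := hcons q p hp
    have h4 := (S q).far _ h1 _ h2 h3.ne
    have h5 := (S q).far _ h2 _ h1 h3.ne'
    rw [abs_sub_comm] at h4
    rw [abs_of_nonneg (hL0 q p hp)] at h4 h5
    exact ⟨h4, h5⟩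
  have hLs : ∀ q, ∀ p ∈ PP q, s0 ≤ L q p := by
    intro q p hp
    obtain ⟨h1, h2, h3, -⟩ := hcons q p hp
    have h4 := hL0 q p hp
    by_cases h5 : p = 0
    · by_cases h6 : nn q p = (Q q).n
      · simp only [L, h6]; rw [h5]; exact hlen q
      · nlinarith [(S q).size _ h2 (by omega) h6, (hD q p hp).2]
    · nlinarith [(S q).size _ h1 h5 (mem_filter.1 hp).2.ne, (hD q p hp).1]
  have hm1 : ∀ q, ∀ p ∈ PP q, L q p ≤ t (m q p) ((Q q).v p) := fun q p hp =>
    Nat.findGreatest_spec (P := fun i => L q p ≤ t i ((Q q).v p)) (Nat.zero_le I)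
      (hLd q p hp ▸ t0 _ _)
  have hm2 : ∀ q, ∀ p ∈ PP q, m q p < I := fun q p hp =>
    (Nat.findGreatest_le I).lt_of_ne fun e => by
      have := hm1 q p hp
      rw [show m q p = I from e] at this
      linarith [tI ((Q q).v p), hLs q p hp]
  have hm3 : ∀ q, ∀ p ∈ PP q, t (m q p + 1) ((Q q).v p) < L q p := fun q p hp =>
    not_le.1 (Nat.findGreatest_is_greatest (P := fun i => L q p ≤ t i ((Q q).v p))
      (Nat.lt_succ_self _) (hm2 q p hp))
  have hW0 : ∀ q, ∀ p ∈ PP q, ∀ i, 0 ≤ W q p i := fun q p hp i => by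
    have := hL0 q p hp
    positivity
  have hW1 : ∀ q, ∀ p ∈ PP q, ∀ i ≤ m q p, L q p ≤ W q p i := fun q p hp i hi => by
    simp only [W, Nat.sub_eq_zero_of_le hi, pow_zero]
    linarith [hL0 q p hp]
  have hW2 : ∀ q, ∀ p ∈ PP q, ∀ i, m q p < i → ∀ j, p ≤ j → j ≤ nn q p →
      t i ((Q q).v j) ≤ W q p i := by
    intro q p hp i hi j h1 h2
    induction i, hi using Nat.le_induction with
    | base =>
      have h3 := tlip (m q p + 1) ((Q q).v p) ((Q q).v j)
      rw [(Q q).dist _ _ h1 (h2.trans (hnn q p hp))] at h3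
      have h4 := pos_mono hG (Q q) h2 (hnn q p hp)
      have h5 := hm3 q p hp
      have h6 := neg_abs_le (t (m q p + 1) ((Q q).v p) - t (m q p + 1) ((Q q).v j))
      have h7 := hL0 q p hp
      simp only [W, Nat.succ_eq_add_one, Nat.add_sub_cancel_left, pow_one]
      simp only [L] at *
      linarith
    | succ i hi ih =>
      simp only [W] at ih ⊢
      rw [show i + 1 - m q p = i - m q p + 1 by omega, pow_succ]
      linarith [tdec i ((Q q).v j)]
  set Φ := ∑ q, f q * ∑ p ∈ PP q, 2 ^ m q p * L q p with hΦ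
  let A : ℕ → ℝ := fun i => ∑ q, f q * ∑ p ∈ PP q, W q p i
  have hA : ∑ i ∈ range I, 2 ^ i * A i ≤ 24 * Φ := by
    simp only [A, hΦ, mul_sum]
    rw [sum_comm]
    refine sum_le_sum fun q _ => ?_
    rw [sum_comm]
    refine sum_le_sum fun p hp => ?_
    have := mul_le_mul_of_nonneg_left (geom (m q p) I)
      (show 0 ≤ f q * (8 * L q p) by have := hL0 q p hp; have := hf q; positivity)
    rw [mul_sum] at this
    refine le_trans (le_of_eq (sum_congr rfl fun i _ => ?_)) (this.trans_eq (by ring))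
    simp only [W]; ring
  have htot : ∀ q, ∑ j ∈ range (Q q).n, (Q q).el j ≤ ∑ p ∈ PP q, 2 ^ m q p * L q p := fun q => by
    refine (sum_le_pieces (S q).zero_mem (S q).n_mem _ fun j hj => el_nonneg hG _ hj).trans
      (sum_le_sum fun p hp => ?_)
    rw [show ∑ j ∈ Ico p (nx (S q).P p), (Q q).el j = L q p from
      sum_Ico_sub _ (hcons q p hp).2.2.1.le]
    exact le_mul_of_one_le_left (hL0 q p hp) (one_le_pow₀ one_le_two)
  have hΦ0 : 0 < Φ := by
    refine (mul_pos hf0 hs).trans_le ?_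
    rw [sum_mul]
    refine sum_le_sum fun q _ => mul_le_mul_of_nonneg_left (le_trans ?_ (htot q)) (hf q)
    exact (hlen q).trans_eq (sum_range_sub (Q q).pos _).symm
  -- volumes
  let Vv : ℕ → ℝ := fun i => vol Q f fun q j => s0 / 8 ≤ t i ((Q q).v j)
  have hV0 : Vv 0 ≤ Φ := sum_le_sum fun q _ => mul_le_mul_of_nonneg_left
    (le_trans (sum_le_sum fun j hj => by
      split_ifs; exacts [le_rfl, el_nonneg hG _ (mem_range.1 hj)]) (htot q)) (hf q)
  have hXη : 0 ≤ X / η := by positivity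
  have hV1 : ∀ i, Vv (i + 1) ≤ (8 * X / η + 2) * A i + Vv i / 4 := by
    intro i
    refine (vol_le_add hG Q hf (A₁ := fun q j => s0 / 2 ≤ t i ((Q q).v j) ∧
      Sep G (bl G ℓ ((Q q).v j) (X * t i ((Q q).v j))) ((Q q).v 0) ((Q q).v (Q q).n))
      fun q j h => ?_).trans (add_le_add ?_ ((le_div_iff₀' four_pos).2 (hvol i)))
    · have h1 : s0 / 2 ≤ t i ((Q q).v j) := by linarith [tdec i ((Q q).v j)]
      exact (em _).imp (fun h2 => ⟨h1, h2⟩) fun h2 => ⟨h1, fun h3 => by linarith [tS i _ h3], h2⟩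
    simp only [vol, A, mul_sum _ _ (8 * X / η + 2), mul_left_comm (8 * X / η + 2)]
    refine sum_le_sum fun q _ => mul_le_mul_of_nonneg_left ((sum_le_pieces (S q).zero_mem
      (S q).n_mem _ fun j hj => by split_ifs; exacts [el_nonneg hG _ hj, le_rfl]).trans
      (sum_le_sum fun p hp => ?_)) (hf q)
    obtain ⟨c1, c2, c3, c4⟩ := hcons q p hp
    have h0 := hW0 q p hp i
    have h00 : 8 * X / η = 8 * (X / η) := by ring
    rcases le_or_gt i (m q p) with hi | hi
    · refine (sum_le_sum (g := (Q q).el) fun j hj => ?_).trans ?_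
      · split_ifs
        exacts [le_rfl, el_nonneg hG _ ((mem_Ico.1 hj).2.trans_le (hnn q p hp))]
      · rw [show ∑ j ∈ Ico p (nx (S q).P p), (Q q).el j = L q p from sum_Ico_sub _ c3.le]
        nlinarith [hW1 q p hp i hi, mul_nonneg hXη h0]
    by_cases hW : s0 ≤ 2 * W q p i
    · have hδ0 : 0 ≤ δ := by
        have : s((Q q).v p, (Q q).v (p + 1)) ∈ G.edgeSet := (Q q).adj p (mem_filter.1 hp).2
        exact (hG.pos _ this).le.trans (hG.small _ this)
      refine (short_le hG (Q q) c3.le (hnn q p hp) (r := 4 * (X / η) * W q p i) (by positivity)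
        hδ0 _ fun j h1 h2 h3 => ?_).trans (by nlinarith)
      have h4 := hW2 q p hp i hi j h1 h2.le
      have h5 := (S q).free j (h2.le.trans (hnn q p hp)) (2 * X * W q p i) (by nlinarith)
      by_contra h6
      rw [not_or, not_le, not_le] at h6
      refine h5 (fun p' hp' => ?_) fun w => ?_
      · have h7 : 4 * (X / η) * W q p i ≤ |(Q q).pos p' - (Q q).pos j| := by
          rcases le_or_gt p' p with h8 | h8
          · have := pos_mono hG (Q q) h8 (mem_filter.1 hp).2.le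
            linarith [neg_abs_le ((Q q).pos p' - (Q q).pos j), h6.1]
          · have := pos_mono hG (Q q) (c4 p' hp' h8) ((S q).le_n _ hp')
            linarith [le_abs_self ((Q q).pos p' - (Q q).pos j), h6.2]
        refine le_trans (le_of_eq ?_) (mul_le_mul_of_nonneg_left h7 hη.le)
        field_simp; ring
      · obtain ⟨v, hv, hv'⟩ := h3.2 w
        have h8 := mul_le_mul_of_nonneg_left h4 (show 0 ≤ X by linarith)
        have h9 := mul_nonneg (show 0 ≤ X by linarith) h0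
        exact ⟨v, hv, le_trans (b := X * t i ((Q q).v j)) hv' (by linarith)⟩
    · refine (sum_eq_zero fun j hj => if_neg fun h => hW ?_).trans_le (by positivity)
      linarith [hW2 q p hp i hi j (mem_Ico.1 hj).1 (mem_Ico.1 hj).2.le, h.1]
  have hV : ∑ i ∈ range I, 2 ^ i * Vv i ≤ (2 + 96 * (8 * X / η + 2)) * Φ := by
    have h1 := sum_range_succ' (fun i => 2 ^ i * Vv i) I
    rw [sum_range_succ] at h1
    have h2 : ∑ i ∈ range I, 2 ^ (i + 1) * Vv (i + 1) ≤
        2 * (8 * X / η + 2) * ∑ i ∈ range I, 2 ^ i * A i + (∑ i ∈ range I, 2 ^ i * Vv i) / 2 := by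
      rw [mul_sum, sum_div, ← sum_add_distrib]
      exact sum_le_sum fun i _ => (mul_le_mul_of_nonneg_left (hV1 i) (by positivity)).trans_eq
        (by ring)
    have h3 : 0 ≤ 2 ^ I * Vv I := mul_nonneg (by positivity) (vol_nonneg hG Q hf _)
    have h4 := mul_le_mul_of_nonneg_left hA (show 0 ≤ 2 * (8 * X / η + 2) by positivity)
    nlinarith
  -- service
  choose N ρ hρ1 hρ2 hρ3 hρ4 using fun i => hserve i
    (Σ q, {p // p ∈ (PP q).filter fun p => m q p = i}) (fun x => (Q x.1).v x.2)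
    (fun x => (Q x.1).v (nn x.1 x.2)) (fun x => f x.1) (fun x => hf x.1) fun x => by
      obtain ⟨q, p, hp'⟩ := x
      obtain ⟨hp, e⟩ := mem_filter.1 hp'
      simp only [hLd q p hp, ← e]
      exact ⟨hLs q p hp, hm1 q p hp, tnext _ _ _ (hm3 q p hp)⟩
  choose ρ' hρ'1 hρ'2 hρ'3 using fun i k => neck V G ℓ δ hG hMF (ρ i k) (hρ1 i k)
  have hgain : ∀ i, c * ∑ q, f q * ∑ p ∈ PP q, (if m q p = i then L q p else 0) ≤
      ∑ q, f q * ∑ k ∈ range (N i), ρ' i k ((Q q).v 0) ((Q q).v (Q q).n) +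
        4 * K * (544 * η) * A i := by
    intro i
    have h1 := hρ4 i
    rw [Fintype.sum_sigma, Fintype.sum_sigma] at h1
    dsimp only at h1
    refine le_trans (le_of_eq ?_) (h1.trans ?_)
    · refine congrArg _ (sum_congr rfl fun q _ => ?_)
      rw [← mul_sum, ← sum_filter, ← sum_coe_sort]
      exact congrArg _ (sum_congr rfl fun p _ => (hLd q p (mem_filter.1 p.2).1).symm)
    simp only [A, mul_sum _ _ (4 * K * (544 * η)), mul_left_comm (4 * K * (544 * η)),
      ← sum_add_distrib, ← mul_add]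
    refine sum_le_sum fun q _ => ?_
    rw [← mul_sum]
    refine mul_le_mul_of_nonneg_left ?_ (hf q)
    let hot : ℕ → ℕ → Prop := fun k p => ∃ x ∈ bl G ℓ ((Q q).v p) ((S q).D p),
      s0 / 4 * 2 ^ k ≤ t i x ∧ t i x ≤ 2 * s0 * 2 ^ k
    rw [sum_comm]
    refine (sum_le_sum fun k _ => le_trans ?_ (hρ'3 i k (Q q) η s0 hη (by linarith) hs (S q) K
      (2 * η * s0 * 2 ^ k) (hot k) hK.le (by positivity) (hρ2 i k)
      fun p _ _ h x hx y _ hxy => by_contra fun h' => h ⟨x, hx, hρ3 i k x y hxy h'⟩)).trans ?_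
    · rw [sum_coe_sort ((PP q).filter fun p => m q p = i) fun p =>
        if wdist G ℓ ((Q q).v p) ((Q q).v (nn q p)) ≤ 2 * s0 * 2 ^ k then
          ρ i k ((Q q).v p) ((Q q).v (nn q p)) else 0]
      refine le_trans (sum_le_sum fun p hp => ?_) (sum_le_sum_of_subset_of_nonneg
        ((filter_subset (fun p => m q p = i) _).trans (filter_subset (· < (Q q).n) _))
        fun p _ _ => sum_nonneg fun p' _ => by
          split_ifs; exacts [cut_nonneg (hρ1 i k) _ _, le_rfl])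
      replace hp := (mem_filter.1 hp).1
      refine le_trans ?_ (single_le_sum (fun p' _ => by
        split_ifs; exacts [cut_nonneg (hρ1 i k) _ _, le_rfl]) (hcons q p hp).2.1)
      rw [hLd q p hp]
      by_cases h : L q p ≤ 2 * s0 * 2 ^ k
      · have h2 := mul_le_mul_of_nonneg_left h hη.le
        rw [if_pos h, if_pos ⟨hcons q p hp, by linarith [(hD q p hp).1],
          by linarith [(hD q p hp).2]⟩]
      · rw [if_neg h]; split_ifs; exacts [cut_nonneg (hρ1 i k) _ _, le_rfl]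
    rw [sum_add_distrib, ← mul_sum, sum_comm]
    simp only [mul_assoc (4 * K)]
    rw [← mul_sum]
    refine add_le_add le_rfl (mul_le_mul_of_nonneg_left ?_ (by positivity))
    rw [← sum_filter_add_sum_filter_not (S q).P (· < (Q q).n), sum_eq_zero (s := filter
      (fun p => ¬ p < (Q q).n) _) fun p hp => sum_eq_zero fun k _ => by
        rw [le_antisymm ((S q).le_n _ (mem_filter.1 hp).1) (not_lt.1 (mem_filter.1 hp).2),
          (S q).D_n, ite_self], add_zero]
    refine sum_le_sum fun p hp => ?_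
    have h0 := hW0 q p hp i
    refine le_trans (sum_le_sum fun k _ => ?_) ((mul_sum _ _ _).symm.trans_le
      ((mul_le_mul_of_nonneg_left (count (a := s0 / 8) (t := t i ((Q q).v p)) (C := 17)
        (by positivity) (by norm_num) (N i))
        (show 0 ≤ 16 * η * W q p i by positivity)).trans_eq (by ring)))
    by_cases h : (S q).D p ≤ 2 * η * s0 * 2 ^ k ∧ hot k p
    · obtain ⟨h2, x, hx, h3, h4⟩ := h
      have h5 := (tlip i ((Q q).v p) x).trans (hx.trans h2)
      have h6 : 0 < s0 * 2 ^ k := by positivity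
      have h7 := mul_le_mul_of_nonneg_right hη1 h6.le
      have h8 := le_abs_self (t i ((Q q).v p) - t i x)
      have h9 := neg_abs_le (t i ((Q q).v p) - t i x)
      have h10 : s0 / 8 * 2 ^ k ≤ t i ((Q q).v p) := by linarith
      rw [if_pos ⟨h2, x, hx, h3, h4⟩, if_pos ⟨h10, by linarith⟩, mul_one]
      rcases le_or_gt i (m q p) with hi | hi
      · nlinarith [(hD q p hp).1, hW1 q p hp i hi]
      · nlinarith [hW2 q p hp i hi p le_rfl (hcons q p hp).2.2.1.le]
    · rw [if_neg h]; split_ifs <;> positivity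
  have hG1 : c / 2 * Φ ≤ ∑ q, f q * ∑ i ∈ range I, 2 ^ i * ∑ k ∈ range (N i),
      1 * ρ' i k ((Q q).v 0) ((Q q).v (Q q).n) := by
    have h1 := sum_le_sum (s := range I) fun i _ =>
      mul_le_mul_of_nonneg_left (hgain i) (show (0 : ℝ) ≤ 2 ^ i by positivity)
    have h2 : ∑ i ∈ range I, 2 ^ i * (c * ∑ q, f q * ∑ p ∈ PP q,
        (if m q p = i then L q p else 0)) = c * Φ := by
      simp only [mul_left_comm _ c, ← mul_sum, hΦ]
      congr 1
      simp only [mul_sum _ _ ((2 : ℝ) ^ _), mul_left_comm _ (f _)]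
      rw [sum_comm]
      refine sum_congr rfl fun q _ => ?_
      rw [← mul_sum, sum_comm]
      refine congrArg _ (sum_congr rfl fun p hp => ?_)
      simp only [mul_ite, mul_zero]
      rw [sum_ite_eq, if_pos (mem_range.2 (hm2 q p hp))]
    simp only [mul_add, sum_add_distrib, mul_left_comm _ (4 * K * (544 * η))] at h1
    rw [← mul_sum, h2] at h1
    have h3 := mul_le_mul_of_nonneg_left hA (show 0 ≤ 4 * K * (544 * η) by positivity)
    have h4 := mul_le_mul_of_nonneg_right hη2 hΦ0.le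
    refine le_trans (by nlinarith) (le_of_eq (a := ∑ i ∈ range I, 2 ^ i * ∑ q, f q *
      ∑ k ∈ range (N i), ρ' i k ((Q q).v 0) ((Q q).v (Q q).n)) ?_)
    simp only [one_mul, mul_sum _ _ ((2 : ℝ) ^ _), mul_left_comm _ (f _)]
    rw [sum_comm]
    exact sum_congr rfl fun q _ => by rw [← mul_sum]
  refine ⟨fun x y => ∑ i ∈ range I, 2 ^ i * ∑ k ∈ range (N i), 1 * ρ' i k x y,
    cut_sum _ _ _ (fun _ => by positivity) fun i => cut_sum _ _ _ (fun _ => zero_le_one) (hρ'1 i),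
    (mul_pos (half_pos hc) hΦ0).trans_le hG1, ?_⟩
  refine le_trans ?_ (mul_le_mul_of_nonneg_left hG1 (by positivity))
  refine le_trans ?_ ((mul_le_mul_of_nonneg_left hV (show 0 ≤ 16 * K by positivity)).trans_eq
    (by field_simp))
  simp only [Vv, vol, mul_sum _ _ ((2 : ℝ) ^ _), mul_sum _ _ (16 * K), mul_left_comm _ (f _)]
  rw [sum_comm]
  refine sum_le_sum fun q _ => ?_
  rw [← mul_sum, sum_comm]
  refine mul_le_mul_of_nonneg_left (sum_le_sum fun i _ => sum_le_sum fun j hj => ?_) (hf q)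
  have hadj := (Q q).adj j (mem_range.1 hj)
  have h0 := el_nonneg hG (Q q) (mem_range.1 hj)
  rw [← mul_sum, mul_left_comm]
  refine mul_le_mul_of_nonneg_left ?_ (by positivity)
  have h1 : ∀ k, ¬ (s0 / 4 * 2 ^ k ≤ t i ((Q q).v j) ∧ t i ((Q q).v j) ≤ 8 * (s0 / 4 * 2 ^ k)) →
      ρ' i k ((Q q).v j) ((Q q).v (j + 1)) = 0 := fun k h => by
    rw [hρ'2 i k _ _ hadj]
    by_contra h'
    have := hρ3 i k _ _ hadj h'
    exact h ⟨this.1, by linarith [this.2]⟩
  split_ifs with h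
  · refine le_trans (sum_le_sum fun k _ => ?_) ((mul_sum _ _ _).symm.trans_le
      ((mul_le_mul_of_nonneg_left (count (a := s0 / 4) (t := t i ((Q q).v j)) (C := 8)
        (by positivity) (by norm_num) (N i))
        (show 0 ≤ K * (Q q).el j by positivity)).trans_eq (by ring)))
    split_ifs with h2
    · rw [one_mul, mul_one, hρ'2 i k _ _ hadj, el_eq _ (mem_range.1 hj)]
      exact hρ2 i k _ _ hadj
    · rw [h1 k h2]; simp
  · rw [sum_eq_zero fun k _ => by
      rw [h1 k fun h2 => h ?_, mul_zero]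
      have : (1 : ℝ) ≤ 2 ^ k := one_le_pow₀ one_le_two
      nlinarith [h2.1], mul_zero]

end Crest.Agent.N206.PL
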