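import Crest.Agent.N206.PL.Eff0A

/-!
# Row 206, S0317: the efficient cut semimetric for nonnegative lengths (helper61)
-/

set_option autoImplicit false

noncomputable section

open scoped Classical

namespace Crest.Agent.N206.PL

open Crest.GeometryTopology.GraphMetric SimpleGraph

namespace Eff0

/-- load of a walk -/
def load {V : Type} {G : SimpleGraph V} (ρ : V → V → ℝ) {x y : V} (p : G.Walk x y) : ℝ :=
  (p.darts.map fun d => ρ d.fst d.snd).sum

variable {V W : Type} {G : SimpleGraph V} {ℓ : Sym2 V → ℝ} {H : SimpleGraph W} {m : Sym2 W → ℝ}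
  {φ : V → W}

theorem load_nil (ρ : V → V → ℝ) (x : V) : load ρ (Walk.nil : G.Walk x x) = 0 := by simp [load]

theorem load_cons (ρ : V → V → ℝ) {x y z : V} (a : G.Adj x y) (p : G.Walk y z) :
    load ρ (Walk.cons a p) = ρ x y + load ρ p := by simp [load]

theorem load_append (ρ : V → V → ℝ) {x y z : V} (p : G.Walk x y) (q : G.Walk y z) :
    load ρ (p.append q) = load ρ p + load ρ q := by simp [load, Walk.darts_append]

theorem le_load [Fintype V] {ρ : V → V → ℝ} (h : IsCut ρ) {x y : V} (p : G.Walk x y) :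
    ρ x y ≤ load ρ p := by
  induction p with
  | nil => rw [load_nil, h.self]
  | @cons a b c _ p ih => rw [load_cons]; linarith [h.tri a b c]

theorem load_eq (ρ : V → V → ℝ) {x y : V} (p : G.Walk x y) :
    load ρ p = ∑ i ∈ Finset.range p.length, ρ (p.getVert i) (p.getVert (i + 1)) := by
  induction p with
  | nil => simp [load_nil]
  | cons a p ih =>
    rw [load_cons, Walk.length_cons, Finset.sum_range_succ', ih, add_comm]
    simp only [Walk.getVert_cons_succ, Walk.getVert_zero]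

theorem load_zero (h0 : ∀ e ∈ G.edgeSet, 0 ≤ ℓ e) {ρ : V → V → ℝ}
    (hρ : ∀ x y, G.Adj x y → ℓ s(x, y) = 0 → ρ x y = 0) {x y : V} (p : G.Walk x y)
    (hp : wl ℓ p ≤ 0) : load ρ p = 0 := by
  induction p with
  | nil => exact load_nil _ _
  | @cons u v _ a p ih =>
    rw [wl_cons] at hp
    have h1 := h0 s(u, v) a
    have h2 := wl_nonneg' h0 p
    rw [load_cons, ih (by linarith), hρ _ _ a (by linarith), add_zero]

theorem Sim.load [Fintype W] (h : Sim G ℓ H m φ) {x y : V} (p : G.Walk x y) :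
    ∃ w : H.Walk (φ x) (φ y), wl m w ≤ wl ℓ p ∧
      ∀ ρ : W → W → ℝ, IsCut ρ → load (fun u v => ρ (φ u) (φ v)) p ≤ load ρ w := by
  induction p with
  | nil => exact ⟨Walk.nil, by simp, fun ρ _ => by simp [load_nil]⟩
  | cons a p ih =>
    obtain ⟨w, hw, hl⟩ := ih
    obtain ⟨w', hw'⟩ := h.up _ _ a
    refine ⟨w'.append w, by rw [wl_append, wl_cons]; linarith, fun ρ hρ => ?_⟩
    rw [load_cons, load_append]
    exact add_le_add (le_load hρ w') (hl ρ hρ)

/-- a shortest walk becomes a line of the simulating graph -/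
theorem Sim.geo [Fintype W] {δ : ℝ} (h : Sim G ℓ H m φ) (hH : WG H m δ) {x y : V}
    (p : G.Walk x y) (hp : ∀ p' : G.Walk x y, wl ℓ p ≤ wl ℓ p') :
    ∃ Q : Geo H m, Q.v 0 = φ x ∧ Q.v Q.n = φ y ∧ wl ℓ p ≤ Q.pos Q.n - Q.pos 0 ∧
      ∀ ρ : W → W → ℝ, IsCut ρ → Eff0.load (fun u v => ρ (φ u) (φ v)) p ≤
        ∑ i ∈ Finset.range Q.n, ρ (Q.v i) (Q.v (i + 1)) := by
  obtain ⟨w, hw, hl⟩ := h.load p
  have hlow : ∀ w' : H.Walk (φ x) (φ y), wl ℓ p ≤ wl m w' := fun w' => by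
    obtain ⟨p', hp'⟩ := h.dn x y w'
    exact (hp p').trans hp'
  obtain ⟨Q, hn, hv, h0, h1⟩ := hH.geo_of_walk w
    (le_antisymm (hH.le_d fun w' => hw.trans (hlow w')) (hH.le_wl w))
  refine ⟨Q, by simp [hv], by simp [hv, hn], by rw [h0, h1, sub_zero]; exact hlow w,
    fun ρ hρ => (hl ρ hρ).trans (le_of_eq ?_)⟩
  rw [load_eq, hn]
  simp only [hv]

end Eff0

open Eff0 in
theorem eff0 (hE : EffStmt) : Eff0Stmt := by
  obtain ⟨K, ε, hε, hE⟩ := hE
  refine ⟨K, fun V _ G ℓ hc hM h0 ι _ a b p f hf hp hpos => ?_⟩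
  obtain ⟨q₀, -, hq₀⟩ := Finset.exists_lt_of_sum_lt (s := Finset.univ) (f := fun _ => (0 : ℝ))
    (g := fun q => f q * wl ℓ (p q)) (by simpa using hpos)
  have hf₀ : 0 < f q₀ := lt_of_le_of_ne (hf q₀) fun e => by simp [← e] at hq₀
  have hw₀ : 0 < wl ℓ (p q₀) := pos_of_mul_pos_left (by rwa [mul_comm] at hq₀) hf₀.le
  obtain ⟨σ, hσ, hσ'⟩ : ∃ σ : ι → ι, (∀ q, 0 < wl ℓ (p (σ q))) ∧
      ∀ q, 0 < wl ℓ (p q) → σ q = q :=
    ⟨fun q => if 0 < wl ℓ (p q) then q else q₀, fun q => by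
      by_cases h : 0 < wl ℓ (p q)
      · have e : (if 0 < wl ℓ (p q) then q else q₀) = q := if_pos h
        show 0 < wl ℓ (p (if 0 < wl ℓ (p q) then q else q₀))
        rw [e]; exact h
      · have e : (if 0 < wl ℓ (p q) then q else q₀) = q₀ := if_neg h
        show 0 < wl ℓ (p (if 0 < wl ℓ (p q) then q else q₀))
        rw [e]; exact hw₀, fun q h => if_pos h⟩
  haveI : Nonempty ι := ⟨q₀⟩
  obtain ⟨q₁, hq₁⟩ := Finite.exists_min fun q => wl ℓ (p (σ q))
  obtain ⟨W, _, H, m, φ, hH, hMH, hS⟩ := exists_sim hc hM h0 (mul_pos hε (hσ q₁))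
  haveI := Fintype.ofFinite W
  choose Q hQ0 hQn hQl hQρ using fun q => hS.geo hH (p q) (hp q)
  obtain ⟨ρ, hρ, h1, h2⟩ := hE W H m _ _ hH hMH (hσ q₁) le_rfl ι (fun q => Q (σ q))
    (fun q => if 0 < wl ℓ (p q) then f q else 0) (fun q => by split_ifs; exacts [hf q, le_rfl])
    (Finset.sum_pos' (fun q _ => by split_ifs; exacts [hf q, le_rfl])
      ⟨q₀, Finset.mem_univ _, by rwa [if_pos hw₀]⟩)
    (fun q => (hq₁ q).trans (hQl _))
  have hz : ∀ x y, G.Adj x y → ℓ s(x, y) = 0 → ρ (φ x) (φ y) = 0 := fun x y hxy e => by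
    obtain ⟨w, hw⟩ := hS.up x y hxy
    rw [hH.eq_of_d ((hH.le_wl w).trans (hw.trans e.le)), hρ.self]
  have hbad : ∀ q, ¬ 0 < wl ℓ (p q) → load (fun u v => ρ (φ u) (φ v)) (p q) = 0 := fun q hq =>
    load_zero h0 hz (p q) (not_lt.1 hq)
  have e1 : ∑ q, (if 0 < wl ℓ (p q) then f q else 0) *
      ρ ((Q (σ q)).v 0) ((Q (σ q)).v (Q (σ q)).n) = ∑ q, f q * ρ (φ (a q)) (φ (b q)) := by
    refine Finset.sum_congr rfl fun q _ => ?_
    split_ifs with h
    · rw [hσ' q h, hQ0, hQn]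
    · have h3 := le_load (hρ.comap φ) (p q)
      rw [hbad q h] at h3
      rw [le_antisymm h3 (hρ.nonneg _ _), zero_mul, mul_zero]
  rw [e1] at h1 h2
  refine ⟨fun x y => ρ (φ x) (φ y), hρ.comap φ, hz, h1, le_trans ?_ h2⟩
  refine Finset.sum_le_sum fun q _ => ?_
  split_ifs with h
  · rw [hσ' q h]
    exact mul_le_mul_of_nonneg_left (hQρ q ρ hρ) (hf q)
  · exact le_of_eq (by rw [zero_mul]; exact mul_eq_zero_of_right _ (hbad q h))

end Crest.Agent.N206.PL
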