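import Crest.Agent.N206.PL.Basic2

/-!
# Row 206, S0317: subdivision and contraction of zero edges (helper61)
-/

set_option autoImplicit false

noncomputable section

open scoped Classical

namespace Crest.Agent.N206.PL.Eff0

open Crest.GeometryTopology.GraphMetric SimpleGraph Sum

/-! ### minor models of a general pattern -/

structure Mod {V I : Type} (G : SimpleGraph V) (R : I → I → Prop) (X : I → Set V) : Prop where
  cn : ∀ i, Cn G (X i)
  dj : ∀ i j, i ≠ j → Disjoint (X i) (X j)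
  tch : ∀ i j, R i j → Tch G (X i) (X j)

/-- irreflexive pattern of minimal degree at least three -/
def Deg {I : Type} (R : I → I → Prop) : Prop :=
  (∀ i j, R i j → i ≠ j) ∧ ∀ i, ∃ j k l, j ≠ k ∧ j ≠ l ∧ k ≠ l ∧ R i j ∧ R i k ∧ R i l

theorem transfer {V W : Type} {G : SimpleGraph V} {H : SimpleGraph W} (hG : MF G)
    (h : ∀ (I : Type) (R : I → I → Prop) (X : I → Set W), Deg R → Mod H R X → ∃ Y, Mod G R Y) :
    MF H := by
  constructor
  · intro X h1 h2 h3
    obtain ⟨Y, hY⟩ := h (Fin 5) (· ≠ ·) X ⟨fun _ _ h => h, by decide⟩ ⟨h1, h2, h3⟩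
    exact hG.k5 Y hY.cn hY.dj hY.tch
  · intro A B h1 h2 h3 h4 h5 h6
    obtain ⟨Y, hY⟩ := h (Fin 3 ⊕ Fin 3) (fun u v => u.isLeft ≠ v.isLeft) (Sum.elim A B)
      ⟨fun i j h e => h (by rw [e]), by decide⟩ ⟨fun i => by cases i <;> simp [h1, h2],
        fun i j hij => by
          rcases i with i | i <;> rcases j with j | j
          · exact h3 i j fun e => hij (by rw [e])
          · exact h5 i j
          · exact (h5 j i).symm
          · exact h4 i j fun e => hij (by rw [e]),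
        fun i j hij => by
          rcases i with i | i <;> rcases j with j | j
          · simp at hij
          · exact h6 i j
          · exact (h6 j i).symm
          · simp at hij⟩
    exact hG.k33 (fun i => Y (inl i)) (fun i => Y (inr i)) (fun i => hY.cn _) (fun i => hY.cn _)
      (fun i j hij => hY.dj _ _ (by simpa using hij))
      (fun i j hij => hY.dj _ _ (by simpa using hij)) (fun i j => hY.dj _ _ (by simp))
      (fun i j => hY.tch _ _ (by simp))

theorem wmap {V W : Type} {G : SimpleGraph V} {H : SimpleGraph W} (π : W → V)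
    (hπ : ∀ u v, H.Adj u v → π u = π v ∨ G.Adj (π u) (π v)) {u v : W} (p : H.Walk u v) :
    ∃ q : G.Walk (π u) (π v), ∀ z ∈ q.support, ∃ y ∈ p.support, π y = z := by
  induction p with
  | nil => exact ⟨Walk.nil, by simp⟩
  | @cons a b c h p ih =>
    obtain ⟨q, hq⟩ := ih
    rcases hπ a b h with e | e
    · refine ⟨q.copy e.symm rfl, fun z hz => ?_⟩
      obtain ⟨y, hy, hz⟩ := hq z (by simpa using hz)
      exact ⟨y, by simp [hy], hz⟩
    · refine ⟨Walk.cons e q, fun z hz => ?_⟩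
      rw [Walk.support_cons, List.mem_cons] at hz
      rcases hz with rfl | hz
      · exact ⟨a, by simp, rfl⟩
      · obtain ⟨y, hy, hz⟩ := hq z hz
        exact ⟨y, by simp [hy], hz⟩

theorem Mod.image {V W I : Type} {G : SimpleGraph V} {H : SimpleGraph W} {R : I → I → Prop}
    {X : I → Set W} (hX : Mod H R X) (hR : ∀ i j, R i j → i ≠ j) (π : W → V)
    (hπ : ∀ u v, H.Adj u v → π u = π v ∨ G.Adj (π u) (π v))
    (hd : ∀ i j, i ≠ j → Disjoint (π '' X i) (π '' X j)) : Mod G R fun i => π '' X i := by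
  refine ⟨fun i => ⟨(hX.cn i).1.image π, ?_⟩, hd, fun i j hij => ?_⟩
  · rintro _ ⟨u, hu, rfl⟩ _ ⟨v, hv, rfl⟩
    obtain ⟨p, hp⟩ := (hX.cn i).2 u hu v hv
    obtain ⟨q, hq⟩ := wmap π hπ p
    exact ⟨q, fun z hz => let ⟨y, hy, e⟩ := hq z hz; ⟨y, hp y hy, e⟩⟩
  · obtain ⟨u, hu, v, hv, huv⟩ := hX.tch i j hij
    rcases hπ u v huv with e | e
    · exact absurd ⟨v, hv, e.symm⟩ (Set.disjoint_left.1 (hd i j (hR i j hij)) ⟨u, hu, rfl⟩)
    · exact ⟨_, ⟨u, hu, rfl⟩, _, ⟨v, hv, rfl⟩, e⟩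

/-! ### simulation of a weighted graph by another one -/

structure Sim {V W : Type} (G : SimpleGraph V) (ℓ : Sym2 V → ℝ) (H : SimpleGraph W)
    (m : Sym2 W → ℝ) (φ : V → W) : Prop where
  up : ∀ x y, G.Adj x y → ∃ w : H.Walk (φ x) (φ y), wl m w ≤ ℓ s(x, y)
  dn : ∀ x y (w : H.Walk (φ x) (φ y)), ∃ p : G.Walk x y, wl ℓ p ≤ wl m w

theorem Sim.walk {V W : Type} {G : SimpleGraph V} {ℓ : Sym2 V → ℝ} {H : SimpleGraph W}
    {m : Sym2 W → ℝ} {φ : V → W} (h : Sim G ℓ H m φ) {x y : V} (p : G.Walk x y) :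
    ∃ w : H.Walk (φ x) (φ y), wl m w ≤ wl ℓ p := by
  induction p with
  | nil => exact ⟨Walk.nil, by simp⟩
  | cons a p ih =>
    obtain ⟨w, hw⟩ := ih
    obtain ⟨w', hw'⟩ := h.up _ _ a
    exact ⟨w'.append w, by rw [wl_append, wl_cons]; linarith⟩

theorem Sim.trans {U V W : Type} {F : SimpleGraph U} {k : Sym2 U → ℝ} {G : SimpleGraph V}
    {ℓ : Sym2 V → ℝ} {H : SimpleGraph W} {m : Sym2 W → ℝ} {ψ : U → V} {φ : V → W}
    (h : Sim F k G ℓ ψ) (h' : Sim G ℓ H m φ) : Sim F k H m fun x => φ (ψ x) := by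
  refine ⟨fun x y a => ?_, fun x y w => ?_⟩
  · obtain ⟨w, hw⟩ := h.up x y a
    obtain ⟨w', hw'⟩ := h'.walk w
    exact ⟨w', hw'.trans hw⟩
  · obtain ⟨p, hp⟩ := h'.dn _ _ w
    obtain ⟨p', hp'⟩ := h.dn _ _ p
    exact ⟨p', hp'.trans hp⟩

/-! ### barycentric subdivision -/

section sub

variable {V : Type} (G : SimpleGraph V) (ℓ : Sym2 V → ℝ)

def subAdj : V ⊕ G.edgeSet → V ⊕ G.edgeSet → Prop
  | inl x, inr e => x ∈ e.1
  | inr e, inl x => x ∈ e.1
  | inl _, inl _ => False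
  | inr _, inr _ => False

def subG : SimpleGraph (V ⊕ G.edgeSet) where
  Adj := subAdj G
  symm := ⟨fun u v h => by cases u <;> cases v <;> exact h⟩
  loopless := ⟨fun u h => by cases u <;> exact h⟩

def subL : Sym2 (V ⊕ G.edgeSet) → ℝ :=
  Sym2.lift ⟨fun u v => Sum.elim (fun _ => 0) (fun e : G.edgeSet => ℓ e.1 / 2) u +
    Sum.elim (fun _ => 0) (fun e : G.edgeSet => ℓ e.1 / 2) v, fun _ _ => add_comm _ _⟩

variable {G ℓ}

theorem subL_lr (x : V) (e : G.edgeSet) : subL G ℓ s(inl x, inr e) = ℓ e.1 / 2 := by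
  simp [subL]

theorem subL_rl (x : V) (e : G.edgeSet) : subL G ℓ s(inr e, inl x) = ℓ e.1 / 2 := by
  simp [subL]

theorem sub_dn (h0 : ∀ e ∈ G.edgeSet, 0 ≤ ℓ e) {u v : V ⊕ G.edgeSet}
    (w : (subG G).Walk u v) (y : V) (hv : v = inl y) :
    (∀ x, u = inl x → ∃ p : G.Walk x y, wl ℓ p ≤ wl (subL G ℓ) w) ∧
      ∀ e, u = inr e → ∃ x ∈ e.1, ∃ p : G.Walk x y, wl ℓ p + ℓ e.1 / 2 ≤ wl (subL G ℓ) w := by
  induction w with
  | nil =>
    subst hv
    refine ⟨fun x hx => ?_, fun e he => by simp at he⟩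
    obtain rfl : y = x := by simpa using hx
    exact ⟨Walk.nil, by simp⟩
  | @cons a b c h w ih =>
    obtain ⟨ih1, ih2⟩ := ih hv
    refine ⟨fun x hx => ?_, fun e he => ?_⟩
    · subst hx
      rcases b with b | e
      · exact h.elim
      obtain ⟨x', hx', p, hp⟩ := ih2 e rfl
      have he := h0 _ e.2
      rw [wl_cons, subL_lr]
      by_cases hxx : x = x'
      · subst hxx
        exact ⟨p, by linarith⟩
      · have h1 : e.1 = s(x, x') := (Sym2.mem_and_mem_iff hxx).1 ⟨h, hx'⟩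
        have h2 : G.Adj x x' := by rw [← mem_edgeSet, ← h1]; exact e.2
        exact ⟨Walk.cons h2 p, by rw [wl_cons, ← h1]; linarith⟩
    · subst he
      rcases b with x | e'
      · obtain ⟨p, hp⟩ := ih1 x rfl
        exact ⟨x, h, p, by rw [wl_cons, subL_rl]; linarith⟩
      · exact h.elim

theorem sub_sim (h0 : ∀ e ∈ G.edgeSet, 0 ≤ ℓ e) : Sim G ℓ (subG G) (subL G ℓ) inl := by
  refine ⟨fun x y a => ?_, fun x y w => (sub_dn h0 w y rfl).1 x rfl⟩
  have h1 : (subG G).Adj (inl x) (inr ⟨s(x, y), a⟩) := Sym2.mem_mk_left x y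
  have h2 : (subG G).Adj (inr ⟨s(x, y), a⟩) (inl y) := Sym2.mem_mk_right x y
  refine ⟨Walk.cons h1 (Walk.cons h2 Walk.nil), ?_⟩
  simp only [wl_cons, wl_nil, subL_lr, subL_rl]
  linarith

theorem sub_wg {δ : ℝ} (h : WG G ℓ δ) : WG (subG G) (subL G ℓ) (δ / 2) := by
  have key : ∀ e ∈ (subG G).edgeSet, ∃ e' ∈ G.edgeSet, subL G ℓ e = ℓ e' / 2 := by
    intro e he
    induction e using Sym2.ind with
    | _ u v =>
      rcases u with u | u <;> rcases v with v | v
      · exact he.elim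
      · exact ⟨v.1, v.2, subL_lr _ _⟩
      · exact ⟨u.1, u.2, subL_rl _ _⟩
      · exact he.elim
  refine ⟨?_, fun e he => ?_, fun e he => ?_⟩
  · obtain ⟨r⟩ := h.conn.nonempty
    have h1 : ∀ x, (subG G).Reachable (inl r) (inl x) := fun x => by
      obtain ⟨p⟩ := h.conn.preconnected r x
      exact ⟨((sub_sim h.nn).walk p).choose⟩
    refine (connected_iff_exists_forall_reachable _).2 ⟨inl r, fun u => ?_⟩
    rcases u with x | e
    · exact h1 x
    · have : (subG G).Adj (inl e.1.out.1) (inr e) := Sym2.out_fst_mem e.1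
      exact (h1 _).trans this.reachable
  · obtain ⟨e', he', e1⟩ := key e he
    rw [e1]; linarith [h.pos e' he']
  · obtain ⟨e', he', e1⟩ := key e he
    rw [e1]; linarith [h.small e' he']

theorem sub_mf (h : MF G) : MF (subG G) := by
  refine transfer h fun I R X hR hX => ?_
  have huniq : ∀ u i j, u ∈ X i → u ∈ X j → i = j := fun u i j hi hj => by
    by_contra hij
    exact Set.disjoint_left.1 (hX.dj i j hij) hi hj
  have hend : ∀ e : G.edgeSet, ∃ x ∈ e.1, ∀ i, inr e ∈ X i → inl x ∈ X i := by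
    intro e
    by_cases he : ∃ i, inr e ∈ X i
    swap
    · exact ⟨_, Sym2.out_fst_mem e.1, fun i hi => absurd ⟨i, hi⟩ he⟩
    obtain ⟨i, hi⟩ := he
    suffices ∃ x ∈ e.1, inl x ∈ X i by
      obtain ⟨x, hx, hxi⟩ := this
      exact ⟨x, hx, fun j hj => huniq _ i j hi hj ▸ hxi⟩
    by_contra hn
    have hone : ∀ u ∈ X i, u = inr e := fun u hu => by
      obtain ⟨p, hp⟩ := (hX.cn i).2 _ hi u hu
      cases p with
      | nil => rfl
      | @cons _ b _ a p =>
        rcases b with b | b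
        · exact absurd ⟨b, a, hp _ (by simp)⟩ hn
        · exact a.elim
    have hnb : ∀ j, R i j → ∃ x ∈ e.1, inl x ∈ X j := fun j hj => by
      obtain ⟨u, hu, v, hv, a⟩ := hX.tch i j hj
      rw [hone u hu] at a
      rcases v with v | v
      · exact ⟨v, a, hv⟩
      · exact a.elim
    obtain ⟨j, k, l, hjk, hjl, hkl, hj, hk, hl⟩ := hR.2 i
    obtain ⟨x, hx, hxj⟩ := hnb j hj
    obtain ⟨y, hy, hyk⟩ := hnb k hk
    obtain ⟨z, hz, hzl⟩ := hnb l hl
    have hxy : x ≠ y := fun e => hjk (huniq _ _ _ hxj (e ▸ hyk))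
    rw [(Sym2.mem_and_mem_iff hxy).1 ⟨hx, hy⟩, Sym2.mem_iff] at hz
    rcases hz with rfl | rfl
    · exact hjl (huniq _ _ _ hxj hzl)
    · exact hkl (huniq _ _ _ hyk hzl)
  choose g hg hgX using hend
  have hadj : ∀ x (e : G.edgeSet), x ∈ e.1 → x = g e ∨ G.Adj x (g e) := fun x e hx => by
    by_cases hxe : x = g e
    · exact Or.inl hxe
    · right
      rw [← mem_edgeSet, ← (Sym2.mem_and_mem_iff hxe).1 ⟨hx, hg e⟩]
      exact e.2
  have him : ∀ i, ∀ x ∈ Sum.elim id g '' X i, inl x ∈ X i := by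
    rintro i _ ⟨u, hu, rfl⟩
    rcases u with u | u
    · exact hu
    · exact hgX u i hu
  refine ⟨_, hX.image hR.1 (Sum.elim id g) (fun u v a => ?_) fun i j hij =>
    Set.disjoint_left.2 fun x hi hj => hij (huniq _ _ _ (him i x hi) (him j x hj))⟩
  rcases u with u | u <;> rcases v with v | v
  · exact a.elim
  · exact hadj u v a
  · exact (hadj v u a).imp Eq.symm Adj.symm
  · exact a.elim

end sub

/-- edges can be made short -/
theorem exists_fine (n : ℕ) : ∀ (V : Type) [Finite V] (G : SimpleGraph V) (ℓ : Sym2 V → ℝ)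
    (δ : ℝ), WG G ℓ δ → MF G → ∃ (W : Type) (_ : Finite W) (H : SimpleGraph W)
      (m : Sym2 W → ℝ) (φ : V → W), WG H m (δ / 2 ^ n) ∧ MF H ∧ Sim G ℓ H m φ := by
  induction n with
  | zero =>
    intro V _ G ℓ δ h hM
    refine ⟨V, inferInstance, G, ℓ, id, by simpa using h, hM, fun x y a => ?_,
      fun x y w => ⟨w, le_rfl⟩⟩
    exact ⟨Walk.cons a Walk.nil, by simp⟩
  | succ n ih =>
    intro V _ G ℓ δ h hM
    obtain ⟨W, _, H, m, φ, h1, h2, h3⟩ := ih _ (subG G) _ _ (sub_wg h) (sub_mf hM)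
    exact ⟨W, inferInstance, H, m, _, h1.mono (le_of_eq (by ring)), h2,
      (sub_sim h.nn).trans h3⟩

/-! ### contraction of the edges of length zero -/

section con

variable {V : Type} (G : SimpleGraph V) (ℓ : Sym2 V → ℝ)

def zG : SimpleGraph V where
  Adj x y := G.Adj x y ∧ ℓ s(x, y) = 0
  symm := ⟨fun x y h => ⟨h.1.symm, by rw [Sym2.eq_swap]; exact h.2⟩⟩
  loopless := ⟨fun x h => h.1.ne rfl⟩

def conG : SimpleGraph (zG G ℓ).ConnectedComponent where
  Adj A B := A ≠ B ∧ ∃ x y, G.Adj x y ∧ (zG G ℓ).connectedComponentMk x = A ∧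
    (zG G ℓ).connectedComponentMk y = B
  symm := ⟨fun _ _ ⟨h, x, y, a, hx, hy⟩ => ⟨h.symm, y, x, a.symm, hy, hx⟩⟩
  loopless := ⟨fun _ h => h.1 rfl⟩

def conL (e : Sym2 (zG G ℓ).ConnectedComponent) : ℝ :=
  sInf (ℓ '' {e' | e' ∈ G.edgeSet ∧ e'.map (zG G ℓ).connectedComponentMk = e})

variable {G ℓ}

theorem zwalk {x y : V} (h : (zG G ℓ).connectedComponentMk x = (zG G ℓ).connectedComponentMk y) :
    ∃ p : G.Walk x y, wl ℓ p = 0 ∧
      ∀ v ∈ p.support, (zG G ℓ).connectedComponentMk v = (zG G ℓ).connectedComponentMk y := by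
  obtain ⟨p⟩ := ConnectedComponent.exact h
  induction p with
  | nil => exact ⟨Walk.nil, by simp, by simp⟩
  | cons a p ih =>
    obtain ⟨q, h1, h2⟩ := ih (ConnectedComponent.sound ⟨p⟩)
    refine ⟨Walk.cons a.1 q, by rw [wl_cons, h1, a.2, add_zero], fun v hv => ?_⟩
    rw [Walk.support_cons, List.mem_cons] at hv
    rcases hv with rfl | hv
    · exact h
    · exact h2 v hv

theorem conL_le [Finite V] {x y : V} (a : G.Adj x y) :
    conL G ℓ s((zG G ℓ).connectedComponentMk x, (zG G ℓ).connectedComponentMk y) ≤ ℓ s(x, y) :=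
  csInf_le ((Set.toFinite _).image _).bddBelow ⟨s(x, y), ⟨a, rfl⟩, rfl⟩

theorem conL_eq [Finite V] {A B : (zG G ℓ).ConnectedComponent} (h : (conG G ℓ).Adj A B) :
    ∃ x y, G.Adj x y ∧ (zG G ℓ).connectedComponentMk x = A ∧
      (zG G ℓ).connectedComponentMk y = B ∧ ℓ s(x, y) = conL G ℓ s(A, B) := by
  obtain ⟨-, x, y, a, rfl, rfl⟩ := h
  obtain ⟨e, ⟨he, hm⟩, e1⟩ := Set.Nonempty.csInf_mem
    (s := ℓ '' {e' | e' ∈ G.edgeSet ∧ e'.map (zG G ℓ).connectedComponentMk =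
      s((zG G ℓ).connectedComponentMk x, (zG G ℓ).connectedComponentMk y)})
    ⟨_, s(x, y), ⟨a, rfl⟩, rfl⟩ ((Set.toFinite _).image _)
  induction e using Sym2.ind with
  | _ u v =>
    rw [Sym2.map_mk, Sym2.eq_iff] at hm
    rcases hm with ⟨h1, h2⟩ | ⟨h1, h2⟩
    · exact ⟨u, v, he, h1, h2, e1⟩
    · exact ⟨v, u, Adj.symm he, h2, h1, by rw [Sym2.eq_swap]; exact e1⟩

theorem con_dn [Finite V] {A B : (zG G ℓ).ConnectedComponent} (w : (conG G ℓ).Walk A B) :
    ∀ x y, (zG G ℓ).connectedComponentMk x = A → (zG G ℓ).connectedComponentMk y = B →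
      ∃ p : G.Walk x y, wl ℓ p = wl (conL G ℓ) w ∧
        ∀ v ∈ p.support, (zG G ℓ).connectedComponentMk v ∈ w.support := by
  induction w with
  | nil =>
    intro x y hx hy
    obtain ⟨p, h1, h2⟩ := zwalk (hx.trans hy.symm)
    exact ⟨p, by simp [h1], fun v hv => by simp [h2 v hv, hy]⟩
  | cons a w ih =>
    intro x y hx hy
    obtain ⟨u, v, huv, hu, hv, e1⟩ := conL_eq a
    obtain ⟨p, h1, h2⟩ := zwalk (hx.trans hu.symm)
    obtain ⟨q, h3, h4⟩ := ih v y hv hy
    refine ⟨p.append (Walk.cons huv q), by simp [h1, h3, e1], fun z hz => ?_⟩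
    rw [Walk.mem_support_append_iff, Walk.support_cons, List.mem_cons] at hz
    rw [Walk.support_cons, List.mem_cons]
    rcases hz with hz | rfl | hz
    · exact Or.inl ((h2 z hz).trans hu)
    · exact Or.inl hu
    · exact Or.inr (h4 z hz)

theorem con_sim [Finite V] (h0 : ∀ e ∈ G.edgeSet, 0 ≤ ℓ e) :
    Sim G ℓ (conG G ℓ) (conL G ℓ) (zG G ℓ).connectedComponentMk := by
  refine ⟨fun x y a => ?_, fun x y w => ?_⟩
  · by_cases h : (zG G ℓ).connectedComponentMk x = (zG G ℓ).connectedComponentMk y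
    · exact ⟨Walk.nil.copy rfl h, by simpa using h0 _ a⟩
    · exact ⟨Walk.cons ⟨h, x, y, a, rfl, rfl⟩ Walk.nil, by simpa using conL_le a⟩
  · obtain ⟨p, hp, -⟩ := con_dn w x y rfl rfl
    exact ⟨p, hp.le⟩

theorem con_mf [Finite V] (h : MF G) : MF (conG G ℓ) := by
  refine transfer h fun I R X _ hX => ⟨fun i => (zG G ℓ).connectedComponentMk ⁻¹' X i,
    fun i => ⟨?_, fun x hx y hy => ?_⟩, fun i j hij => (hX.dj i j hij).preimage _,
    fun i j hij => ?_⟩
  · obtain ⟨A, hA⟩ := (hX.cn i).1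
    induction A using ConnectedComponent.ind with
    | _ x => exact ⟨x, hA⟩
  · obtain ⟨w, hw⟩ := (hX.cn i).2 _ hx _ hy
    obtain ⟨p, -, hp⟩ := con_dn w x y rfl rfl
    exact ⟨p, fun v hv => hw _ (hp v hv)⟩
  · obtain ⟨A, hA, B, hB, -, x, y, a, rfl, rfl⟩ := hX.tch i j hij
    exact ⟨x, hA, y, hB, a⟩

theorem con_wg [Finite V] (hc : G.Connected) (h0 : ∀ e ∈ G.edgeSet, 0 ≤ ℓ e) :
    ∃ δ, WG (conG G ℓ) (conL G ℓ) δ := by
  obtain ⟨δ, hδ⟩ := (Set.finite_range (conL G ℓ)).bddAbove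
  refine ⟨δ, ?_, fun e he => ?_, fun e _ => hδ ⟨e, rfl⟩⟩
  · obtain ⟨r⟩ := hc.nonempty
    refine (connected_iff_exists_forall_reachable _).2 ⟨(zG G ℓ).connectedComponentMk r,
      fun A => ?_⟩
    induction A using ConnectedComponent.ind with
    | _ x =>
      obtain ⟨p⟩ := hc.preconnected r x
      exact ⟨((con_sim h0).walk p).choose⟩
  · induction e using Sym2.ind with
    | _ A B =>
      obtain ⟨x, y, a, hx, hy, e1⟩ := conL_eq he
      rw [← e1]
      refine lt_of_le_of_ne (h0 _ a) fun hz => he.1 ?_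
      rw [← hx, ← hy]
      exact ConnectedComponent.sound (Adj.reachable ⟨a, hz.symm⟩)

end con

/-- a weighted graph is simulated by one with short positive edges -/
theorem exists_sim {V : Type} [Finite V] {G : SimpleGraph V} {ℓ : Sym2 V → ℝ} (hc : G.Connected)
    (hM : MF G) (h0 : ∀ e ∈ G.edgeSet, 0 ≤ ℓ e) {η : ℝ} (hη : 0 < η) :
    ∃ (W : Type) (_ : Finite W) (H : SimpleGraph W) (m : Sym2 W → ℝ) (φ : V → W),
      WG H m η ∧ MF H ∧ Sim G ℓ H m φ := by
  obtain ⟨δ, hδ⟩ := con_wg hc h0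
  obtain ⟨n, hn⟩ := pow_unbounded_of_one_lt (δ / η) (one_lt_two (α := ℝ))
  obtain ⟨W, _, H, m, φ, h1, h2, h3⟩ := exists_fine n _ _ _ δ hδ (con_mf hM)
  refine ⟨W, inferInstance, H, m, _, h1.mono ?_, h2, (con_sim h0).trans h3⟩
  rw [div_lt_iff₀ hη] at hn
  rw [div_le_iff₀ (by positivity)]
  linarith

end Crest.Agent.N206.PL.Eff0
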