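import Crest.Agent.N206.PL.Defs

/-!
# Row 206, S0317: dependency graph of the modules (helper55)
-/

set_option autoImplicit false

namespace Crest.Agent.N206.PL

/-- the implications to be proved, besides the leaves
`TopStmt KKTStmt SelStmt NeckStmt SplitStmt PortalStmt MartStmt StripStmt` -/
theorem goal_of (top : TopStmt) (kkt : KKTStmt) (sel : SelStmt) (neck : NeckStmt)
    (split : SplitStmt) (portal : PortalStmt) (mart : MartStmt) (strip : StripStmt)
    (reduce : TopStmt → KKTStmt → Eff0Stmt → Goal) (eff0 : EffStmt → Eff0Stmt)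
    (kpr : SelStmt → KPRStmt) (noise : KPRStmt → NoiseStmt)
    (neckIneq : NeckStmt → NeckIneqStmt) (lemB : KKTStmt → LemBStmt)
    (cascade : SelStmt → CascadeStmt) (a2 : StripStmt → CascadeStmt → MartStmt → A2Stmt)
    (protect : KPRStmt → PortalStmt → LemBStmt → ProtectStmt)
    (serve : KPRStmt → NoiseStmt → A2Stmt → ServeStmt)
    (level : NoiseStmt → ProtectStmt → ServeStmt → LevelStmt)
    (eff : LevelStmt → SplitStmt → NeckIneqStmt → EffStmt) : Goal :=
  have hk := kpr sel
  have hn := noise hk
  reduce top kkt (eff0 (eff (level hn (protect hk portal (lemB kkt))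
    (serve hk hn (a2 strip (cascade sel) mart))) split (neckIneq neck)))

end Crest.Agent.N206.PL
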