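import Crest.Agent.N206.PL.Defs
import Crest.Agent.N206.Dual.KKT

/-! # Row 206, S0317: `KKTStmt` (helper6) -/

set_option autoImplicit false

namespace Crest.Agent.N206.PL

theorem kkt : KKTStmt := by
  intro E P _ _ Γ _ _ a w f x up dn r hr hw hmax
  classical
  have hle : ∀ p (y : E → ℝ) g, ⨅ g, ∑ e, y e * a p g e ≤ ∑ e, y e * a p g e := fun p y g =>
    ciInf_le (f := fun g => ∑ e, y e * a p g e) (Set.finite_range _).bddBelow g
  obtain ⟨θ, h1, h2, h3, h4, h5⟩ := Dual.kkt a w hw f (fun e => if dn e then x e - r else x e)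
    (fun e => if up e then x e + r else x e) x
    (fun e => by dsimp only; split_ifs <;> linarith)
    (fun e => by dsimp only; split_ifs <;> linarith)
    (fun p y => ⨅ g, ∑ e, y e * a p g e)
    (fun p y _ _ => (exists_eq_ciInf_of_finite (f := fun g => ∑ e, y e * a p g e)).imp
      fun _ h => h.symm)
    (fun p y g _ _ => hle p y g)
    (fun y h1 h2 => hmax y (fun e h => by simpa [h] using h2 e) (fun e h => by simpa [h] using h1 e)
      fun e => by
        have h1 := h1 e
        have h2 := h2 e
        dsimp only at h1 h2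
        rw [abs_le]
        split_ifs at h1 h2 <;> constructor <;> linarith)
  exact ⟨θ, h1, h2, fun p g h g' => (h3 p g h).trans_le (hle p x g'),
    fun e h => h4 e (by simp [h, hr]), fun e h => h5 e (by simp [h, hr])⟩

end Crest.Agent.N206.PL
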