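import Crest.Agent.N206.PL.KPRDiam

/-!
# Row 206, S0317: the padded decomposition `kpr : SelStmt → KPRStmt` (helper62)
-/

set_option autoImplicit false

noncomputable section

open scoped Classical

namespace Crest.Agent.N206.PL

open Crest.GeometryTopology.GraphMetric Crest.Agent.R206.Iface534 SimpleGraph

namespace KP

variable {V : Type} {G : SimpleGraph V} {ℓ : Sym2 V → ℝ}

/-- a partition into connected pieces; `k v` is the piece of `v` -/
structure Part (G : SimpleGraph V) (k : V → Set V) : Prop where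
  mem : ∀ v, v ∈ k v
  eq : ∀ u v, u ∈ k v → k u = k v
  cn : ∀ v, Cn G (k v)

/-- a geodesic from `x` to a point of the ball stays in the ball -/
theorem geo_in_ball [Fintype V] {δ : ℝ} (hw : WG G ℓ δ) {x y : V} {r : ℝ}
    (hy : y ∈ bl G ℓ x r) : ∃ p : G.Walk x y, In p (bl G ℓ x r) ∧ wl ℓ p ≤ r := by
  obtain ⟨p, hp⟩ := exists_geo hw.conn hw.pos x y
  have hy' : wdist G ℓ x y ≤ r := hy
  refine ⟨p, fun z hz => ?_, by linarith⟩
  obtain ⟨p₁, p₂, he, -, -⟩ := split (ℓ := ℓ) p hz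
  have := wdist_le_wl hw.pos p₁
  have := wl_nonneg hw.pos p₂
  show wdist G ℓ x z ≤ r
  linarith

theorem floor_eq_of {c c' t W r : ℝ} (hW : 0 < W) (h : ¬ ∃ m : ℤ, |c - t - m * W| ≤ r)
    (hc : |c' - c| ≤ r) : ⌊(c' - t) / W⌋ = ⌊(c - t) / W⌋ := by
  have hc' := abs_le.1 hc
  have a1 := Int.floor_le ((c - t) / W)
  have a2 := Int.lt_floor_add_one ((c - t) / W)
  rw [le_div_iff₀ hW] at a1
  rw [div_lt_iff₀ hW] at a2
  rw [Int.floor_eq_iff, le_div_iff₀ hW, div_lt_iff₀ hW]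
  constructor
  · by_contra h'
    exact h ⟨⌊(c - t) / W⌋, abs_le.2 ⟨by linarith, by linarith⟩⟩
  · by_contra h'
    refine h ⟨⌊(c - t) / W⌋ + 1, abs_le.2 ⟨?_, ?_⟩⟩ <;> push_cast <;> linarith

/-- one round of bands -/
theorem round (sel : SelStmt) [Fintype V] {δ : ℝ} (hw : WG G ℓ δ) {k : V → Set V} (hk : Part G k)
    {W r : ℝ} (hW : 0 < W) (hr : 0 ≤ r) {ι : Type} [Fintype ι] (x : ι → V) (ω : ι → ℝ)
    (hω : ∀ i, 0 ≤ ω i) :
    ∃ k' : V → Set V, Part G k' ∧ (∀ v, ∃ s π b, Band G ℓ (k v) s π b W (k' v)) ∧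
      (∀ u v, u ∈ k' v → u ∈ k v) ∧
      ∑ i, (if bl G ℓ (x i) r ⊆ k' (x i) then 0 else ω i) ≤
        ∑ i, (if bl G ℓ (x i) r ⊆ k (x i) then 0 else ω i) + 4 * r / W * ∑ i, ω i := by
  have hex : ∀ H : Set V, ∃ (s : V → V) (π : V → ℝ), ∀ v, Cn G H → s v ∈ H ∧ Pot G ℓ H (s v) π := by
    intro H
    by_cases hH : Cn G H
    · obtain ⟨s, hs⟩ := hH.1
      obtain ⟨π, hπ⟩ := exists_pot hw.pos hH hs
      exact ⟨fun _ => s, π, fun _ _ => ⟨hs, hπ⟩⟩
    · exact ⟨id, fun _ => 0, fun _ h => absurd h hH⟩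
  choose sf πf hf using hex
  set π : V → ℝ := fun u => πf (k u) u with hπ
  have hpot : ∀ v, Pot G ℓ (k v) (sf (k v) v) π := fun v =>
    (hf (k v) v (hk.cn v)).2.congr (hf (k v) v (hk.cn v)).1 fun u hu => by
      simp only [hπ, hk.eq u v hu]
  obtain ⟨t, -, -, ht⟩ := sel ι Unit ω (fun i _ => π (x i)) (fun _ _ => W) (fun _ _ => r) 0 W hW
    hω (fun _ _ => hW) (fun _ _ => hr)
  set β : V → ℤ := fun u => ⌊(π u - t) / W⌋ with hβ
  set S : V → Set V := fun v => {z | z ∈ k v ∧ β z = β v} with hS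
  have hSeq : ∀ u v, u ∈ S v → S u = S v := by
    intro u v hu
    simp only [hS, hk.eq u v hu.1, hu.2]
  refine ⟨fun v => {u | ∃ p : G.Walk v u, In p (S v)}, ⟨fun v => ?_, ?_, fun v => ?_⟩,
    fun v => ⟨sf (k v) v, π, t + β v * W, hpot v, (hf (k v) v (hk.cn v)).1, ?_, ?_, ?_, ?_⟩,
    ?_, ?_⟩
  · exact ⟨Walk.nil, In.nil ⟨hk.mem v, rfl⟩⟩
  · rintro u v ⟨p, hp⟩
    have e := hSeq u v hp.stop
    ext z
    simp only [Set.mem_ofPred_eq, e]
    exact ⟨fun ⟨q, hq⟩ => ⟨p.append q, hp.append hq⟩,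
      fun ⟨q, hq⟩ => ⟨p.reverse.append q, hp.reverse.append hq⟩⟩
  · refine cn_of_center (c := v) ⟨Walk.nil, In.nil ⟨hk.mem v, rfl⟩⟩ ?_
    rintro u ⟨p, hp⟩
    refine ⟨p, fun z hz => ?_⟩
    obtain ⟨p₁, -, -, h₁, -⟩ := split (ℓ := ℓ) p hz
    exact ⟨p₁, fun y hy => hp y (h₁ y hy)⟩
  · rintro u ⟨p, hp⟩
    exact hp.stop.1
  · rintro u ⟨p, hp⟩
    have := Int.floor_le ((π u - t) / W)
    rw [le_div_iff₀ hW] at this
    rw [← hp.stop.2]
    simp only [hβ]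
    linarith
  · rintro u ⟨p, hp⟩
    have := Int.lt_floor_add_one ((π u - t) / W)
    rw [div_lt_iff₀ hW] at this
    rw [← hp.stop.2]
    simp only [hβ]
    linarith
  · rintro z ⟨p, hp⟩ u hu hzu h1 h2
    refine ⟨p.append (Walk.cons hzu Walk.nil), hp.append (In.cons hzu hp.stop (In.nil ⟨hu, ?_⟩))⟩
    show ⌊(π u - t) / W⌋ = β v
    rw [Int.floor_eq_iff, le_div_iff₀ hW, div_lt_iff₀ hW]
    constructor <;> linarith
  · rintro u v ⟨p, hp⟩
    exact hp.stop.1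
  · have e : ∑ i, ω i * ∑ _j : Unit, 2 * r * (1 / W + 1 / W) = 4 * r / W * ∑ i, ω i := by
      rw [Finset.mul_sum]
      refine Finset.sum_congr rfl fun i _ => ?_
      simp only [Finset.univ_unique, Finset.sum_singleton]
      ring
    rw [← e]
    refine le_trans ?_ (add_le_add le_rfl ht)
    rw [← Finset.sum_add_distrib]
    refine Finset.sum_le_sum fun i _ => ?_
    have h0 := hω i
    by_cases h1 : bl G ℓ (x i) r ⊆ k (x i)
    swap
    · simp only [h1, if_false]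
      split_ifs <;> linarith
    by_cases h2 : ∃ (_ : Unit) (m : ℤ), |π (x i) - t - m * W| ≤ r
    · simp only [h2, if_true]
      split_ifs <;> linarith
    have h3 : bl G ℓ (x i) r ⊆ {u | ∃ p : G.Walk (x i) u, In p (S (x i))} := by
      intro y hy
      obtain ⟨p, hp, -⟩ := geo_in_ball hw hy
      refine ⟨p, fun z hz => ⟨h1 (hp z hz), ?_⟩⟩
      obtain ⟨q, hq, hl⟩ := geo_in_ball hw (hp z hz)
      have e1 := (hpot (x i)).lip _ _ q (hq.mono h1)
      have e2 := (hpot (x i)).lip' q (hq.mono h1)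
      exact floor_eq_of hW (fun ⟨m, hm⟩ => h2 ⟨(), m, hm⟩) (abs_le.2 ⟨by linarith, by linarith⟩)
    simp only [h1, h2, h3, if_true, if_false]
    linarith

end KP

open KP in
theorem kpr (sel : SelStmt) : KPRStmt := by
  refine ⟨252, by norm_num, ?_⟩
  intro V _ G ℓ δ hw hm r θ hr hθ hθ1 hδ ι _ x ω hω
  set W : ℝ := 12 * r / θ with hWd
  have hW : 0 < W := by positivity
  have hrW : r ≤ W := by
    rw [hWd, le_div_iff₀ hθ]; nlinarith
  have p₃ : Part G fun _ : V => (Set.univ : Set V) :=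
    ⟨fun _ => trivial, fun _ _ _ => rfl, fun v => ⟨⟨v, trivial⟩, fun a _ b _ =>
      let ⟨p⟩ := hw.conn.preconnected a b; ⟨p, fun _ _ => trivial⟩⟩⟩
  obtain ⟨k₂, p₂, b₃, -, w₂⟩ := round sel hw p₃ hW hr.le x ω hω
  obtain ⟨k₁, p₁, b₂, -, w₁⟩ := round sel hw p₂ hW hr.le x ω hω
  obtain ⟨k₀, p₀, b₁, -, w₀⟩ := round sel hw p₁ hW hr.le x ω hω
  have hd : ∀ v y, y ∈ k₀ v → wdist G ℓ v y ≤ 252 * r / θ := by
    intro v y hy
    obtain ⟨_, _, _, h₃⟩ := b₃ v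
    obtain ⟨_, _, _, h₂⟩ := b₂ v
    obtain ⟨_, _, _, h₁⟩ := b₁ v
    have := diam hw hm (hδ.trans hrW) hW h₃ h₂ h₁ (p₀.cn v) (p₀.mem v) hy
    refine this.trans (le_of_eq ?_)
    rw [hWd]; ring
  have hrep : ∀ S : Set V, ∃ c : V → V, ∀ v, v ∈ S → c v ∈ S ∧ ∀ u, u ∈ S → c u = c v := by
    intro S
    by_cases h : S.Nonempty
    · exact ⟨fun _ => h.some, fun _ _ => ⟨h.some_mem, fun _ _ => rfl⟩⟩
    · exact ⟨id, fun v hv => absurd ⟨v, hv⟩ h⟩
  choose cf hcf using hrep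
  have hmem : ∀ v, cf (k₀ v) v ∈ k₀ v := fun v => (hcf _ v (p₀.mem v)).1
  refine ⟨fun v => cf (k₀ v) v, fun y => hd y _ (hmem y), fun y z h => hd y z ?_, ?_⟩
  · have e1 := p₀.eq _ _ (hmem y)
    have e2 := p₀.eq _ _ (hmem z)
    have h' : cf (k₀ y) y = cf (k₀ z) z := h
    rw [h'] at e1
    rw [← e1, e2]
    exact p₀.mem z
  · have e : 4 * r / W = θ / 3 := by
      rw [hWd]; field_simp; norm_num
    rw [e] at w₀ w₁ w₂
    simp only [Set.subset_univ, if_true, Finset.sum_const_zero, zero_add] at w₂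
    refine le_trans (Finset.sum_le_sum fun i _ => ?_) (w₀.trans (by linarith))
    by_cases h : bl G ℓ (x i) r ⊆ k₀ (x i)
    · have h' : ∀ y ∈ bl G ℓ (x i) r, cf (k₀ y) y = cf (k₀ (x i)) (x i) := by
        intro y hy
        rw [p₀.eq _ _ (h hy)]
        exact (hcf _ (x i) (p₀.mem _)).2 y (h hy)
      rw [if_pos h', if_pos h]
    · rw [if_neg h]
      split_ifs
      · exact hω i
      · exact le_rfl

end Crest.Agent.N206.PL
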