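import Crest.Agent.N206.PL.KPRPot

/-!
# Row 206, S0317: three nested bands have bounded weak diameter (helper62)
-/

set_option autoImplicit false

noncomputable section

open scoped Classical

namespace Crest.Agent.N206.PL.KP

open Crest.GeometryTopology.GraphMetric Crest.Agent.R206.Iface534 SimpleGraph

variable {V : Type} {G : SimpleGraph V} {ℓ : Sym2 V → ℝ}

/-- `H'` is a union of components of the band `b ≤ π < b + W` of `H` -/
structure Band (G : SimpleGraph V) (ℓ : Sym2 V → ℝ) (H : Set V) (s : V) (π : V → ℝ) (b W : ℝ)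
    (H' : Set V) : Prop where
  pot : Pot G ℓ H s π
  root : s ∈ H
  sub : H' ⊆ H
  lo : ∀ v ∈ H', b ≤ π v
  hi : ∀ v ∈ H', π v < b + W
  closed : ∀ v ∈ H', ∀ u ∈ H, G.Adj v u → b ≤ π u → π u < b + W → u ∈ H'

theorem Band.walk {H H' : Set V} {s : V} {π : V → ℝ} {b W : ℝ} (h : Band G ℓ H s π b W H')
    {u v : V} (p : G.Walk u v) (hu : u ∈ H') (hp : In p H)
    (hb : ∀ z ∈ p.support, b ≤ π z ∧ π z < b + W) : In p H' := by
  induction p with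
  | nil => exact In.nil hu
  | @cons u u' v huu p ih =>
    have h' := hb u' (by simp)
    exact In.cons huu hu (ih (h.closed u hu u' hp.tail.start huu h'.1 h'.2) hp.tail
      fun z hz => hb z (by simp [hz]))

/-- a descent that stays above the bottom of the band stays in the piece and is short -/
theorem Band.desc (hℓ : ∀ e ∈ G.edgeSet, 0 < ℓ e) {H H' : Set V} {s : V} {π : V → ℝ} {b W : ℝ}
    (h : Band G ℓ H s π b W H') {u v : V} (hu : u ∈ H') (hd : Desc G ℓ H π u v) (hv : b ≤ π v) :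
    ∃ p : G.Walk u v, In p H' ∧ wl ℓ p < W := by
  obtain ⟨p, -, hp, hl, hz⟩ := h.pot.dn_walk hℓ (a := b) ⟨hv, hd⟩
  have := h.hi u hu
  exact ⟨p, h.walk p hu hp fun z hz' => ⟨hv.trans (hz z hz').1, (hz z hz').2.trans_lt this⟩,
    by linarith⟩

theorem tch_cross {H S : Set V} {s : V} {π : V → ℝ} (h : Pot G ℓ H s π) {a : ℝ} (ha : 0 < a)
    {u : V} (hu : u ∈ H) (hau : a ≤ π u) (hS : Dn G ℓ H π u a ⊆ S) :
    Tch G {v | v ∈ H ∧ π v < a} S := by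
  obtain ⟨v, w, hvw, h1, h2, h3, -⟩ := h.cross ha hu hau
  exact ⟨w, ⟨h2, h3⟩, v, hS h1, hvw.symm⟩

section diam

variable {δ W b₁ b₂ b₃ : ℝ} {H₀ H₁ H₂ H₃ : Set V} {s₁ s₂ s₃ : V} {π₁ π₂ π₃ : V → ℝ}

/-- the branch set at `u` -/
theorem branch (hw : WG G ℓ δ) (hδ : δ ≤ W) (hW : 0 < W)
    (h₃ : Band G ℓ H₃ s₃ π₃ b₃ W H₂) (h₂ : Band G ℓ H₂ s₂ π₂ b₂ W H₁)
    (h₁ : Band G ℓ H₁ s₁ π₁ b₁ W H₀) (c₁ : W < b₁) (c₂ : 4 * W < b₂) (c₃ : 0 < b₃)
    {u : V} (hu : u ∈ H₀) :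
    ∃ B : Set V, Cn G B ∧ (∀ v ∈ B, wdist G ℓ u v ≤ 5 * W) ∧
      Disjoint {v | v ∈ H₁ ∧ π₁ v < b₁ - W} B ∧ Disjoint {v | v ∈ H₂ ∧ π₂ v < b₂ - 4 * W} B ∧
      Disjoint {v | v ∈ H₃ ∧ π₃ v < b₃} B ∧ Tch G {v | v ∈ H₁ ∧ π₁ v < b₁ - W} B ∧
      Tch G {v | v ∈ H₂ ∧ π₂ v < b₂ - 4 * W} B ∧ Tch G {v | v ∈ H₃ ∧ π₃ v < b₃} B := by
  have hℓ := hw.pos
  have u₁ : u ∈ H₁ := h₁.sub hu
  have u₂ : u ∈ H₂ := h₂.sub u₁
  have l₁ := h₁.lo u hu
  have t₁ := h₁.hi u hu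
  have l₂ := h₂.lo u u₁
  have t₂ := h₂.hi u u₁
  obtain ⟨v₀, w, hvw, -, w₂, wlt, wge, wd⟩ :=
    h₂.pot.cross (a := b₂ - 2 * W) (by linarith) u₂ (by linarith)
  have hsm : ℓ s(v₀, w) ≤ W := (hw.small _ (by simpa using hvw)).trans hδ
  have wP : w ∈ Dn G ℓ H₂ π₂ u (b₂ - 4 * W) := ⟨by linarith, wd⟩
  have l₃ := h₃.lo w w₂
  -- facts on the third part
  have f₃ : ∀ v ∈ Dn G ℓ H₃ π₃ w b₃, v ∈ H₂ ∧ π₂ v < b₂ ∧ b₂ - 4 * W ≤ π₂ v ∧
      wdist G ℓ u v ≤ 5 * W := by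
    intro v hv
    obtain ⟨p, hp, hl⟩ := h₃.desc hℓ w₂ hv.2 hv.1
    have e1 := h₂.pot.lip _ _ p hp
    have e2 := h₂.pot.lip' p hp
    obtain ⟨q, -, hq⟩ := wd
    have e3 := wdist_le_wl hℓ (q.append p)
    rw [wl_append] at e3
    exact ⟨hp.stop, by linarith, by linarith, by linarith⟩
  refine ⟨(Dn G ℓ H₁ π₁ u (b₁ - W) ∪ Dn G ℓ H₂ π₂ u (b₂ - 4 * W)) ∪ Dn G ℓ H₃ π₃ w b₃, ?_, ?_,
    ?_, ?_, ?_, ?_, ?_, ?_⟩
  · refine cn_of_center (c := u) (Or.inl (Or.inl (self_mem_dn u₁ (by linarith)))) ?_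
    rintro v ((hv | hv) | hv)
    · obtain ⟨p, hp, -⟩ := h₁.pot.dn_walk hℓ hv
      exact ⟨p, hp.mono fun z hz => Or.inl (Or.inl hz)⟩
    · obtain ⟨p, hp, -⟩ := h₂.pot.dn_walk hℓ hv
      exact ⟨p, hp.mono fun z hz => Or.inl (Or.inr hz)⟩
    · obtain ⟨p, hp, -⟩ := h₂.pot.dn_walk hℓ wP
      obtain ⟨q, hq, -⟩ := h₃.pot.dn_walk hℓ hv
      exact ⟨p.append q, (hp.mono fun z hz => Or.inl (Or.inr hz)).append
        (hq.mono fun z hz => Or.inr hz)⟩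
  · rintro v ((hv | hv) | hv)
    · obtain ⟨ha, p, -, hp⟩ := hv
      linarith [wdist_le_wl hℓ p]
    · obtain ⟨ha, p, -, hp⟩ := hv
      linarith [wdist_le_wl hℓ p]
    · exact (f₃ v hv).2.2.2
  · rw [Set.disjoint_left]
    rintro v ⟨v₁, hlt⟩ ((hv | hv) | hv)
    · linarith [hv.1]
    · obtain ⟨p, hp, hl⟩ := h₂.desc hℓ u₁ hv.2 (h₂.lo v v₁)
      linarith [h₁.pot.lip _ _ p hp]
    · linarith [(f₃ v hv).2.1, h₂.lo v v₁]
  · rw [Set.disjoint_left]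
    rintro v ⟨-, hlt⟩ ((hv | hv) | hv)
    · linarith [h₂.lo v (dn_subset hv)]
    · linarith [hv.1]
    · linarith [(f₃ v hv).2.2.1]
  · rw [Set.disjoint_left]
    rintro v ⟨-, hlt⟩ ((hv | hv) | hv)
    · linarith [h₃.lo v (h₂.sub (dn_subset hv))]
    · linarith [h₃.lo v (dn_subset hv)]
    · linarith [hv.1]
  · exact tch_cross h₁.pot (by linarith) u₁ (by linarith) fun z hz => Or.inl (Or.inl hz)
  · exact tch_cross h₂.pot (by linarith) u₂ (by linarith) fun z hz => Or.inl (Or.inr hz)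
  · exact tch_cross h₃.pot c₃ (h₃.sub w₂) l₃ fun z hz => Or.inr hz

/-- discrete intermediate value along a walk -/
theorem ivt (hw : WG G ℓ δ) (u : V) {a : ℝ} {x y : V} (p : G.Walk x y)
    (hx : wdist G ℓ u x ≤ a) (hy : a < wdist G ℓ u y) :
    ∃ z ∈ p.support, a < wdist G ℓ u z ∧ wdist G ℓ u z ≤ a + δ := by
  induction p with
  | nil => linarith
  | @cons x x' y hxx p ih =>
    by_cases h : wdist G ℓ u x' ≤ a
    · obtain ⟨z, hz, h'⟩ := ih h hy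
      exact ⟨z, by simp [hz], h'⟩
    · refine ⟨x', by simp, lt_of_not_ge h, ?_⟩
      have e1 := wdist_triangle hw.conn hw.pos u x x'
      have e2 := wdist_edge_le hw.pos hxx
      have e3 := hw.small s(x, x') (by simpa using hxx)
      linarith

theorem diam (hw : WG G ℓ δ) (hm : MF G) (hδ : δ ≤ W) (hW : 0 < W)
    (h₃ : Band G ℓ H₃ s₃ π₃ b₃ W H₂) (h₂ : Band G ℓ H₂ s₂ π₂ b₂ W H₁)
    (h₁ : Band G ℓ H₁ s₁ π₁ b₁ W H₀) (h₀ : Cn G H₀) {u v : V} (hu : u ∈ H₀) (hv : v ∈ H₀) :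
    wdist G ℓ u v ≤ 21 * W := by
  have hℓ := hw.pos
  have tri := wdist_triangle hw.conn hw.pos
  have com := wdist_comm hw.conn hw.pos
  have small : ∀ {H H' : Set V} {s : V} {π : V → ℝ} {b : ℝ}, Band G ℓ H s π b W H' → u ∈ H' →
      v ∈ H' → wdist G ℓ u v ≤ 2 * (b + W) := by
    intro H H' s π b h hu hv
    have e1 := h.pot.dist hℓ (h.sub hu)
    have e2 := h.pot.dist hℓ (h.sub hv)
    have e3 := tri u s v
    have e4 := com s v
    linarith [h.hi u hu, h.hi v hv]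
  by_contra hc
  rw [not_le] at hc
  have c₁ : W < b₁ := by
    by_contra h; linarith [small h₁ hu hv]
  have c₂ : 4 * W < b₂ := by
    by_contra h; linarith [small h₂ (h₁.sub hu) (h₁.sub hv)]
  have c₃ : 0 < b₃ := by
    by_contra h; linarith [small h₃ (h₂.sub (h₁.sub hu)) (h₂.sub (h₁.sub hv))]
  obtain ⟨p, hp⟩ := h₀.2 u hu v hv
  obtain ⟨z, hz, z₁, z₂⟩ := ivt hw u (a := 10 * W) p
    (by rw [wdist_self hw.conn hw.pos]; linarith) (by linarith)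
  have z₃ : 10 * W < wdist G ℓ z v := by linarith [tri u z v]
  have hx : ∀ i : Fin 3, (![u, z, v] i) ∈ H₀ := by
    intro i; fin_cases i
    · exact hu
    · exact hp z hz
    · exact hv
  have hfar : ∀ i j : Fin 3, i ≠ j → 10 * W < wdist G ℓ (![u, z, v] i) (![u, z, v] j) := by
    intro i j hij
    fin_cases i <;> fin_cases j <;> simp at hij ⊢ <;>
      linarith [com u z, com u v, com z v]
  choose B hB using fun i => branch hw hδ hW h₃ h₂ h₁ c₁ c₂ c₃ (hx i)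
  refine hm.k33 ![{v | v ∈ H₁ ∧ π₁ v < b₁ - W}, {v | v ∈ H₂ ∧ π₂ v < b₂ - 4 * W},
    {v | v ∈ H₃ ∧ π₃ v < b₃}] B ?_ (fun i => (hB i).1) ?_ ?_ ?_ ?_
  · intro i; fin_cases i
    · exact h₁.pot.hub hℓ h₁.root (by linarith)
    · exact h₂.pot.hub hℓ h₂.root (by linarith)
    · exact h₃.pot.hub hℓ h₃.root c₃
  · have d12 : Disjoint {v | v ∈ H₁ ∧ π₁ v < b₁ - W} {v | v ∈ H₂ ∧ π₂ v < b₂ - 4 * W} := by
      rw [Set.disjoint_left]
      rintro x ⟨x₁, -⟩ ⟨-, x₂⟩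
      linarith [h₂.lo x x₁]
    have d13 : Disjoint {v | v ∈ H₁ ∧ π₁ v < b₁ - W} {v | v ∈ H₃ ∧ π₃ v < b₃} := by
      rw [Set.disjoint_left]
      rintro x ⟨x₁, -⟩ ⟨-, x₂⟩
      linarith [h₃.lo x (h₂.sub x₁)]
    have d23 : Disjoint {v | v ∈ H₂ ∧ π₂ v < b₂ - 4 * W} {v | v ∈ H₃ ∧ π₃ v < b₃} := by
      rw [Set.disjoint_left]
      rintro x ⟨x₁, -⟩ ⟨-, x₂⟩
      linarith [h₃.lo x x₁]
    intro i j hij
    fin_cases i <;> fin_cases j
    all_goals first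
      | exact absurd rfl hij
      | exact d12 | exact d13 | exact d23 | exact d12.symm | exact d13.symm | exact d23.symm
  · intro i j hij
    rw [Set.disjoint_left]
    intro x hi hj
    have e1 := (hB i).2.1 x hi
    have e2 := (hB j).2.1 x hj
    have e3 := tri (![u, z, v] i) x (![u, z, v] j)
    have e4 := com x (![u, z, v] j)
    linarith [hfar i j hij]
  · intro i j; fin_cases i
    · exact (hB j).2.2.1
    · exact (hB j).2.2.2.1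
    · exact (hB j).2.2.2.2.1
  · intro i j; fin_cases i
    · exact (hB j).2.2.2.2.2.1
    · exact (hB j).2.2.2.2.2.2.1
    · exact (hB j).2.2.2.2.2.2.2

end diam

end Crest.Agent.N206.PL.KP
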