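import Crest.Agent.N206.PL.Defs

/-!
# Row 206, S0317: intrinsic distance functions and descents (helper62)

`Pot H s π`: `π` is the distance to `s` inside `H`.  `Desc`: descent along geodesics of `H`.
-/

set_option autoImplicit false

noncomputable section

open scoped Classical

namespace Crest.Agent.N206.PL.KP

open Crest.GeometryTopology.GraphMetric Crest.Agent.R206.Iface534 SimpleGraph

variable {V : Type} {G : SimpleGraph V} {ℓ : Sym2 V → ℝ}

/-- the walk stays in `H` -/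
def In {x y : V} (p : G.Walk x y) (H : Set V) : Prop := ∀ v ∈ p.support, v ∈ H

theorem In.nil {x : V} {H : Set V} (h : x ∈ H) : In (Walk.nil : G.Walk x x) H := by
  intro v hv; simp at hv; exact hv ▸ h

theorem In.cons {x y z : V} {H : Set V} (h : G.Adj x y) {p : G.Walk y z} (hx : x ∈ H)
    (hp : In p H) : In (Walk.cons h p) H := by
  intro v hv
  rcases (by simpa using hv : v = x ∨ v ∈ p.support) with rfl | hv
  · exact hx
  · exact hp v hv

theorem In.tail {x y z : V} {H : Set V} {h : G.Adj x y} {p : G.Walk y z}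
    (hp : In (Walk.cons h p) H) : In p H := fun v hv => hp v (by simp [hv])

theorem In.start {x y : V} {H : Set V} {p : G.Walk x y} (hp : In p H) : x ∈ H :=
  hp x p.start_mem_support

theorem In.stop {x y : V} {H : Set V} {p : G.Walk x y} (hp : In p H) : y ∈ H :=
  hp y p.end_mem_support

theorem In.append {x y z : V} {H : Set V} {p : G.Walk x y} {q : G.Walk y z} (hp : In p H)
    (hq : In q H) : In (p.append q) H := by
  intro v hv
  rcases (Walk.mem_support_append_iff _ _).1 hv with h | h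
  · exact hp v h
  · exact hq v h

theorem In.reverse {x y : V} {H : Set V} {p : G.Walk x y} (hp : In p H) : In p.reverse H := by
  intro v hv
  rw [Walk.support_reverse, List.mem_reverse] at hv
  exact hp v hv

theorem In.mono {x y : V} {H H' : Set V} {p : G.Walk x y} (hp : In p H) (h : H ⊆ H') :
    In p H' := fun v hv => h (hp v hv)

@[simp] theorem wl_nil (x : V) : wl ℓ (Walk.nil : G.Walk x x) = 0 := by simp [wl]

@[simp] theorem wl_cons {x y z : V} (h : G.Adj x y) (p : G.Walk y z) :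
    wl ℓ (Walk.cons h p) = ℓ s(x, y) + wl ℓ p := by simp [wl]

theorem wl_append {x y z : V} (p : G.Walk x y) (q : G.Walk y z) :
    wl ℓ (p.append q) = wl ℓ p + wl ℓ q := by simp [wl]

theorem wl_reverse {x y : V} (p : G.Walk x y) : wl ℓ p.reverse = wl ℓ p := by
  simp [wl, List.map_reverse, List.sum_reverse]

theorem wl_nonneg (hℓ : ∀ e ∈ G.edgeSet, 0 < ℓ e) {x y : V} (p : G.Walk x y) : 0 ≤ wl ℓ p :=
  edges_sum_nonneg hℓ p

theorem wdist_le_wl (hℓ : ∀ e ∈ G.edgeSet, 0 < ℓ e) {x y : V} (p : G.Walk x y) :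
    wdist G ℓ x y ≤ wl ℓ p := wdist_le_walk hℓ p

/-- split a walk at a vertex of its support -/
theorem split {x y z : V} (p : G.Walk x y) (hz : z ∈ p.support) :
    ∃ (p₁ : G.Walk x z) (p₂ : G.Walk z y), wl ℓ p = wl ℓ p₁ + wl ℓ p₂ ∧
      (∀ v ∈ p₁.support, v ∈ p.support) ∧ (∀ v ∈ p₂.support, v ∈ p.support) := by
  refine ⟨p.takeUntil z hz, p.dropUntil z hz, ?_,
    fun v hv => p.support_takeUntil_subset_support hz hv,
    fun v hv => p.support_dropUntil_subset_support hz hv⟩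
  rw [← wl_append, Walk.take_spec]

theorem wl_bypass_le (hℓ : ∀ e ∈ G.edgeSet, 0 < ℓ e) {x y : V} (p : G.Walk x y) :
    wl ℓ p.bypass ≤ wl ℓ p := by
  unfold wl
  refine List.Sublist.sum_le_sum (p.edges_bypass_sublist_edges.map ℓ) fun a ha => ?_
  obtain ⟨e, he, rfl⟩ := List.mem_map.1 ha
  exact (hℓ e (p.edges_subset_edgeSet he)).le

/-- a shortest walk inside `H` -/
theorem exists_min [Fintype V] (hℓ : ∀ e ∈ G.edgeSet, 0 < ℓ e) {H : Set V} {x y : V}
    (h : ∃ p : G.Walk x y, In p H) :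
    ∃ p : G.Walk x y, In p H ∧ ∀ q : G.Walk x y, In q H → wl ℓ p ≤ wl ℓ q := by
  obtain ⟨p₀, hp₀⟩ := h
  have hb : ∀ q : G.Walk x y, In q H → In q.bypass H := fun q hq v hv =>
    hq v (q.support_bypass_subset_support hv)
  obtain ⟨p, hp, hmin⟩ := Finset.exists_min_image
    (Finset.univ.filter fun p : G.Path x y => In p.1 H) (fun p => wl ℓ p.1)
    ⟨p₀.toPath, Finset.mem_filter.2 ⟨Finset.mem_univ _, hb p₀ hp₀⟩⟩
  refine ⟨p.1, by simpa using hp, fun q hq => ?_⟩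
  exact (hmin q.toPath (Finset.mem_filter.2 ⟨Finset.mem_univ _, hb q hq⟩)).trans (wl_bypass_le hℓ q)

/-- a geodesic of the whole graph -/
theorem exists_geo [Fintype V] (hG : G.Connected) (hℓ : ∀ e ∈ G.edgeSet, 0 < ℓ e) (x y : V) :
    ∃ p : G.Walk x y, wl ℓ p = wdist G ℓ x y := by
  obtain ⟨p₀⟩ := hG.preconnected x y
  obtain ⟨p, -, hp⟩ := exists_min hℓ (H := Set.univ) ⟨p₀, fun _ _ => trivial⟩
  exact ⟨p, le_antisymm (le_wdist hG fun q => hp q fun _ _ => trivial) (wdist_le_wl hℓ p)⟩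

/-- `π` is the distance to `s` inside `H` -/
structure Pot (G : SimpleGraph V) (ℓ : Sym2 V → ℝ) (H : Set V) (s : V) (π : V → ℝ) : Prop where
  geo : ∀ v ∈ H, ∃ p : G.Walk v s, In p H ∧ wl ℓ p ≤ π v
  lip : ∀ x y (p : G.Walk x y), In p H → π x ≤ π y + wl ℓ p
  zero : π s ≤ 0

theorem exists_pot [Fintype V] (hℓ : ∀ e ∈ G.edgeSet, 0 < ℓ e) {H : Set V} (hH : Cn G H) {s : V}
    (hs : s ∈ H) : ∃ π : V → ℝ, Pot G ℓ H s π := by
  have h : ∀ v, ∃ a : ℝ, v ∈ H → ∃ p : G.Walk v s, In p H ∧ wl ℓ p = a ∧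
      ∀ q : G.Walk v s, In q H → a ≤ wl ℓ q := by
    intro v
    by_cases hv : v ∈ H
    · obtain ⟨p, hp, hm⟩ := exists_min hℓ (hH.2 v hv s hs)
      exact ⟨wl ℓ p, fun _ => ⟨p, hp, rfl, hm⟩⟩
    · exact ⟨0, fun h => absurd h hv⟩
  choose π hπ using h
  refine ⟨π, fun v hv => ?_, fun x y p hp => ?_, ?_⟩
  · obtain ⟨p, hp, he, -⟩ := hπ v hv
    exact ⟨p, hp, he.le⟩
  · obtain ⟨q, hq, he, -⟩ := hπ y hp.stop
    obtain ⟨-, -, -, hm⟩ := hπ x hp.start
    have := hm (p.append q) (hp.append hq)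
    rw [wl_append] at this
    linarith
  · obtain ⟨-, -, -, hm⟩ := hπ s hs
    simpa using hm Walk.nil (In.nil hs)

theorem Pot.congr {H : Set V} {s : V} {π π' : V → ℝ} (h : Pot G ℓ H s π) (hs : s ∈ H)
    (he : ∀ v ∈ H, π' v = π v) : Pot G ℓ H s π' := by
  refine ⟨fun v hv => ?_, fun x y p hp => ?_, ?_⟩
  · rw [he v hv]; exact h.geo v hv
  · rw [he x hp.start, he y hp.stop]; exact h.lip x y p hp
  · rw [he s hs]; exact h.zero

theorem Pot.lip' {H : Set V} {s : V} {π : V → ℝ} (h : Pot G ℓ H s π) {x y : V} (p : G.Walk x y)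
    (hp : In p H) : π y ≤ π x + wl ℓ p := by
  have := h.lip y x p.reverse hp.reverse
  rwa [wl_reverse] at this

theorem Pot.edge {H : Set V} {s : V} {π : V → ℝ} (h : Pot G ℓ H s π) {x y : V} (hx : x ∈ H)
    (hy : y ∈ H) (hxy : G.Adj x y) : π x ≤ π y + ℓ s(x, y) := by
  simpa using h.lip x y (Walk.cons hxy Walk.nil) (In.cons hxy hx (In.nil hy))

theorem Pot.dist (hℓ : ∀ e ∈ G.edgeSet, 0 < ℓ e) {H : Set V} {s : V} {π : V → ℝ}
    (h : Pot G ℓ H s π) {v : V} (hv : v ∈ H) : wdist G ℓ v s ≤ π v := by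
  obtain ⟨p, -, hp⟩ := h.geo v hv
  exact (wdist_le_wl hℓ p).trans hp

/-- `v` is below `u` on a geodesic of `H` towards the root -/
def Desc (G : SimpleGraph V) (ℓ : Sym2 V → ℝ) (H : Set V) (π : V → ℝ) (u v : V) : Prop :=
  ∃ p : G.Walk u v, In p H ∧ wl ℓ p + π v ≤ π u

/-- the part above level `a` of the descents from `u` -/
def Dn (G : SimpleGraph V) (ℓ : Sym2 V → ℝ) (H : Set V) (π : V → ℝ) (u : V) (a : ℝ) : Set V :=
  {v | a ≤ π v ∧ Desc G ℓ H π u v}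

/-- along a descending walk -/
theorem Pot.along (hℓ : ∀ e ∈ G.edgeSet, 0 < ℓ e) {H : Set V} {s : V} {π : V → ℝ}
    (h : Pot G ℓ H s π) {u v : V} (p : G.Walk u v) (hp : In p H) (hd : wl ℓ p + π v ≤ π u)
    {z : V} (hz : z ∈ p.support) : π v ≤ π z ∧ π z ≤ π u ∧ Desc G ℓ H π u z := by
  obtain ⟨p₁, p₂, he, h₁, h₂⟩ := split (ℓ := ℓ) p hz
  have i₁ : In p₁ H := fun w hw => hp w (h₁ w hw)
  have i₂ : In p₂ H := fun w hw => hp w (h₂ w hw)
  have a₁ := h.lip u z p₁ i₁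
  have a₂ := h.lip z v p₂ i₂
  have n₁ := wl_nonneg hℓ p₁
  have n₂ := wl_nonneg hℓ p₂
  exact ⟨by linarith, by linarith, p₁, i₁, by linarith⟩

theorem Pot.dn_walk (hℓ : ∀ e ∈ G.edgeSet, 0 < ℓ e) {H : Set V} {s : V} {π : V → ℝ}
    (h : Pot G ℓ H s π) {u v : V} {a : ℝ} (hv : v ∈ Dn G ℓ H π u a) :
    ∃ p : G.Walk u v, In p (Dn G ℓ H π u a) ∧ In p H ∧ wl ℓ p + π v ≤ π u ∧
      ∀ z ∈ p.support, π v ≤ π z ∧ π z ≤ π u := by
  obtain ⟨ha, p, hp, hd⟩ := hv
  refine ⟨p, fun z hz => ?_, hp, hd, fun z hz => ?_⟩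
  · obtain ⟨h1, -, h3⟩ := h.along hℓ p hp hd hz
    exact ⟨ha.trans h1, h3⟩
  · obtain ⟨h1, h2, -⟩ := h.along hℓ p hp hd hz
    exact ⟨h1, h2⟩

theorem self_mem_dn {H : Set V} {π : V → ℝ} {u : V} {a : ℝ} (hu : u ∈ H) (ha : a ≤ π u) :
    u ∈ Dn G ℓ H π u a := ⟨ha, Walk.nil, In.nil hu, by simp⟩

theorem dn_subset {H : Set V} {π : V → ℝ} {u : V} {a : ℝ} : Dn G ℓ H π u a ⊆ H :=
  fun _ ⟨_, _, hp, _⟩ => hp.stop

/-- a descent crosses every level -/
theorem Pot.cross {H : Set V} {s : V} {π : V → ℝ} (h : Pot G ℓ H s π) {a : ℝ} (ha : 0 < a)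
    {u : V} (hu : u ∈ H) (hau : a ≤ π u) :
    ∃ v w, G.Adj v w ∧ v ∈ Dn G ℓ H π u a ∧ w ∈ H ∧ π w < a ∧ a ≤ π w + ℓ s(v, w) ∧
      Desc G ℓ H π u w := by
  have key : ∀ {u s' : V} (q : G.Walk u s'), π s' ≤ 0 → In q H → wl ℓ q + π s' ≤ π u →
      a ≤ π u → ∃ v w, ∃ _ : G.Adj v w, a ≤ π v ∧ w ∈ H ∧ π w < a ∧
        ∃ p : G.Walk u v, In p H ∧ wl ℓ p + ℓ s(v, w) + π w ≤ π u := by
    intro u s' q
    induction q with
    | nil => intro e3 _ _ h1; linarith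
    | @cons u u' s' huu q ih =>
      intro e3 hq hl h1
      rw [wl_cons] at hl
      have e1 := h.edge hq.start hq.tail.start huu
      have e2 := h.lip _ _ q hq.tail
      by_cases h2 : a ≤ π u'
      · obtain ⟨v, w, hvw, b1, b2, b3, p, hp, b4⟩ := ih e3 hq.tail (by linarith) h2
        exact ⟨v, w, hvw, b1, b2, b3, Walk.cons huu p, In.cons huu hq.start hp, by
          rw [wl_cons]; linarith⟩
      · exact ⟨u, u', huu, h1, hq.tail.start, lt_of_not_ge h2, Walk.nil, In.nil hq.start, by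
          rw [wl_nil]; linarith⟩
  obtain ⟨q, hq, hl⟩ := h.geo u hu
  obtain ⟨v, w, hvw, b1, b2, b3, p, hp, b4⟩ :=
    key q h.zero hq (by linarith [h.zero]) hau
  have e := h.edge hp.stop b2 hvw
  refine ⟨v, w, hvw, ⟨b1, p, hp, by linarith⟩, b2, b3, by linarith,
    p.append (Walk.cons hvw Walk.nil), hp.append (In.cons hvw hp.stop (In.nil b2)), ?_⟩
  rw [wl_append, wl_cons, wl_nil]; linarith

/-- a set with walks to a centre is connected -/
theorem cn_of_center {S : Set V} {c : V} (hc : c ∈ S)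
    (h : ∀ v ∈ S, ∃ p : G.Walk c v, In p S) : Cn G S := by
  refine ⟨⟨c, hc⟩, fun x hx y hy => ?_⟩
  obtain ⟨p, hp⟩ := h x hx
  obtain ⟨q, hq⟩ := h y hy
  exact ⟨p.reverse.append q, hp.reverse.append hq⟩

/-- the part of `H` below a positive level is connected -/
theorem Pot.hub (hℓ : ∀ e ∈ G.edgeSet, 0 < ℓ e) {H : Set V} {s : V} {π : V → ℝ}
    (h : Pot G ℓ H s π) (hs : s ∈ H) {a : ℝ} (ha : 0 < a) : Cn G {v | v ∈ H ∧ π v < a} := by
  refine cn_of_center (c := s) ⟨hs, by linarith [h.zero]⟩ fun v hv => ?_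
  obtain ⟨p, hp, hl⟩ := h.geo v hv.1
  refine ⟨p.reverse, In.reverse fun z hz => ⟨hp z hz, ?_⟩⟩
  have := (h.along hℓ p hp (by linarith [h.zero]) hz).2.1
  exact this.trans_lt hv.2

end Crest.Agent.N206.PL.KP
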