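import Crest.Agent.N206.Dual.Opt

/-! # Row 206, S0317: Lemma B (helper6) -/

set_option autoImplicit false

open Finset SimpleGraph
open Crest.GeometryTopology.GraphMetric Crest.Agent.R206.Iface534 Crest.Agent.N206.Dual

namespace Crest.Agent.N206.PL

theorem lemB' : LemBStmt := by
  intro V _ G ℓ δ hG z T L e hT he hL ι _ en p m hm hen hp
  classical
  have : Nonempty (Σ τ : T, G.Path z τ) := by
    obtain ⟨τ, hτ⟩ := hT
    obtain ⟨q⟩ := hG.conn.preconnected z τ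
    exact ⟨⟨⟨τ, hτ⟩, q.toPath⟩⟩
  have h0 := ext0_nonneg hG.pos
  obtain ⟨x, μ, θ, x1, x2, h1, h2, -, h3, h4, h5, h6, h7⟩ := exists_opt (P := Unit)
    (Γ := fun _ => Σ τ : T, G.Path z τ) (fun _ g => cnt g.2.1) (fun _ => ∑ i, m i)
    (fun _ => sum_nonneg fun i _ => hm i) (fun ed => ∑ i, m i * cnt (p i) ed) (ext0 G ℓ)
    (fun ed => 2 * ext0 G ℓ ed) fun ed => by linarith [h0 ed]
  simp only [dot_cnt, Fintype.sum_unique] at h1 h2 h5 h6 h7
  have hx : ∀ ed ∈ G.edgeSet, ℓ ed ≤ x ed ∧ x ed ≤ 2 * ℓ ed := fun ed hed => by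
    rw [← ext0_eq ℓ ed hed]; exact ⟨x1 ed, x2 ed⟩
  have hxp : ∀ ed ∈ G.edgeSet, 0 < x ed := fun ed hed => (hG.pos ed hed).trans_le (hx ed hed).1
  have hw : ∀ τ ∈ T, ∀ q : G.Walk z τ, μ () ≤ wl x q := fun τ hτ q =>
    (h1 () ⟨⟨τ, hτ⟩, q.toPath⟩).trans (wl_toPath_le (fun ed hed => (hxp ed hed).le) q)
  have hlam : ∀ τ ∈ T, μ () ≤ wdist G x z τ := fun τ hτ => le_wdist hG.conn (hw τ hτ)
  refine ⟨x, μ (), hx, hlam, ?_, ?_⟩
  · obtain ⟨g, hg⟩ := h2 ()
    exact ⟨g.1, g.1.2, le_antisymm ((wdist_le_walk hxp g.2.1).trans_eq hg) (hlam _ g.1.2)⟩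
  set f : Sym2 V → ℝ := fun ed => ∑ i, m i * cnt (p i) ed with hf
  set f₁ : Sym2 V → ℝ := fun ed => ∑ g : Σ τ : T, G.Path z τ, θ () g * cnt g.2.1 ed with hf₁
  have hdot : ∀ y : Sym2 V → ℝ, y ⬝ᵥ f = ∑ i, m i * wl y (p i) := fun y => by
    simp only [hf, ← dot_cnt, dotProduct, mul_sum]
    rw [sum_comm]
    simp only [mul_left_comm]
  have hdot₁ : ∀ y : Sym2 V → ℝ, y ⬝ᵥ f₁ = ∑ g : Σ τ : T, G.Path z τ, θ () g * wl y g.2.1 :=
    fun y => by
      simp only [hf₁, ← dot_cnt, dotProduct, mul_sum]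
      rw [sum_comm]
      simp only [mul_left_comm]
  have e1 : x ⬝ᵥ f₁ ≤ x ⬝ᵥ f := by
    rw [hdot, hdot₁]
    calc _ = ∑ g : Σ τ : T, G.Path z τ, θ () g * μ () := sum_congr rfl fun g _ => by
          by_cases h : θ () g = 0
          · simp [h]
          · rw [h5 () g h]
      _ = ∑ i, m i * μ () := by rw [← sum_mul, h4, sum_mul]
      _ ≤ _ := sum_le_sum fun i _ => mul_le_mul_of_nonneg_left (hw _ (hen i) (p i)) (hm i)
  have e2 : ext0 G ℓ ⬝ᵥ f ≤ (∑ i, m i) * (L + e) := by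
    rw [hdot, sum_mul]
    exact sum_le_sum fun i _ => mul_le_mul_of_nonneg_left
      ((wl_congr (ext0_eq ℓ) _).trans_le (hp i)) (hm i)
  have e3 : (∑ i, m i) * L ≤ ext0 G ℓ ⬝ᵥ f₁ := by
    rw [hdot₁, ← h4 (), sum_mul]
    exact sum_le_sum fun g _ => mul_le_mul_of_nonneg_left (((hL _ g.1.2).trans
      (wdist_le_walk hG.pos g.2.1)).trans_eq (wl_congr (ext0_eq ℓ) _).symm) (h3 () g)
  have hf0 : ∀ ed, 0 ≤ f ed := fun ed => sum_nonneg fun i _ => mul_nonneg (hm i) (cnt_nonneg _ _)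
  have key : ∀ ed, (if ∀ v ∈ ed, ∃ τ ∈ T, wdist G x z v + wdist G x v τ ≤ μ () then 0
      else ext0 G ℓ ed) * f ed ≤ (x ed - 2 * ext0 G ℓ ed) * (f₁ ed - f ed) := by
    intro ed
    split_ifs with h
    · rw [zero_mul]
      rcases (x2 ed).eq_or_lt with h' | h'
      · rw [h', sub_self, zero_mul]
      · exact mul_nonneg_of_nonpos_of_nonpos (by linarith) (by linarith [h6 ed h'])
    · have : f₁ ed = 0 := by
        by_contra hne
        obtain ⟨g, -, hg⟩ := exists_ne_zero_of_sum_ne_zero hne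
        refine h fun v hv => ⟨g.1, g.1.2, ?_⟩
        have hv' : v ∈ g.2.1.support := by
          have := mem_of_cnt (right_ne_zero_of_mul hg)
          induction ed using Sym2.ind with
          | h a b =>
            rcases Sym2.mem_iff.1 hv with rfl | rfl
            exacts [g.2.1.fst_mem_support_of_mem_edges this, g.2.1.snd_mem_support_of_mem_edges this]
        rw [← h5 () g (left_ne_zero_of_mul hg), ← wl_split x g.2.1 hv']
        exact add_le_add (wdist_le_walk hxp _) (wdist_le_walk hxp _)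
      rcases (x1 ed).eq_or_lt with h' | h'
      · rw [this, ← h']; exact le_of_eq (by ring)
      · rw [this, show f ed = 0 from le_antisymm ((h7 ed h').trans_eq this) (hf0 ed)]; simp
  have e4 := sum_le_sum fun ed (_ : ed ∈ univ) => key ed
  have e5 : ∑ ed, (x ed - 2 * ext0 G ℓ ed) * (f₁ ed - f ed) =
      x ⬝ᵥ f₁ - x ⬝ᵥ f - 2 * (ext0 G ℓ ⬝ᵥ f₁) + 2 * (ext0 G ℓ ⬝ᵥ f) := by
    simp only [dotProduct, mul_sum, ← sum_sub_distrib, ← sum_add_distrib]
    exact sum_congr rfl fun ed _ => by ring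
  refine le_of_eq_of_le ?_ (e4.trans (by rw [e5]; linarith))
  refine Eq.trans ?_ (hdot _).symm
  refine sum_congr rfl fun i _ => congrArg _ (wl_congr (fun ed hed => ?_) _)
  rw [ext0_eq ℓ ed hed]

theorem lemB : KKTStmt → LemBStmt := fun _ => lemB'

end Crest.Agent.N206.PL
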