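import Crest.Agent.N206.PL.Basic2

/-!
# Row 206, S0317: one level of the scheme (helper55)
-/

set_option autoImplicit false

noncomputable section

open scoped Classical

namespace Crest.Agent.N206.PL

open Crest.GeometryTopology.GraphMetric Crest.Agent.R206.Iface534 SimpleGraph

section vol

variable {V ι : Type} [Fintype ι] {G : SimpleGraph V} {ℓ : Sym2 V → ℝ} {δ : ℝ}

theorem vol_nonneg (h : WG G ℓ δ) (Q : ι → Geo G ℓ) {f : ι → ℝ} (hf : ∀ q, 0 ≤ f q)
    (A : ι → ℕ → Prop) : 0 ≤ vol Q f A :=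
  Finset.sum_nonneg fun q _ => mul_nonneg (hf q) (Finset.sum_nonneg fun i hi => by
    split_ifs
    · exact ((Q q).el_pos h (Finset.mem_range.1 hi)).le
    · exact le_rfl)

theorem vol_mono (h : WG G ℓ δ) (Q : ι → Geo G ℓ) {f : ι → ℝ} (hf : ∀ q, 0 ≤ f q)
    {A B : ι → ℕ → Prop} (hAB : ∀ q i, i < (Q q).n → A q i → B q i) : vol Q f A ≤ vol Q f B :=
  Finset.sum_le_sum fun q _ => mul_le_mul_of_nonneg_left (Finset.sum_le_sum fun i hi => by
    have hi' := Finset.mem_range.1 hi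
    by_cases hA : A q i
    · simp [hA, hAB q i hi' hA]
    · simp only [hA, if_false]
      split_ifs
      · exact ((Q q).el_pos h hi').le
      · exact le_rfl) (hf q)

theorem sum_vol {J : Type} (Q : ι → Geo G ℓ) (f : ι → ℝ) (s : Finset J) (B : J → ι → ℕ → Prop) :
    ∑ k ∈ s, vol Q f (B k) = ∑ q, f q * ∑ i ∈ Finset.range (Q q).n,
      ((s.filter fun k => B k q i).card : ℝ) * (Q q).el i := by
  unfold vol
  rw [Finset.sum_comm]
  refine Finset.sum_congr rfl fun q _ => ?_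
  rw [← Finset.mul_sum, Finset.sum_comm]
  congr 1
  refine Finset.sum_congr rfl fun i _ => ?_
  rw [← Finset.sum_filter, Finset.sum_const, nsmul_eq_mul]

theorem vol_le_sum {J : Type} (h : WG G ℓ δ) (Q : ι → Geo G ℓ) {f : ι → ℝ} (hf : ∀ q, 0 ≤ f q)
    (s : Finset J) {A : ι → ℕ → Prop} {B : J → ι → ℕ → Prop}
    (hAB : ∀ q i, i < (Q q).n → A q i → ∃ k ∈ s, B k q i) :
    vol Q f A ≤ ∑ k ∈ s, vol Q f (B k) := by
  rw [sum_vol]
  refine Finset.sum_le_sum fun q _ => mul_le_mul_of_nonneg_left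
    (Finset.sum_le_sum fun i hi => ?_) (hf q)
  have hi' := Finset.mem_range.1 hi
  have h0 := ((Q q).el_pos h hi').le
  split_ifs with hA
  · obtain ⟨k, hk, hB⟩ := hAB q i hi' hA
    have : (1 : ℝ) ≤ (s.filter fun k => B k q i).card := by
      exact_mod_cast Finset.card_pos.2 ⟨k, Finset.mem_filter.2 ⟨hk, hB⟩⟩
    nlinarith
  · positivity

theorem sum_vol_le {J : Type} (h : WG G ℓ δ) (Q : ι → Geo G ℓ) {f : ι → ℝ} (hf : ∀ q, 0 ≤ f q)
    (s : Finset J) {A : ι → ℕ → Prop} {B : J → ι → ℕ → Prop} (m : ℕ)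
    (hAB : ∀ k ∈ s, ∀ q i, i < (Q q).n → B k q i → A q i)
    (hm : ∀ q i, i < (Q q).n → (s.filter fun k => B k q i).card ≤ m) :
    ∑ k ∈ s, vol Q f (B k) ≤ m * vol Q f A := by
  rw [sum_vol, vol, Finset.mul_sum]
  refine Finset.sum_le_sum fun q _ => ?_
  rw [mul_left_comm, Finset.mul_sum (a := (m : ℝ))]
  refine mul_le_mul_of_nonneg_left (Finset.sum_le_sum fun i hi => ?_) (hf q)
  have hi' := Finset.mem_range.1 hi
  have h0 := ((Q q).el_pos h hi').le
  split_ifs with hA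
  · exact mul_le_mul_of_nonneg_right (by exact_mod_cast hm q i hi') h0
  · have : (s.filter fun k => B k q i) = ∅ :=
      Finset.filter_eq_empty_iff.2 fun k hk hB => hA (hAB k hk q i hi' hB)
    simp [this]

end vol

theorem sum_sub_eq {κ : Type} [Fintype κ] (P : κ → Prop) [DecidablePred P] (g : κ → ℝ) :
    ∑ i : {i // P i}, g i.1 = ∑ i, if P i then g i else 0 := by
  rw [← Finset.sum_filter]
  exact (Finset.sum_subtype (Finset.univ.filter P) (by simp) g).symm

/-- gains of families that cover all the pairs -/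
theorem cover_gain {κ J : Type} [Fintype κ] (s : Finset J) (P : J → κ → Prop) (ω d : κ → ℝ)
    (g : J → κ → ℝ) (c : ℝ) (hc : 0 ≤ c) (hω : ∀ i, 0 ≤ ω i) (hd : ∀ i, 0 ≤ d i)
    (hcov : ∀ i, ∃ j ∈ s, P j i)
    (hg : ∀ j ∈ s, c * ∑ i, (if P j i then ω i * d i else 0) ≤
      ∑ i, if P j i then ω i * g j i else 0) :
    c * ∑ i, ω i * d i ≤ ∑ i, ω i * ∑ j ∈ s, if P j i then g j i else 0 := by
  have h1 : ∑ i, ω i * d i ≤ ∑ j ∈ s, ∑ i, if P j i then ω i * d i else 0 := by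
    rw [Finset.sum_comm]
    refine Finset.sum_le_sum fun i _ => ?_
    obtain ⟨j, hj, hP⟩ := hcov i
    have := Finset.single_le_sum (f := fun j => if P j i then ω i * d i else 0)
      (fun j _ => by have := mul_nonneg (hω i) (hd i); split_ifs <;> simp [this]) hj
    simpa [hP] using this
  calc c * ∑ i, ω i * d i ≤ ∑ j ∈ s, c * ∑ i, if P j i then ω i * d i else 0 := by
        rw [← Finset.mul_sum]; exact mul_le_mul_of_nonneg_left h1 hc
    _ ≤ ∑ j ∈ s, ∑ i, if P j i then ω i * g j i else 0 := Finset.sum_le_sum hg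
    _ = _ := by
        rw [Finset.sum_comm]
        refine Finset.sum_congr rfl fun i _ => ?_
        rw [Finset.mul_sum]
        exact Finset.sum_congr rfl fun j _ => by split_ifs <;> simp

theorem exists_class {s T : ℝ} (hs : 0 < s) (hT : s ≤ T) :
    ∃ k : ℕ, s * 2 ^ k ≤ T ∧ T < 2 * (s * 2 ^ k) := by
  obtain ⟨k, h1, h2⟩ := exists_nat_pow_near (x := T / s) (y := 2)
    (by rwa [le_div_iff₀ hs, one_mul]) one_lt_two
  rw [le_div_iff₀ hs] at h1
  rw [div_lt_iff₀ hs, pow_succ] at h2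
  exact ⟨k, by linarith, by linarith⟩

theorem card_class {s T : ℝ} (hs : 0 < s) (S : Finset ℕ)
    (h : ∀ k ∈ S, 3 / 4 * (s * 2 ^ k) ≤ T ∧ T ≤ 9 / 4 * (s * 2 ^ k)) : S.card ≤ 2 := by
  rcases S.eq_empty_or_nonempty with rfl | hne
  · simp
  have hsub : S ⊆ Finset.Ico (S.min' hne) (S.min' hne + 2) := by
    intro k hk
    refine Finset.mem_Ico.2 ⟨S.min'_le k hk, ?_⟩
    have h1 := (h k hk).1
    have h2 := (h _ (S.min'_mem hne)).2
    have h3 : (0 : ℝ) < 2 ^ S.min' hne := by positivity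
    have h4 : (2 : ℝ) ^ k < 2 ^ (S.min' hne + 2) := by
      rw [pow_add]
      by_contra h5
      push Not at h5
      nlinarith [mul_le_mul_of_nonneg_left h5 hs.le, mul_pos hs h3]
    exact (pow_lt_pow_iff_right₀ one_lt_two).1 h4
  simpa using Finset.card_le_card hsub

theorem level (hN : NoiseStmt) (hP : ProtectStmt) (hS : ServeStmt) : LevelStmt := by
  obtain ⟨cN, εN, hcN, hεN, hN⟩ := hN
  obtain ⟨Λ, C, hΛ, hC, hS⟩ := hS
  obtain ⟨XP, εP, M, hXP, hεP, hP⟩ := hP Λ (1 / 8) hΛ (by norm_num)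
  set B : ℝ := 16 * (XP + 1) * C with hB
  have hB32 : 32 ≤ B := by nlinarith
  obtain ⟨KS, cS, εS, hKS, hcS, hεS, hS⟩ := hS B (by linarith)
  have hB0 : 0 < B := by linarith
  refine ⟨B, 4 * C * XP, 2 + M * KS, min (cN / (2 * B)) cS,
    min (min (1 / 2) (εN / (2 * B))) (min εP εS), by linarith, by nlinarith, by positivity,
    by positivity, by positivity, ?_⟩
  intro V _ G ℓ δ h hMF s0 hs0 hδ t ht0 htl ι _ Q f hf
  have hδ1 : δ ≤ 1 / 2 * s0 := hδ.trans (mul_le_mul_of_nonneg_right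
    ((min_le_left _ _).trans (min_le_left _ _)) hs0.le)
  have hδ2 : δ ≤ εN / (2 * B) * s0 := hδ.trans (mul_le_mul_of_nonneg_right
    ((min_le_left _ _).trans (min_le_right _ _)) hs0.le)
  have hδ3 : δ ≤ εP * s0 := hδ.trans (mul_le_mul_of_nonneg_right
    ((min_le_right _ _).trans (min_le_left _ _)) hs0.le)
  have hδ4 : δ ≤ εS * s0 := hδ.trans (mul_le_mul_of_nonneg_right
    ((min_le_right _ _).trans (min_le_right _ _)) hs0.le)
  obtain ⟨τ, hτ⟩ : ∃ τ : ℕ → ℝ, ∀ k, τ k = s0 / 2 * 2 ^ k := ⟨_, fun _ => rfl⟩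
  have hτ0 : ∀ k, s0 / 2 ≤ τ k := fun k => by
    rw [hτ]; exact le_mul_of_one_le_right (by linarith) (one_le_pow₀ one_le_two)
  have hτp : ∀ k, 0 < τ k := fun k => by linarith [hτ0 k]
  obtain ⟨N, hNt⟩ : ∃ N : ℕ, ∀ x, t x < τ N := by
    obtain ⟨N, hN⟩ := pow_unbounded_of_one_lt ((∑ x, t x) / (s0 / 2)) (one_lt_two (α := ℝ))
    rw [div_lt_iff₀ (by linarith)] at hN
    refine ⟨N, fun x => ?_⟩
    have := Finset.single_le_sum (f := t) (fun x _ => ht0 x) (Finset.mem_univ x)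
    rw [hτ]; linarith
  have hcl : ∀ x, s0 / 2 ≤ t x → ∃ k ∈ Finset.range N, τ k ≤ t x ∧ t x < 2 * τ k := by
    intro x hx
    obtain ⟨k, h1, h2⟩ := exists_class (by linarith : 0 < s0 / 2) hx
    refine ⟨k, Finset.mem_range.2 ?_, by rw [hτ]; exact h1, by rw [hτ]; exact h2⟩
    have h3 := (h1.trans_lt (hNt x))
    rw [hτ] at h3
    exact (pow_lt_pow_iff_right₀ one_lt_two).1 (lt_of_mul_lt_mul_left h3 (by linarith))
  -- closeness in the metric controls `t`
  have hclose : ∀ k x y, wdist G ℓ x y ≤ (XP + 1) * (4 * C * τ k) → |t x - t y| ≤ τ k / 4 := by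
    intro k x y hxy
    have h1 := (htl x y).trans hxy
    have h2 : B * |t x - t y| ≤ B * (τ k / 4) := by rw [hB]; linarith
    exact le_of_mul_le_mul_left h2 hB0
  let act : ℕ → ι → ℕ → Prop := fun k q i => i < (Q q).n ∧ τ k ≤ t ((Q q).v i) ∧
    t ((Q q).v i) < 2 * τ k ∧
    ¬ Sep G (bl G ℓ ((Q q).v i) (4 * C * XP * t ((Q q).v i))) ((Q q).v 0) ((Q q).v (Q q).n)
  have hR : ∀ k, 2 * s0 ≤ 4 * C * τ k := fun k => by nlinarith [hτ0 k]
  have hPk := fun k => hP V G ℓ δ h hMF (4 * C * τ k) (by linarith [hR k])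
    (hδ3.trans (mul_le_mul_of_nonneg_left (by linarith [hR k]) hεP.le)) ι Q f (act k) hf
    fun q i hi => ⟨hi.1, fun hs => hi.2.2.2 (hs.mono fun v hv => by
      have h1 : XP * (4 * C * τ k) ≤ 4 * C * XP * t ((Q q).v i) := by
        have := mul_le_mul_of_nonneg_left hi.2.1 (show 0 ≤ 4 * C * XP by positivity)
        linarith
      exact le_trans hv h1)⟩
  choose 𝒯 inst ℓ' z T lam S hT hM hnear hvol using hPk
  -- the values of `t` near a protected set
  have hSt : ∀ k θ, ∀ x ∈ S k θ, ∀ y, wdist G ℓ x y ≤ 4 * C * τ k →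
      3 / 4 * τ k ≤ t y ∧ t y ≤ 9 / 4 * τ k := by
    intro k θ x hx y hy
    obtain ⟨q, i, hi, hd⟩ := hnear k θ x hx
    have h1 := abs_le.1 (hclose k ((Q q).v i) y (by linarith [h.tri ((Q q).v i) x y]))
    constructor <;> linarith [hi.2.1, hi.2.2.1, h1.1, h1.2]
  refine ⟨{x | ∃ k < N, ∃ θ, x ∈ S k θ}, ?_, ?_⟩
  · have h1 := vol_le_sum h Q hf (Finset.range N)
      (A := fun q i => s0 / 2 ≤ t ((Q q).v i) ∧ (Q q).v i ∉ {x | ∃ k < N, ∃ θ, x ∈ S k θ} ∧
        ¬ Sep G (bl G ℓ ((Q q).v i) (4 * C * XP * t ((Q q).v i))) ((Q q).v 0) ((Q q).v (Q q).n))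
      (B := fun k q i => act k q i ∧ ∀ θ, (Q q).v i ∉ S k θ) fun q i hi hA => by
        obtain ⟨k, hk, h1, h2⟩ := hcl _ hA.1
        exact ⟨k, hk, ⟨hi, h1, h2, hA.2.2⟩, fun θ hθ => hA.2.1 ⟨k, Finset.mem_range.1 hk, θ, hθ⟩⟩
    have h3 : ∀ k q i, i < (Q q).n →
        (∃ i', act k q i' ∧ |(Q q).pos i - (Q q).pos i'| ≤ XP * (4 * C * τ k)) →
        3 / 4 * τ k ≤ t ((Q q).v i) ∧ t ((Q q).v i) ≤ 9 / 4 * τ k := by
      rintro k q i hi ⟨i', hi', hd⟩
      rw [← (Q q).d_abs h hi.le hi'.1.le] at hd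
      have h1 := abs_le.1 (hclose k _ _ (hd.trans (by nlinarith [hR k])))
      constructor <;> linarith [hi'.2.1, hi'.2.2.1, h1.1, h1.2]
    have h2 := sum_vol_le h Q hf (Finset.range N) (A := fun q i => s0 / 8 ≤ t ((Q q).v i))
      (B := fun k q i => ∃ i', act k q i' ∧ |(Q q).pos i - (Q q).pos i'| ≤ XP * (4 * C * τ k)) 2
      (fun k _ q i hi hB => by linarith [(h3 k q i hi hB).1, hτ0 k])
      fun q i hi => card_class (T := t ((Q q).v i)) (by linarith : 0 < s0 / 2) _ fun k hk => by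
        rw [← hτ]; exact h3 k q i hi (Finset.mem_filter.1 hk).2
    have h4 := Finset.sum_le_sum fun k (_ : k ∈ Finset.range N) => hvol k
    rw [← Finset.mul_sum] at h4
    push_cast at h2
    linarith
  intro κ _ a b ω hω hab
  -- noise
  let PN : ℕ → κ → Prop := fun k i =>
    t (a i) < B * wdist G ℓ (a i) (b i) ∧ τ k ≤ t (a i) ∧ t (a i) < 2 * τ k
  let χ : ℕ → V → ℝ := fun k x => max 0 (min (B * t x - B * (3 / 4 * τ k)) (B * (3 * τ k) - B * t x))
  have hNk := fun k => hN V G ℓ δ h hMF (τ k / B) (div_pos (hτp k) hB0)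
    (hδ2.trans (by
      rw [div_mul_eq_mul_div, mul_div_assoc', div_le_div_iff₀ (by linarith) hB0]
      nlinarith [mul_le_mul_of_nonneg_left (hτ0 k) (mul_pos hεN hB0).le]))
    (χ k) (fun v => le_max_left _ _)
    (fun x y hxy => by
      have h1 := (htl x y).trans (h.edge hxy)
      rw [← abs_of_pos hB0, ← abs_mul, mul_sub] at h1
      refine (abs_max_sub_max_le_max _ _ _ _).trans (max_le (by simpa using h.nn _ hxy) ?_)
      refine (abs_min_sub_min_le_max _ _ _ _).trans (max_le ?_ ?_)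
      · exact le_of_eq_of_le (by congr 1; ring) h1
      · exact le_of_eq_of_le (by rw [abs_sub_comm]; congr 1; ring) h1)
    {i // PN k i} (fun i => a i.1) (fun i => b i.1) (fun i => ω i.1) (fun i => hω i.1)
    fun i => by
      rw [div_le_iff₀ hB0]; linarith [i.2.1, i.2.2.1]
  choose ρN hN1 hN2 hN3 hN4 using hNk
  -- service
  let PS : ∀ k, 𝒯 k → κ → Prop := fun k θ i => B * wdist G ℓ (a i) (b i) ≤ t (a i) ∧
    ∃ x ∈ S k θ, wdist G ℓ (a i) x < B * wdist G ℓ (a i) (b i)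
  have hPS : ∀ k θ i, PS k θ i → t (a i) ≤ 4 * τ k := by
    rintro k θ i ⟨h1, x, hx, h2⟩
    have h3 := (hSt k θ x hx x (by rw [h.self]; linarith [hR k])).2
    have h4 := htl (a i) x
    have h5 := mul_le_mul_of_nonneg_left (le_abs_self (t (a i) - t x)) hB0.le
    nlinarith [ht0 (a i), hτp k]
  have hSk := fun k θ => hS V G ℓ δ h hMF (ℓ' k θ) (z k θ) (T k θ) (lam k θ) (4 * C * τ k) (S k θ)
    (by linarith [hR k]) (hT k θ) {i // PS k θ i} (fun i => a i.1) (fun i => b i.1)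
    (fun i => ω i.1) (fun i => hω i.1) fun i =>
      ⟨hδ4.trans (mul_le_mul_of_nonneg_left (hab i.1).1 hεS.le), by
        have := mul_le_mul_of_nonneg_left (i.2.1.trans (hPS k θ i.1 i.2)) (by linarith : 0 ≤ C)
        linarith, let ⟨x, hx, hd⟩ := i.2.2; ⟨x, hx, hd.le⟩⟩
  choose ρS hS1 hS2 hS3 hS4 using hSk
  have hSsupp : ∀ k θ x y, G.Adj x y → ρS k θ x y ≠ 0 →
      ∃ v ∈ S k θ, wdist G ℓ x v ≤ 4 * C * τ k / 2 := by
    intro k θ x y hxy hne
    by_contra hcon
    push Not at hcon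
    refine hne (hS3 k θ x y (fun v hv => ?_) fun v hv => ?_)
    · rw [h.comm]; linarith [hcon v hv, hR k]
    · have := h.tri x y v
      rw [h.comm v y]
      linarith [hcon v hv, hR k, h.edge' hxy]
  refine ⟨N, fun k x y => ρN k x y + ∑ θ, ρS k θ x y,
    fun k => (hN1 k).add (IsCut.sum _ _ fun θ _ => hS1 k θ), fun k x y hxy => ?_,
    fun k x y hxy hne => ?_, ?_⟩
  · have h1 : ∑ θ, ρS k θ x y ≤ ∑ θ ∈ Finset.univ.filter
        (fun θ => ∃ v ∈ S k θ, wdist G ℓ x v ≤ 4 * C * τ k / 2), KS * ℓ s(x, y) := by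
      rw [Finset.sum_filter]
      refine Finset.sum_le_sum fun θ _ => ?_
      split_ifs with hθ
      · exact hS2 k θ x y hxy
      · exact le_of_eq (by_contra fun hne => hθ (hSsupp k θ x y hxy hne))
    rw [Finset.sum_const, nsmul_eq_mul] at h1
    have h2 : ((Finset.univ.filter
        (fun θ => ∃ v ∈ S k θ, wdist G ℓ x v ≤ 4 * C * τ k / 2)).card : ℝ) ≤ M := by
      exact_mod_cast hM k x
    have h3 := mul_le_mul_of_nonneg_right h2 (mul_pos hKS (h.adj_pos hxy)).le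
    linarith [hN2 k x y hxy]
  · have e1 : s0 / 4 * 2 ^ k = τ k / 2 := by rw [hτ]; ring
    have e2 : 2 * s0 * 2 ^ k = 4 * τ k := by rw [hτ]; ring
    rw [e1, e2]
    by_cases hn : ρN k x y = 0
    · obtain ⟨θ, -, hθ⟩ := Finset.exists_ne_zero_of_sum_ne_zero
        (show ∑ θ, ρS k θ x y ≠ 0 by simpa [hn] using hne)
      obtain ⟨v, hv, hd⟩ := hSsupp k θ x y hxy hθ
      have := hSt k θ v hv x (by rw [h.comm]; linarith [hR k])
      constructor <;> linarith [this.1, this.2, hτp k]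
    · have hχ : ∀ v, χ k v ≠ 0 → 3 / 4 * τ k ≤ t v ∧ t v ≤ 3 * τ k := by
        intro v hv
        have h1 : 0 < min (B * t v - B * (3 / 4 * τ k)) (B * (3 * τ k) - B * t v) := by
          by_contra h2
          exact hv (max_eq_left (not_lt.1 h2))
        rw [lt_min_iff, sub_pos, sub_pos] at h1
        exact ⟨(lt_of_mul_lt_mul_left h1.1 hB0.le).le, (lt_of_mul_lt_mul_left h1.2 hB0.le).le⟩
      have h1 := abs_le.1 (hclose k x y ((h.edge' hxy).trans (by nlinarith [hR k])))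
      by_cases hx : χ k x = 0
      · have := hχ y fun hy => hn (hN3 k x y hx hy)
        constructor <;> linarith [this.1, this.2, h1.1, h1.2, hτp k]
      · have := hχ x hx
        constructor <;> linarith [this.1, this.2, hτp k]
  · let PP : (Σ k, Option (𝒯 k)) → κ → Prop := fun j i => j.2.elim (PN j.1 i) fun θ => PS j.1 θ i
    let gg : (Σ k, Option (𝒯 k)) → κ → ℝ := fun j i =>
      j.2.elim (ρN j.1 (a i) (b i)) fun θ => ρS j.1 θ (a i) (b i)
    refine (cover_gain ((Finset.range N).sigma fun _ => Finset.univ) PP ω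
      (fun i => wdist G ℓ (a i) (b i)) gg _ (by positivity) hω (fun i => h.nonneg _ _)
      (fun i => ?_) ?_).trans (Finset.sum_le_sum fun i _ => mul_le_mul_of_nonneg_left ?_ (hω i))
    · by_cases h1 : t (a i) < B * wdist G ℓ (a i) (b i)
      · obtain ⟨k, hk, h2, h3⟩ := hcl (a i) (by linarith [(hab i).1, (hab i).2.1])
        exact ⟨⟨k, none⟩, by simpa using hk, h1, h2, h3⟩
      · obtain ⟨x, ⟨k, hk, θ, hx⟩, hd⟩ := (hab i).2.2.resolve_left h1
        exact ⟨⟨k, some θ⟩, by simpa using hk, not_lt.1 h1, x, hx, hd⟩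
    · rintro ⟨k, _ | θ⟩ -
      · have key : min (cN / (2 * B)) cS * ∑ i : {i // PN k i}, ω i.1 * wdist G ℓ (a i.1) (b i.1) ≤
            ∑ i : {i // PN k i}, ω i.1 * ρN k (a i.1) (b i.1) := ?_
        · rw [sum_sub_eq (PN k) fun i => ω i * wdist G ℓ (a i) (b i),
            sum_sub_eq (PN k) fun i => ω i * ρN k (a i) (b i)] at key
          convert key <;> rfl
        refine le_trans ?_ (hN4 k)
        rw [Finset.mul_sum, Finset.mul_sum]
        refine Finset.sum_le_sum fun i _ => ?_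
        have h1 : τ k / B ≤ χ k (a i.1) := by
          have h2 : τ k / B ≤ B * (τ k / 4) := by
            rw [div_le_iff₀ hB0]
            nlinarith [hτp k, mul_le_mul hB32 hB32 (by norm_num) hB0.le]
          refine le_max_of_le_right (le_min ?_ ?_)
          · nlinarith [mul_le_mul_of_nonneg_left i.2.2.1 hB0.le]
          · nlinarith [mul_le_mul_of_nonneg_left i.2.2.2.le hB0.le, mul_pos hB0 (hτp k)]
        rw [min_eq_left h1, mul_left_comm, mul_left_comm cN]
        refine mul_le_mul_of_nonneg_left ?_ (hω _)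
        have h3 : wdist G ℓ (a i.1) (b i.1) ≤ 2 * τ k := (hab i.1).2.1.trans i.2.2.2.le
        calc _ ≤ cN / (2 * B) * (2 * τ k) :=
              mul_le_mul (min_le_left _ _) h3 (h.nonneg _ _) (by positivity)
          _ = _ := by field_simp
      · have key : min (cN / (2 * B)) cS *
            ∑ i : {i // PS k θ i}, ω i.1 * wdist G ℓ (a i.1) (b i.1) ≤
            ∑ i : {i // PS k θ i}, ω i.1 * ρS k θ (a i.1) (b i.1) := ?_
        · rw [sum_sub_eq (PS k θ) fun i => ω i * wdist G ℓ (a i) (b i),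
            sum_sub_eq (PS k θ) fun i => ω i * ρS k θ (a i) (b i)] at key
          convert key <;> rfl
        refine le_trans ?_ (hS4 k θ)
        exact mul_le_mul_of_nonneg_right (min_le_right _ _)
          (Finset.sum_nonneg fun i _ => mul_nonneg (hω _) (h.nonneg _ _))
    · rw [Finset.sum_sigma]
      refine Finset.sum_le_sum fun k _ => ?_
      have e2 : 2 * s0 * 2 ^ k = 4 * τ k := by rw [hτ]; ring
      rw [Fintype.sum_option, e2]
      have n1 := (hN1 k).nonneg (a i) (b i)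
      have n2 := fun θ => (hS1 k θ).nonneg (a i) (b i)
      by_cases hd : wdist G ℓ (a i) (b i) ≤ 4 * τ k
      · rw [if_pos hd]
        refine add_le_add ?_ (Finset.sum_le_sum fun θ _ => ?_)
        · split_ifs
          · exact le_rfl
          · exact n1
        · split_ifs
          · exact le_rfl
          · exact n2 θ
      · rw [if_neg hd, if_neg, Finset.sum_eq_zero, add_zero]
        · intro θ _
          exact if_neg fun hP => hd ((hab i).2.1.trans (hPS k θ i hP))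
        · intro hP
          exact hd ((hab i).2.1.trans (by linarith [hP.2.2, hτp k]))

end Crest.Agent.N206.PL
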