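import Crest.Agent.N206.PL.Defs

/-!
# Row 206, S0317: the sign martingale `MartStmt` (helper64, task 128)
-/

set_option autoImplicit false

noncomputable section

open scoped Classical

namespace Crest.Agent.N206.PL

namespace Mart

/-! ### uniform expectation -/

section Ex

variable {Ω : Type} [Fintype Ω]

/-- uniform expectation -/
def Ex (g : Ω → ℝ) : ℝ := ∑ o, (Fintype.card Ω : ℝ)⁻¹ * g o

lemma Ex_add (g h : Ω → ℝ) : Ex (fun o => g o + h o) = Ex g + Ex h := by
  simp [Ex, mul_add, Finset.sum_add_distrib]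

lemma Ex_sub (g h : Ω → ℝ) : Ex (fun o => g o - h o) = Ex g - Ex h := by
  simp [Ex, mul_sub, Finset.sum_sub_distrib]

lemma Ex_cmul (c : ℝ) (g : Ω → ℝ) : Ex (fun o => c * g o) = c * Ex g := by
  simp only [Ex, Finset.mul_sum]
  exact Finset.sum_congr rfl fun o _ => by ring

lemma Ex_const [Nonempty Ω] (c : ℝ) : Ex (fun _ : Ω => c) = c := by
  have h : (Fintype.card Ω : ℝ) ≠ 0 := by exact_mod_cast Fintype.card_ne_zero
  simp only [Ex, Finset.sum_const, Finset.card_univ, nsmul_eq_mul]
  field_simp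

lemma Ex_mono {g h : Ω → ℝ} (hgh : ∀ o, g o ≤ h o) : Ex g ≤ Ex h :=
  Finset.sum_le_sum fun o _ => mul_le_mul_of_nonneg_left (hgh o) (by positivity)

lemma Ex_sum {ι : Type} (s : Finset ι) (g : ι → Ω → ℝ) :
    Ex (fun o => ∑ i ∈ s, g i o) = ∑ i ∈ s, Ex (g i) := by
  simp only [Ex, Finset.mul_sum]
  exact Finset.sum_comm

lemma abs_Ex_le (g : Ω → ℝ) : |Ex g| ≤ Ex fun o => |g o| := by
  refine (Finset.abs_sum_le_sum_abs _ _).trans (le_of_eq ?_)
  refine Finset.sum_congr rfl fun o _ => ?_
  rw [abs_mul, abs_of_nonneg (by positivity)]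

lemma Ex_odd (e : Ω → Ω) (he : Function.Involutive e) (g : Ω → ℝ) (hg : ∀ o, g (e o) = -g o) :
    Ex g = 0 := by
  have h1 : Ex g = Ex fun o => g (e o) := by
    unfold Ex
    exact (Equiv.sum_comp he.toPerm (fun o => (Fintype.card Ω : ℝ)⁻¹ * g o)).symm
  have h2 : (Ex fun o => g (e o)) = -1 * Ex g := by
    rw [← Ex_cmul]
    congr 1
    funext o
    rw [hg]; ring
  linarith

end Ex

/-! ### the slopes -/

variable {V κ : Type} [Fintype V]

/-- the cell of `x` at level `j` -/
def cl (q : ℕ → V → Option κ) (j : ℕ) (x : V) : Finset V :=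
  Finset.univ.filter fun y => q j y = q j x

lemma mem_cl {q : ℕ → V → Option κ} {j : ℕ} {x y : V} : y ∈ cl q j x ↔ q j y = q j x := by
  simp [cl]

lemma cl_eq_iff {q : ℕ → V → Option κ} {j : ℕ} {x y : V} :
    cl q j x = cl q j y ↔ q j x = q j y := by
  constructor
  · intro h
    have : x ∈ cl q j y := h ▸ mem_cl.2 rfl
    exact mem_cl.1 this
  · intro h
    ext z
    simp [mem_cl, h]

/-- edges inside `S` along which `u` changes -/
def ed (G : SimpleGraph V) (u : V → ℝ) (S : Finset V) : Finset (V × V) :=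
  Finset.univ.filter fun e => G.Adj e.1 e.2 ∧ u e.1 ≠ u e.2 ∧ e.1 ∈ S ∧ e.2 ∈ S

lemma mem_ed {G : SimpleGraph V} {u : V → ℝ} {S : Finset V} {e : V × V} :
    e ∈ ed G u S ↔ G.Adj e.1 e.2 ∧ u e.1 ≠ u e.2 ∧ e.1 ∈ S ∧ e.2 ∈ S := by
  simp [ed]

/-- the least slope in a cell -/
def AA (G : SimpleGraph V) (u : V → ℝ) (a : V → V → ℝ) (S : Finset V) : ℝ :=
  if h : (ed G u S).Nonempty then (ed G u S).inf' h (fun e => a e.1 e.2) else 1

lemma AA_le {G : SimpleGraph V} {u : V → ℝ} {a : V → V → ℝ} {S : Finset V} {e : V × V}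
    (he : e ∈ ed G u S) : AA G u a S ≤ a e.1 e.2 := by
  unfold AA
  rw [dif_pos ⟨e, he⟩]
  exact Finset.inf'_le (fun e : V × V => a e.1 e.2) he

lemma le_AA {G : SimpleGraph V} {u : V → ℝ} {a : V → V → ℝ} {S : Finset V} {b : ℝ}
    (hne : (ed G u S).Nonempty) (hb : ∀ e ∈ ed G u S, b ≤ a e.1 e.2) : b ≤ AA G u a S := by
  unfold AA
  rw [dif_pos hne]
  exact Finset.le_inf' _ _ hb

lemma AA_empty {G : SimpleGraph V} {u : V → ℝ} {a : V → V → ℝ} {S : Finset V}
    (hne : ¬ (ed G u S).Nonempty) : AA G u a S = 1 := by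
  unfold AA
  rw [dif_neg hne]

variable (G : SimpleGraph V) (u : V → ℝ) (kap : ℝ) (q : ℕ → V → Option κ) (F : ℕ → V → ℝ)

/-- the slopes of the edges after `j` levels -/
def aa (σ : ℕ → Finset V → ℝ) : ℕ → V → V → ℝ
  | 0 => fun _ _ => 1
  | j + 1 => fun x y => aa σ j x y + if Reg u kap (q j) (F j) x y then
      1 / (8 * kap) * (σ j (cl q j x) * AA G u (aa σ j) (cl q j x)) *
        ((F j x - F j y) / (u x - u y)) else 0

/-- amplitude of a cell -/
def A (σ : ℕ → Finset V → ℝ) (j : ℕ) (S : Finset V) : ℝ := AA G u (aa G u kap q F σ j) S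

/-- increment of the slope -/
def tt (σ : ℕ → Finset V → ℝ) (j : ℕ) (x y : V) : ℝ :=
  if Reg u kap (q j) (F j) x y then
    1 / (8 * kap) * (σ j (cl q j x) * A G u kap q F σ j (cl q j x)) *
      ((F j x - F j y) / (u x - u y)) else 0

lemma aa_succ (σ : ℕ → Finset V → ℝ) (j : ℕ) (x y : V) :
    aa G u kap q F σ (j + 1) x y = aa G u kap q F σ j x y + tt G u kap q F σ j x y := rfl

lemma aa_eq (σ : ℕ → Finset V → ℝ) (j : ℕ) (x y : V) :
    aa G u kap q F σ j x y = 1 + ∑ i ∈ Finset.range j, tt G u kap q F σ i x y := by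
  induction j with
  | zero => simp [aa]
  | succ j ih => rw [aa_succ, ih, Finset.sum_range_succ]; ring

lemma aa_congr {σ σ' : ℕ → Finset V → ℝ} {j : ℕ} (h : ∀ i < j, σ i = σ' i) :
    aa G u kap q F σ j = aa G u kap q F σ' j := by
  induction j with
  | zero => rfl
  | succ j ih =>
    have ih' := ih fun i hi => h i (by omega)
    funext x y
    simp only [aa]
    rw [ih', h j (by omega)]

variable {G u kap q F}

/-- the increment is at least `-A/8` -/
lemma tt_ge (hk : 1 ≤ kap) {σ : ℕ → Finset V → ℝ} (hσ : ∀ j S, |σ j S| ≤ 1) {j : ℕ} {x y : V}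
    (hA : 0 ≤ A G u kap q F σ j (cl q j x)) :
    -(1 / 8 * A G u kap q F σ j (cl q j x)) ≤ tt G u kap q F σ j x y := by
  unfold tt
  split_ifs with h
  · have hr : |(F j x - F j y) / (u x - u y)| ≤ kap := by
      rcases h with ⟨-, h⟩ | ⟨h1, h2⟩
      · rw [abs_div]
        exact div_le_of_le_mul₀ (abs_nonneg _) (by linarith) h
      · rw [h1, h2]; simp; linarith
    have h1 : |1 / (8 * kap) * (σ j (cl q j x) * A G u kap q F σ j (cl q j x)) *
        ((F j x - F j y) / (u x - u y))| ≤ 1 / 8 * A G u kap q F σ j (cl q j x) := by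
      rw [abs_mul, abs_mul, abs_mul, abs_of_nonneg hA, abs_of_nonneg (by positivity)]
      calc 1 / (8 * kap) * (|σ j (cl q j x)| * A G u kap q F σ j (cl q j x)) *
            |(F j x - F j y) / (u x - u y)|
          ≤ 1 / (8 * kap) * (1 * A G u kap q F σ j (cl q j x)) * kap := by
            gcongr
            exact hσ _ _
        _ = 1 / 8 * A G u kap q F σ j (cl q j x) := by field_simp
    exact neg_le_of_abs_le h1
  · linarith

lemma A_nonneg_of {σ : ℕ → Finset V → ℝ} {j : ℕ}
    (h : ∀ x y, G.Adj x y → u x ≠ u y → 0 ≤ aa G u kap q F σ j x y) (S : Finset V) :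
    0 ≤ A G u kap q F σ j S := by
  by_cases hne : (ed G u S).Nonempty
  · exact le_AA hne fun e he => h _ _ (mem_ed.1 he).1 (mem_ed.1 he).2.1
  · unfold A; rw [AA_empty hne]; norm_num

lemma aa_nonneg (hk : 1 ≤ kap) {σ : ℕ → Finset V → ℝ} (hσ : ∀ j S, |σ j S| ≤ 1) (j : ℕ) :
    ∀ x y, G.Adj x y → u x ≠ u y → 0 ≤ aa G u kap q F σ j x y := by
  induction j with
  | zero => intro x y _ _; simp [aa]
  | succ j ih =>
    intro x y hxy hu
    rw [aa_succ]
    have h0 := ih x y hxy hu
    by_cases hq : q j x = q j y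
    · have he : (x, y) ∈ ed G u (cl q j x) :=
        mem_ed.2 ⟨hxy, hu, mem_cl.2 rfl, mem_cl.2 hq.symm⟩
      have h1 : A G u kap q F σ j (cl q j x) ≤ aa G u kap q F σ j x y := AA_le he
      have h2 := tt_ge (y := y) hk hσ (A_nonneg_of ih (cl q j x))
      linarith
    · have : tt G u kap q F σ j x y = 0 := by
        unfold tt
        split_ifs with h
        · rcases h with ⟨h, -⟩ | ⟨h1, h2⟩
          · exact absurd h hq
          · rw [h1, h2]; simp
        · rfl
      linarith

lemma A_nonneg (hk : 1 ≤ kap) {σ : ℕ → Finset V → ℝ} (hσ : ∀ j S, |σ j S| ≤ 1) (j : ℕ)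
    (S : Finset V) : 0 ≤ A G u kap q F σ j S :=
  A_nonneg_of (aa_nonneg hk hσ j) S

/-! ### random signs -/

/-- the probability space -/
abbrev Om (V : Type) (n : ℕ) : Type := Fin n × Finset V → Bool

variable {n : ℕ}

/-- the signs -/
def sg (o : Om V n) (j : ℕ) (S : Finset V) : ℝ :=
  if h : j < n then (if o (⟨j, h⟩, S) then 1 else -1) else 1

omit [Fintype V] in
lemma abs_sg (o : Om V n) (j : ℕ) (S : Finset V) : |sg o j S| = 1 := by
  unfold sg
  split_ifs <;> simp

omit [Fintype V] in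
lemma sg_sq (o : Om V n) (j : ℕ) (S : Finset V) : sg o j S * sg o j S = 1 := by
  unfold sg
  split_ifs <;> simp

/-- flipping one sign -/
def fl (k : Fin n × Finset V) (o : Om V n) : Om V n := Function.update o k (!o k)

omit [Fintype V] in
lemma fl_inv (k : Fin n × Finset V) : Function.Involutive (fl k) := by
  intro o
  funext k'
  by_cases h : k' = k
  · subst h; simp [fl]
  · simp [fl, Function.update_of_ne h]

omit [Fintype V] in
lemma sg_fl_self {j : ℕ} (hj : j < n) (S : Finset V) (o : Om V n) :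
    sg (fl (⟨j, hj⟩, S) o) j S = -sg o j S := by
  unfold sg fl
  rw [dif_pos hj, dif_pos hj, Function.update_self]
  cases o (⟨j, hj⟩, S) <;> simp

omit [Fintype V] in
lemma sg_fl_ne {j : ℕ} (hj : j < n) (S : Finset V) (o : Om V n) {i : ℕ} {T : Finset V}
    (h : ¬ (i = j ∧ T = S)) : sg (fl (⟨j, hj⟩, S) o) i T = sg o i T := by
  unfold sg fl
  split_ifs with h1 h2 h3 h3
  · rfl
  · rw [Function.update_of_ne] at h2
    · exact absurd h2 h3
    · intro h4; apply h; simpa [Fin.ext_iff] using h4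
  · rw [Function.update_of_ne] at h2
    · exact absurd h3 h2
    · intro h4; apply h; simpa [Fin.ext_iff] using h4
  · rfl
  · rfl

lemma A_fl {j : ℕ} (hj : j < n) (S : Finset V) (o : Om V n) {i : ℕ} (hi : i ≤ j) (T : Finset V) :
    A G u kap q F (sg (fl (⟨j, hj⟩, S) o)) i T = A G u kap q F (sg o) i T := by
  unfold A
  rw [aa_congr G u kap q F (σ' := sg o)]
  intro i' hi'
  funext T'
  exact sg_fl_ne hj S o (by omega)

lemma Ex_sg {j : ℕ} (hj : j < n) (S : Finset V) : (Ex fun o : Om V n => sg o j S) = 0 :=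
  Ex_odd _ (fl_inv (⟨j, hj⟩, S)) _ fun o => sg_fl_self hj S o

lemma Ex_W {j : ℕ} (hj : j < n) (S : Finset V) :
    (Ex fun o : Om V n => sg o j S * A G u kap q F (sg o) j S) = 0 :=
  Ex_odd _ (fl_inv (⟨j, hj⟩, S)) _ fun o => by
    rw [sg_fl_self hj, A_fl hj S o le_rfl]; ring

lemma Ex_sgW {i j : ℕ} (hi : i < n) (hj : j < n) (S T : Finset V) :
    (Ex fun o : Om V n => sg o j S * (sg o i T * A G u kap q F (sg o) i T)) =
      if i = j ∧ T = S then Ex fun o : Om V n => A G u kap q F (sg o) j S else 0 := by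
  split_ifs with h
  · obtain ⟨rfl, rfl⟩ := h
    congr 1
    funext o
    rw [← mul_assoc, sg_sq, one_mul]
  · rcases le_total i j with hij | hij
    · refine Ex_odd _ (fl_inv (⟨j, hj⟩, S)) _ fun o => ?_
      rw [sg_fl_self hj, A_fl hj S o hij, sg_fl_ne hj S o h]; ring
    · refine Ex_odd _ (fl_inv (⟨i, hi⟩, T)) _ fun o => ?_
      rw [sg_fl_self hi, A_fl hi T o le_rfl, sg_fl_ne hi T o (fun h' => h ⟨h'.1.symm, h'.2.symm⟩)]
      ring

lemma Ex_tt {j : ℕ} (hj : j < n) (x y : V) :
    (Ex fun o : Om V n => tt G u kap q F (sg o) j x y) = 0 := by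
  unfold tt
  split_ifs with h
  · have : (fun o : Om V n => 1 / (8 * kap) * (sg o j (cl q j x) *
        A G u kap q F (sg o) j (cl q j x)) * ((F j x - F j y) / (u x - u y))) =
        fun o : Om V n => (1 / (8 * kap) * ((F j x - F j y) / (u x - u y))) *
          (sg o j (cl q j x) * A G u kap q F (sg o) j (cl q j x)) := by
      funext o; ring
    rw [this, Ex_cmul, Ex_W hj, mul_zero]
  · exact Ex_const 0

lemma Ex_aa {j : ℕ} (hj : j ≤ n) (x y : V) :
    (Ex fun o : Om V n => aa G u kap q F (sg o) j x y) = 1 := by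
  simp only [aa_eq]
  rw [Ex_add, Ex_const, Ex_sum, Finset.sum_eq_zero, add_zero]
  intro i hi
  exact Ex_tt (by have := Finset.mem_range.1 hi; omega) x y

lemma Ex_A_le {j : ℕ} (hj : j ≤ n) (S : Finset V) :
    (Ex fun o : Om V n => A G u kap q F (sg o) j S) ≤ 1 := by
  by_cases hne : (ed G u S).Nonempty
  · obtain ⟨e, he⟩ := hne
    rw [← Ex_aa (G := G) (u := u) (kap := kap) (q := q) (F := F) hj e.1 e.2]
    exact Ex_mono fun o => AA_le he
  · simp only [A, AA_empty hne]
    rw [Ex_const]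

/-- on a cell where `F i` is affine the increment does not depend on the edge -/
lemma tt_aff {i : ℕ} {S : Finset V} {S' : Set V} (hS : ∀ y ∈ S, y ∈ S')
    (h : Aff u kap (q i) (F i) S') : ∃ (α : ℝ) (T : Finset V), ∀ σ, ∀ e ∈ ed G u S,
      tt G u kap q F σ i e.1 e.2 = α * (σ i T * A G u kap q F σ i T) := by
  rcases h with ⟨c, α, β, hα, h⟩ | h
  · refine ⟨1 / (8 * kap) * α, Finset.univ.filter fun y => q i y = c, fun σ e he => ?_⟩
    obtain ⟨-, hu, h1, h2⟩ := mem_ed.1 he
    obtain ⟨a1, b1⟩ := h _ (hS _ h1)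
    obtain ⟨a2, b2⟩ := h _ (hS _ h2)
    have hd : F i e.1 - F i e.2 = α * (u e.1 - u e.2) := by rw [b1, b2]; ring
    have hR : Reg u kap (q i) (F i) e.1 e.2 := by
      refine Or.inl ⟨a1.trans a2.symm, ?_⟩
      rw [hd, abs_mul]
      exact mul_le_mul_of_nonneg_right hα (abs_nonneg _)
    have hc : cl q i e.1 = Finset.univ.filter fun y => q i y = c := by
      unfold cl; rw [a1]
    unfold tt
    rw [if_pos hR, hd, mul_div_assoc, div_self (sub_ne_zero.2 hu), hc]
    ring
  · refine ⟨0, ∅, fun σ e he => ?_⟩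
    obtain ⟨-, -, h1, h2⟩ := mem_ed.1 he
    unfold tt
    rw [h _ (hS _ h1), h _ (hS _ h2)]
    simp

lemma Ex_A_ge (hk : 1 ≤ kap) {ℓ : Sym2 V → ℝ} (H : MartHyp G ℓ u kap n q F) {j : ℕ} (hj : j < n)
    {x : V} (hx : q j x ≠ none) :
    3 / 4 ≤ Ex fun o : Om V n => A G u kap q F (sg o) j (cl q j x) := by
  obtain ⟨c, hc⟩ := Option.ne_none_iff_exists'.1 hx
  obtain ⟨js, c₁, c₂, h1, h2⟩ := H.cell j hj c
  have hS : ∀ y ∈ cl q j x, y ∈ {y | q j y = some c} := fun y hy => (mem_cl.1 hy).trans hc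
  by_cases hne : (ed G u (cl q j x)).Nonempty
  swap
  · simp only [A, AA_empty hne]
    rw [Ex_const]; norm_num
  have key : ∀ i, ∃ g : Om V n → ℝ, i < j →
      (∀ o, ∀ e ∈ ed G u (cl q j x), g o ≤ tt G u kap q F (sg o) i e.1 e.2) ∧
        (if i = js then -(1 / 4 : ℝ) else 0) ≤ Ex g := by
    intro i
    by_cases hi : i < j
    swap
    · exact ⟨0, fun h => absurd h hi⟩
    by_cases ha : Aff u kap (q i) (F i) {y | q j y = some c}
    · obtain ⟨α, T, hT⟩ := tt_aff (G := G) hS ha
      refine ⟨fun o => α * (sg o i T * A G u kap q F (sg o) i T), fun _ => ⟨fun o e he => ?_, ?_⟩⟩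
      · exact (hT _ e he).ge
      · rw [Ex_cmul, Ex_W (by omega), mul_zero]
        split_ifs <;> norm_num
    · have hijs : i = js := by
        by_contra h
        exact ha (h1 i hi h)
      subst hijs
      have h3 := h2.resolve_left ha
      refine ⟨fun o => -(1 / 8) * (A G u kap q F (sg o) i (Finset.univ.filter fun y => q i y = c₁) +
        A G u kap q F (sg o) i (Finset.univ.filter fun y => q i y = c₂)), fun _ =>
          ⟨fun o e he => ?_, ?_⟩⟩
      · have hs : ∀ j S, |sg o j S| ≤ 1 := fun j S => (abs_sg o j S).le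
        have t1 := tt_ge (G := G) (u := u) (q := q) (F := F) (j := i) (x := e.1) (y := e.2) hk hs
          (A_nonneg hk hs _ _)
        have n1 := A_nonneg (G := G) (u := u) (q := q) (F := F) hk hs i
          (Finset.univ.filter fun y => q i y = c₁)
        have n2 := A_nonneg (G := G) (u := u) (q := q) (F := F) hk hs i
          (Finset.univ.filter fun y => q i y = c₂)
        rcases h3 _ (hS _ (mem_ed.1 he).2.2.1) with h4 | h4
        · have hc : cl q i e.1 = Finset.univ.filter fun y => q i y = c₁ := by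
            unfold cl; rw [h4]
          rw [hc] at t1
          linarith
        · have hc : cl q i e.1 = Finset.univ.filter fun y => q i y = c₂ := by
            unfold cl; rw [h4]
          rw [hc] at t1
          linarith
      · rw [Ex_cmul, Ex_add, if_pos rfl]
        have e1 := Ex_A_le (G := G) (u := u) (kap := kap) (q := q) (F := F) (n := n) (j := i)
          (by omega) (Finset.univ.filter fun y => q i y = c₁)
        have e2 := Ex_A_le (G := G) (u := u) (kap := kap) (q := q) (F := F) (n := n) (j := i)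
          (by omega) (Finset.univ.filter fun y => q i y = c₂)
        linarith
  choose g hg using key
  have h4 : (Ex fun o => 1 + ∑ i ∈ Finset.range j, g i o) ≤
      Ex fun o : Om V n => A G u kap q F (sg o) j (cl q j x) := by
    refine Ex_mono fun o => le_AA hne fun e he => ?_
    rw [aa_eq]
    gcongr with i hi
    exact (hg i (Finset.mem_range.1 hi)).1 o e he
  rw [Ex_add, Ex_const, Ex_sum] at h4
  have h5 : ∑ i ∈ Finset.range j, (if i = js then -(1 / 4 : ℝ) else 0) ≤
      ∑ i ∈ Finset.range j, Ex (g i) :=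
    Finset.sum_le_sum fun i hi => (hg i (Finset.mem_range.1 hi)).2
  rw [Finset.sum_ite_eq'] at h5
  split_ifs at h5 <;> linarith

/-! ### the random function -/

variable (G u kap q F) in
/-- the perturbed height -/
def UU (o : Om V n) (x : V) : ℝ :=
  u x + ∑ j ∈ Finset.range n,
    1 / (8 * kap) * (sg o j (cl q j x) * A G u kap q F (sg o) j (cl q j x)) * F j x

lemma abs_W (hk : 1 ≤ kap) (o : Om V n) (j : ℕ) (S : Finset V) :
    |sg o j S * A G u kap q F (sg o) j S| = A G u kap q F (sg o) j S := by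
  rw [abs_mul, abs_sg, one_mul, abs_of_nonneg (A_nonneg hk (fun j S => (abs_sg o j S).le) _ _)]

lemma edge_bound (hk : 1 ≤ kap) {ℓ : Sym2 V → ℝ} (H : MartHyp G ℓ u kap n q F) {x y : V}
    (hxy : G.Adj x y) (hu : |u x - u y| ≤ ℓ s(x, y)) :
    (Ex fun o : Om V n => |UU G u kap q F o x - UU G u kap q F o y|) ≤ 2 * ℓ s(x, y) := by
  have hl : 0 ≤ ℓ s(x, y) := (abs_nonneg _).trans hu
  have hth : 0 < 1 / (8 * kap) := by positivity
  set N := (Finset.range n).filter fun j => ¬ Reg u kap (q j) (F j) x y with hN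
  have pt : ∀ o : Om V n, |UU G u kap q F o x - UU G u kap q F o y| ≤
      |u x - u y| * aa G u kap q F (sg o) n x y + ∑ j ∈ N, ℓ s(x, y) / 8 *
        (A G u kap q F (sg o) j (cl q j x) + A G u kap q F (sg o) j (cl q j y)) := by
    intro o
    have hs : ∀ j S, |sg o j S| ≤ 1 := fun j S => (abs_sg o j S).le
    set s : ℕ → ℝ := fun j =>
      1 / (8 * kap) * (sg o j (cl q j x) * A G u kap q F (sg o) j (cl q j x)) * F j x -
        1 / (8 * kap) * (sg o j (cl q j y) * A G u kap q F (sg o) j (cl q j y)) * F j y with hs_def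
    have e1 : UU G u kap q F o x - UU G u kap q F o y =
        (u x - u y) * aa G u kap q F (sg o) n x y + ∑ j ∈ N, s j := by
      have e2 : ∀ j ∈ Finset.range n, s j = (u x - u y) * tt G u kap q F (sg o) j x y +
          if ¬ Reg u kap (q j) (F j) x y then s j else 0 := by
        intro j _
        unfold tt
        by_cases h : Reg u kap (q j) (F j) x y
        · rw [if_pos h, if_neg (not_not.2 h), add_zero]
          simp only [hs_def]
          rcases h with ⟨h1, h2⟩ | ⟨h1, h2⟩
          · rw [← cl_eq_iff.2 h1]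
            by_cases hd : u x - u y = 0
            · have : F j x = F j y := by
                rw [hd, abs_zero, mul_zero] at h2
                exact sub_eq_zero.1 (abs_nonpos_iff.1 h2)
              rw [hd, this]; ring
            · field_simp
          · rw [h1, h2]; simp
        · rw [if_neg h, if_pos h]; ring
      rw [aa_eq, hN, Finset.sum_filter, mul_add, Finset.mul_sum, add_assoc,
        ← Finset.sum_add_distrib, ← Finset.sum_congr rfl e2]
      simp only [UU, hs_def, Finset.sum_sub_distrib]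
      ring
    rw [e1]
    refine (abs_add_le _ _).trans (add_le_add ?_ ?_)
    · by_cases hd : u x = u y
      · rw [hd]; simp
      · rw [abs_mul, abs_of_nonneg (aa_nonneg hk hs n x y hxy hd)]
    · refine (Finset.abs_sum_le_sum_abs _ _).trans (Finset.sum_le_sum fun j hj => ?_)
      have hjn : j < n := Finset.mem_range.1 (Finset.mem_filter.1 hj).1
      have n1 := A_nonneg (G := G) (u := u) (q := q) (F := F) hk hs j (cl q j x)
      have n2 := A_nonneg (G := G) (u := u) (q := q) (F := F) hk hs j (cl q j y)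
      have e3 : 1 / (8 * kap) * kap = 1 / 8 := by field_simp
      rcases H.lip j hjn x y hxy with ⟨h1, h2⟩ | ⟨h1, h2⟩
      · have e4 : s j = 1 / (8 * kap) * (sg o j (cl q j x) * A G u kap q F (sg o) j (cl q j x)) *
            (F j x - F j y) := by
          simp only [hs_def]
          rw [← cl_eq_iff.2 h1]; ring
        rw [e4, abs_mul, abs_mul, abs_W hk, abs_of_pos hth]
        calc 1 / (8 * kap) * A G u kap q F (sg o) j (cl q j x) * |F j x - F j y|
            ≤ 1 / (8 * kap) * A G u kap q F (sg o) j (cl q j x) * (kap * ℓ s(x, y)) := by gcongr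
          _ = ℓ s(x, y) / 8 * A G u kap q F (sg o) j (cl q j x) := by field_simp
          _ ≤ _ := by gcongr; linarith
      · refine (abs_sub _ _).trans ?_
        rw [abs_mul, abs_mul, abs_W hk, abs_mul, abs_mul, abs_W hk, abs_of_pos hth]
        calc 1 / (8 * kap) * A G u kap q F (sg o) j (cl q j x) * |F j x| +
              1 / (8 * kap) * A G u kap q F (sg o) j (cl q j y) * |F j y|
            ≤ 1 / (8 * kap) * A G u kap q F (sg o) j (cl q j x) * (kap * ℓ s(x, y)) +
              1 / (8 * kap) * A G u kap q F (sg o) j (cl q j y) * (kap * ℓ s(x, y)) := by gcongr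
          _ = _ := by field_simp
  refine (Ex_mono pt).trans ?_
  rw [Ex_add, Ex_cmul, Ex_aa le_rfl, Ex_sum]
  have h1 : ∑ j ∈ N, (Ex fun o : Om V n => ℓ s(x, y) / 8 *
      (A G u kap q F (sg o) j (cl q j x) + A G u kap q F (sg o) j (cl q j y))) ≤
      ∑ j ∈ N, ℓ s(x, y) / 4 := by
    refine Finset.sum_le_sum fun j hj => ?_
    have hjn : j ≤ n := (Finset.mem_range.1 (Finset.mem_filter.1 hj).1).le
    rw [Ex_cmul, Ex_add]
    have e1 := Ex_A_le (G := G) (u := u) (kap := kap) (q := q) (F := F) hjn (cl q j x)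
    have e2 := Ex_A_le (G := G) (u := u) (kap := kap) (q := q) (F := F) hjn (cl q j y)
    nlinarith
  rw [Finset.sum_const, nsmul_eq_mul] at h1
  have h2 : (N.card : ℝ) ≤ 3 := by exact_mod_cast H.few x y hxy
  nlinarith

lemma drift_bound (hk : 1 ≤ kap) (x : V) :
    (Ex fun o : Om V n => |UU G u kap q F o x - u x|) ≤ ∑ j ∈ Finset.range n, |F j x| := by
  have hth : 0 < 1 / (8 * kap) := by positivity
  have hth1 : 1 / (8 * kap) ≤ 1 := by rw [div_le_one (by positivity)]; linarith
  have pt : ∀ o : Om V n, |UU G u kap q F o x - u x| ≤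
      ∑ j ∈ Finset.range n, |F j x| * A G u kap q F (sg o) j (cl q j x) := by
    intro o
    simp only [UU, add_sub_cancel_left]
    refine (Finset.abs_sum_le_sum_abs _ _).trans (Finset.sum_le_sum fun j _ => ?_)
    rw [abs_mul, abs_mul, abs_W hk, abs_of_pos hth]
    have n1 := A_nonneg (G := G) (u := u) (q := q) (F := F) hk
      (fun j S => (abs_sg o j S).le) j (cl q j x)
    calc 1 / (8 * kap) * A G u kap q F (sg o) j (cl q j x) * |F j x|
        ≤ 1 * A G u kap q F (sg o) j (cl q j x) * |F j x| := by gcongr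
      _ = _ := by ring
  refine (Ex_mono pt).trans ?_
  rw [Ex_sum]
  refine Finset.sum_le_sum fun j hj => ?_
  rw [Ex_cmul]
  exact mul_le_of_le_one_right (abs_nonneg _) (Ex_A_le (Finset.mem_range.1 hj).le _)

lemma Ex_sgU {j : ℕ} (hj : j < n) (x z : V) :
    (Ex fun o : Om V n => sg o j (cl q j x) * UU G u kap q F o z) =
      1 / (8 * kap) * (Ex fun o : Om V n => A G u kap q F (sg o) j (cl q j x)) *
        if q j z = q j x then F j z else 0 := by
  have e1 : (fun o : Om V n => sg o j (cl q j x) * UU G u kap q F o z) =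
      fun o : Om V n => u z * sg o j (cl q j x) + ∑ i ∈ Finset.range n, (1 / (8 * kap) * F i z) *
        (sg o j (cl q j x) * (sg o i (cl q i z) * A G u kap q F (sg o) i (cl q i z))) := by
    funext o
    simp only [UU, mul_add, Finset.mul_sum]
    congr 1
    · ring
    · exact Finset.sum_congr rfl fun i _ => by ring
  rw [e1, Ex_add, Ex_cmul, Ex_sg hj, mul_zero, zero_add, Ex_sum,
    Finset.sum_eq_single j]
  · rw [Ex_cmul, Ex_sgW hj hj]
    by_cases h : q j z = q j x
    · rw [if_pos ⟨rfl, cl_eq_iff.2 h⟩, if_pos h]; ring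
    · rw [if_neg fun h' => h (cl_eq_iff.1 h'.2), if_neg h]; ring
  · intro i hi hij
    rw [Ex_cmul, Ex_sgW (Finset.mem_range.1 hi) hj, if_neg fun h' => hij h'.1, mul_zero]
  · intro h; exact absurd (Finset.mem_range.2 hj) h

lemma gain_bound (hk : 1 ≤ kap) {ℓ : Sym2 V → ℝ} (H : MartHyp G ℓ u kap n q F) {j : ℕ}
    (hj : j < n) (x y : V) (hx : q j x ≠ none) :
    1 / (16 * kap) * |F j x - if q j y = q j x then F j y else 0| ≤
      Ex fun o : Om V n => |UU G u kap q F o x - UU G u kap q F o y| := by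
  have h1 := abs_Ex_le fun o : Om V n =>
    sg o j (cl q j x) * UU G u kap q F o x - sg o j (cl q j x) * UU G u kap q F o y
  have h2 : (fun o : Om V n =>
      |sg o j (cl q j x) * UU G u kap q F o x - sg o j (cl q j x) * UU G u kap q F o y|) =
      fun o : Om V n => |UU G u kap q F o x - UU G u kap q F o y| := by
    funext o
    rw [← mul_sub, abs_mul, abs_sg, one_mul]
  rw [h2, Ex_sub, Ex_sgU hj, Ex_sgU hj, if_pos rfl, ← mul_sub, abs_mul] at h1
  refine le_trans (mul_le_mul_of_nonneg_right ?_ (abs_nonneg _)) h1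
  have h3 := Ex_A_ge hk H hj hx
  refine le_trans ?_ (le_abs_self _)
  calc 1 / (16 * kap) = 1 / (8 * kap) * (1 / 2) := by field_simp; norm_num
    _ ≤ _ := by gcongr; linarith

end Mart

open Mart in
theorem mart : MartStmt := by
  intro V κ _ G ℓ u kap n q F hk hu H
  refine ⟨Om V n, inferInstance, fun _ => (Fintype.card (Om V n) : ℝ)⁻¹, UU G u kap q F,
    fun _ => by positivity, ?_, fun x y hxy => edge_bound hk H hxy (hu x y hxy),
    fun x => drift_bound hk x, fun j hj x y hx => gain_bound hk H hj x y hx⟩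
  simp

end Crest.Agent.N206.PL
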