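import Crest.Agent.N206.PL.Basic2

/-!
# Row 206, S0317: a separating ball contains two separating geodesics (helper40)
-/

set_option autoImplicit false

noncomputable section

open scoped Classical

namespace Crest.Agent.N206.PL

open Crest.GeometryTopology.GraphMetric Crest.Agent.R206.Iface534 SimpleGraph

namespace Nk

variable {V : Type} [Fintype V] {G : SimpleGraph V} {ℓ : Sym2 V → ℝ} {δ : ℝ}

theorem exists_par (h : WG G ℓ δ) (p : V) : ∃ par : V → V, ∀ v, v ≠ p →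
    G.Adj (par v) v ∧ wdist G ℓ p (par v) + ℓ s(par v, v) ≤ wdist G ℓ p v := by
  have : ∀ v, ∃ u, v ≠ p → G.Adj u v ∧ wdist G ℓ p u + ℓ s(u, v) ≤ wdist G ℓ p v := by
    intro v
    by_cases hv : v = p
    · exact ⟨v, fun h' => absurd hv h'⟩
    obtain ⟨q, -, hq⟩ := h.exists_geo v p
    cases q with
    | nil => exact absurd rfl hv
    | @cons _ u _ ha q =>
      refine ⟨u, fun _ => ⟨ha.symm, ?_⟩⟩
      have h1 := h.le_wl q
      rw [wl_cons] at hq
      rw [h.comm p u, h.comm p v, Sym2.eq_swap]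
      linarith
  choose par hpar using this
  exact ⟨par, hpar⟩

/-- ancestors in the tree given by a parent map -/
def Anc (p : V) (par : V → V) : V → V → Prop :=
  Relation.ReflTransGen fun a b => b ≠ p ∧ par b = a

/-- parent closed sets -/
def PC (p : V) (par : V → V) (A : Set V) : Prop := ∀ v ∈ A, v ≠ p → par v ∈ A

omit [Fintype V] in
theorem PC.anc {p : V} {par : V → V} {A : Set V} (hA : PC p par A) {u v : V} (h : Anc p par u v)
    (hv : v ∈ A) : u ∈ A := by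
  induction h using Relation.ReflTransGen.head_induction_on with
  | refl => exact hv
  | head h1 _ ih => exact h1.2 ▸ hA _ ih h1.1

theorem wf_lt (f : V → ℝ) : WellFounded fun a b : V => f a < f b :=
  haveI : IsTrans V fun a b : V => f a < f b := ⟨fun _ _ _ => lt_trans⟩
  haveI : Std.Irrefl fun a b : V => f a < f b := ⟨fun _ => lt_irrefl _⟩
  Finite.wellFounded_of_trans_of_irrefl _

variable {p : V} {par : V → V}

theorem tree_walk (h : WG G ℓ δ) (hp : ∀ v, v ≠ p →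
    G.Adj (par v) v ∧ wdist G ℓ p (par v) + ℓ s(par v, v) ≤ wdist G ℓ p v) (v : V) :
    ∃ T : G.Walk p v, wl ℓ T ≤ wdist G ℓ p v ∧ ∀ u, u ∈ T.support ↔ Anc p par u v := by
  induction v using (wf_lt (wdist G ℓ p)).induction with
  | _ v ih =>
    by_cases hv : v = p
    · subst hv
      refine ⟨Walk.nil, by simp [h.nonneg], fun u => ?_⟩
      simp only [Walk.support_nil, List.mem_singleton]
      constructor
      · rintro rfl; exact Relation.ReflTransGen.refl
      · intro hu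
        rcases Relation.ReflTransGen.cases_tail hu with h1 | ⟨c, -, h1⟩
        · exact h1.symm
        · exact absurd rfl h1.1
    · obtain ⟨ha, hd⟩ := hp v hv
      obtain ⟨T, hT, hs⟩ := ih (par v) (by linarith [h.adj_pos ha])
      refine ⟨T.concat ha, by rw [wl_concat]; linarith, fun u => ?_⟩
      rw [Walk.support_concat, List.mem_append, List.mem_singleton, hs]
      constructor
      · rintro (h1 | rfl)
        · exact h1.tail ⟨hv, rfl⟩
        · exact Relation.ReflTransGen.refl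
      · intro hu
        rcases Relation.ReflTransGen.cases_tail hu with h1 | ⟨c, h2, h1⟩
        · exact Or.inr h1.symm
        · exact Or.inl (h1.2 ▸ h2)

/-- leaves of a set -/
def Leaf (p : V) (par : V → V) (A : Set V) (l : V) : Prop :=
  l ∈ A ∧ ∀ w ∈ A, w ≠ p → par w ≠ l

theorem exists_leaf (h : WG G ℓ δ) (hp : ∀ v, v ≠ p →
    G.Adj (par v) v ∧ wdist G ℓ p (par v) + ℓ s(par v, v) ≤ wdist G ℓ p v) (A : Set V) (v : V)
    (hv : v ∈ A) : ∃ l, Leaf p par A l ∧ Anc p par v l := by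
  induction v using (wf_lt fun v => - wdist G ℓ p v).induction with
  | _ v ih =>
    by_cases hl : Leaf p par A v
    · exact ⟨v, hl, Relation.ReflTransGen.refl⟩
    · have : ∃ w ∈ A, w ≠ p ∧ par w = v := by
        by_contra hc
        exact hl ⟨hv, fun w hw hwp e => hc ⟨w, hw, hwp, e⟩⟩
      obtain ⟨w, hw, hwp, rfl⟩ := this
      obtain ⟨ha, hd⟩ := hp w hwp
      obtain ⟨l, hl, h1⟩ := ih w (by linarith [h.adj_pos ha]) hw
      exact ⟨l, hl, Relation.ReflTransGen.head ⟨hwp, rfl⟩ h1⟩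

omit [Fintype V] in
theorem tch_of_not_sep {A : Set V} {x y l : V} (hx : x ∉ A) (hs : Sep G A x y)
    (hn : ¬ Sep G (A \ {l}) x y) : Tch G (cmp G Aᶜ x) {l} := by
  obtain ⟨q, hq⟩ := not_sep_iff.1 hn
  obtain ⟨b, a, hba, q₁, q₂, rfl, ha, h1⟩ := first_exit q A hx (hs q)
  have : a = l := by
    by_contra hc
    exact hq a (by simp) ⟨ha, hc⟩
  exact ⟨b, ⟨q₁, h1⟩, a, this, hba⟩

end Nk

open Nk in
theorem neck : NeckStmt := by
  intro V _ G ℓ δ h hM p x y D hD hx hy hs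
  obtain ⟨par, hp⟩ := exists_par h p
  have hex : ∃ n, ∃ A : Set V, A.ncard = n ∧ A ⊆ bl G ℓ p D ∧ PC p par A ∧ Sep G A x y := by
    refine ⟨_, _, rfl, subset_rfl, fun v hv hvp => ?_, hs⟩
    obtain ⟨ha, hd⟩ := hp v hvp
    rw [mem_bl] at hv ⊢
    linarith [h.adj_pos ha]
  obtain ⟨A, hA0, hA1, hA2, hA3⟩ := Nat.find_spec hex
  have hmin : ∀ l, Leaf p par A l → ¬ Sep G (A \ {l}) x y := fun l hl hsep => by
    refine Nat.find_min hex (m := (A \ {l}).ncard) ?_ ⟨_, rfl, Set.sdiff_subset.trans hA1, ?_, hsep⟩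
    · rw [← hA0]; exact Set.ncard_sdiff_singleton_lt_of_mem hl.1
    · exact fun v hv hvp => ⟨hA2 v hv.1 hvp, hl.2 v hv.1 hvp⟩
  have hxA : x ∉ A := fun h' => absurd (hA1 h') (not_le.2 hx)
  have hyA : y ∉ A := fun h' => absurd (hA1 h') (not_le.2 hy)
  choose T hT hTs using tree_walk h hp
  -- at most two leaves
  have two : ∃ a b, (a = p ∨ a ∈ A) ∧ (b = p ∨ b ∈ A) ∧ ∀ l, Leaf p par A l → l = a ∨ l = b := by
    by_contra hc
    push Not at hc
    obtain ⟨l₁, h1, h1p, -⟩ := hc p p (Or.inl rfl) (Or.inl rfl)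
    obtain ⟨l₂, h2, h21, h2p⟩ := hc l₁ p (Or.inr h1.1) (Or.inl rfl)
    obtain ⟨l₃, h3, h31, h32⟩ := hc l₁ l₂ (Or.inr h1.1) (Or.inr h2.1)
    have hpA : p ∈ A := hA2.anc ((hTs l₁ p).1 (T l₁).start_mem_support) h1.1
    have h3p : l₃ ≠ p := by
      rintro rfl
      rcases Relation.ReflTransGen.cases_head ((hTs l₁ l₃).1 (T l₁).start_mem_support) with
        h4 | ⟨c, h4, h5⟩
      · exact h1p h4.symm
      · exact h3.2 c (hA2.anc h5 h1.1) h4.1 h4.2
    set R : Set V := {v | v ∈ A ∧ v ≠ l₁ ∧ v ≠ l₂ ∧ v ≠ l₃} with hR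
    have hRP : PC p par R := fun v hv hvp =>
      ⟨hA2 v hv.1 hvp, h1.2 v hv.1 hvp, h2.2 v hv.1 hvp, h3.2 v hv.1 hvp⟩
    have hRC : Cn G R := Cn.of_root (r := p) ⟨hpA, h1p.symm, h2p.symm, h3p.symm⟩ fun v hv =>
      ⟨T v, fun u hu => hRP.anc ((hTs v u).1 hu) hv⟩
    have hRt : ∀ l, Leaf p par A l → l ≠ p → Tch G R {l} := fun l hl hlp =>
      ⟨par l, ⟨hA2 l hl.1 hlp, h1.2 l hl.1 hlp, h2.2 l hl.1 hlp, h3.2 l hl.1 hlp⟩, l, rfl,
        (hp l hlp).1⟩
    have hXt : ∀ l, Leaf p par A l → Tch G (cmp G Aᶜ x) {l} := fun l hl =>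
      tch_of_not_sep hxA hA3 (hmin l hl)
    have hYt : ∀ l, Leaf p par A l → Tch G (cmp G Aᶜ y) {l} := fun l hl =>
      tch_of_not_sep hyA hA3.symm fun h' => hmin l hl h'.symm
    have hd : ∀ z, ∀ l ∈ A, Disjoint (cmp G Aᶜ z) {l} := fun z l hl =>
      Set.disjoint_singleton_right.2 fun h' => cmp_sub _ _ h' hl
    have hdR : ∀ z, Disjoint (cmp G Aᶜ z) R := fun z =>
      Set.disjoint_left.2 fun v h' hv => cmp_sub _ _ h' hv.1
    exact hM.k33' (cmp G Aᶜ x) (cmp G Aᶜ y) R {l₁} {l₂} {l₃} (cn_cmp hxA) (cn_cmp hyA) hRC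
      (Cn.single _) (Cn.single _) (Cn.single _)
      (cmp_disjoint fun h' => not_sep_iff.2 h' hA3) (hdR x) (hdR y)
      (Set.disjoint_singleton.2 h21.symm) (Set.disjoint_singleton.2 h31.symm)
      (Set.disjoint_singleton.2 h32.symm) (hd x _ h1.1) (hd x _ h2.1) (hd x _ h3.1)
      (hd y _ h1.1) (hd y _ h2.1) (hd y _ h3.1)
      (Set.disjoint_singleton_right.2 fun h' => h'.2.1 rfl)
      (Set.disjoint_singleton_right.2 fun h' => h'.2.2.1 rfl)
      (Set.disjoint_singleton_right.2 fun h' => h'.2.2.2 rfl)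
      (hXt _ h1) (hXt _ h2) (hXt _ h3) (hYt _ h1) (hYt _ h2) (hYt _ h3)
      (hRt _ h1 h1p) (hRt _ h2 h2p) (hRt _ h3 h3p)
  obtain ⟨a, b, ha, hb, hl⟩ := two
  have hlen : ∀ a, (a = p ∨ a ∈ A) → wl ℓ (T a) ≤ D := by
    rintro a (rfl | ha)
    · exact (hT a).trans (by rw [h.self]; exact hD)
    · exact (hT a).trans (hA1 ha)
  refine ⟨a, b, T a, T b, hlen a ha, hlen b hb, hA3.mono fun v hv => ?_⟩
  obtain ⟨l, h1, h2⟩ := exists_leaf h hp A v hv
  rcases hl l h1 with rfl | rfl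
  · exact Or.inl ((hTs _ _).2 h2)
  · exact Or.inr ((hTs _ _).2 h2)

end Crest.Agent.N206.PL
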