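import Crest.Agent.N206.PL.Neck

/-!
# Row 206, S0317: bonds and the neck inequality (helper40)
-/

set_option autoImplicit false

noncomputable section

open scoped Classical

namespace Crest.Agent.N206.PL

open Crest.GeometryTopology.GraphMetric Crest.Agent.R206.Iface534 SimpleGraph

namespace Nk

variable {V : Type} {G : SimpleGraph V} {ℓ : Sym2 V → ℝ} {δ : ℝ}

/-- the cut semimetric of a set -/
def ind (B : Set V) (x y : V) : ℝ := if (x ∈ B ↔ y ∈ B) then 0 else 1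

theorem ind_nonneg (B : Set V) (x y : V) : 0 ≤ ind B x y := by unfold ind; split_ifs <;> norm_num
theorem ind_le (B : Set V) (x y : V) : ind B x y ≤ 1 := by unfold ind; split_ifs <;> norm_num
theorem ind_compl (B : Set V) (x y : V) : ind Bᶜ x y = ind B x y := by simp [ind, not_iff_not]
theorem ind_symm (B : Set V) (x y : V) : ind B x y = ind B y x := by simp only [ind, iff_comm]
theorem ind_tri (B : Set V) (x y z : V) : ind B x z ≤ ind B x y + ind B y z := by
  by_cases hx : x ∈ B <;> by_cases hy : y ∈ B <;> by_cases hz : z ∈ B <;> simp [ind, hx, hy, hz]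

theorem ind_walk (B : Set V) {a b u : V} (q : G.Walk a b) (hu : u ∈ q.support) :
    ind B a u ≤ (q.darts.map fun d => ind B d.fst d.snd).sum := by
  induction q with
  | nil =>
    simp only [Walk.support_nil, List.mem_singleton] at hu
    simp [hu, ind]
  | @cons a c b h q ih =>
    simp only [Walk.darts_cons, List.map_cons, List.sum_cons]
    have h0 : 0 ≤ (q.darts.map fun d => ind B d.fst d.snd).sum :=
      List.sum_nonneg fun t ht => by
        obtain ⟨d, -, rfl⟩ := List.mem_map.1 ht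
        exact ind_nonneg _ _ _
    simp only [Walk.support_cons, List.mem_cons] at hu
    rcases hu with rfl | hu
    · have : ind B u u = 0 := by simp [ind]
      linarith [ind_nonneg B u c]
    · linarith [ind_tri B a c u, ih hu]

theorem sum_le_of_unique {α : Type} (s : Finset α) (r : α → Prop) [DecidablePred r] {c : ℝ}
    (hc : 0 ≤ c)
    (h : ∀ a b, r a → r b → a = b) : ∑ a ∈ s, (if r a then c else 0) ≤ c := by
  by_cases he : ∃ a, r a
  · obtain ⟨a, ha⟩ := he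
    have : ∀ b ∈ s, (if r b then c else 0) = if b = a then c else 0 := fun b _ => by
      by_cases hb : b = a
      · simp [hb, ha]
      · rw [if_neg hb, if_neg fun h' => hb (h _ _ h' ha)]
    rw [Finset.sum_congr rfl this, Finset.sum_ite_eq']
    split_ifs <;> simp [hc]
  · push Not at he
    simp [he, hc]

section bonds
variable [Fintype V]

/-- the components of `U` -/
def comps (G : SimpleGraph V) (U : Set V) : Finset (Set V) :=
  (Finset.univ.filter (· ∈ U)).image (cmp G U)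

theorem mem_comps {U A : Set V} : A ∈ comps G U ↔ ∃ z ∈ U, cmp G U z = A := by simp [comps]

theorem comps_ge (U : Set V) (x y : V) : ind U x y ≤ ∑ A ∈ comps G U, ind A x y := by
  have key : ∀ x y, x ∈ U → y ∉ U → 1 ≤ ∑ A ∈ comps G U, ind A x y := fun x y hx hy => by
    refine le_trans ?_ (Finset.single_le_sum (f := fun A => ind A x y)
      (fun A _ => ind_nonneg A x y) (mem_comps.2 ⟨x, hx, rfl⟩))
    have : y ∉ cmp G U x := fun h => hy (cmp_sub _ _ h)
    simp [ind, this, mem_cmp_self hx]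
  have h0 : 0 ≤ ∑ A ∈ comps G U, ind A x y := Finset.sum_nonneg fun A _ => ind_nonneg A x y
  by_cases hx : x ∈ U <;> by_cases hy : y ∈ U
  · simpa [ind, hx, hy] using h0
  · exact (ind_le _ _ _).trans (key x y hx hy)
  · simp only [ind_symm _ x y]
    exact (ind_le _ _ _).trans (key y x hy hx)
  · simpa [ind, hx, hy] using h0

theorem comps_adj (U : Set V) {x y : V} (h : G.Adj x y) :
    ∑ A ∈ comps G U, ind A x y = ind U x y := by
  refine le_antisymm ?_ (comps_ge U x y)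
  have key : ∀ x y, x ∈ U → y ∉ U → ∑ A ∈ comps G U, ind A x y ≤ ind U x y := fun x y hx hy => by
    have h1 : ind U x y = 1 := by simp [ind, hx, hy]
    rw [h1]
    refine le_trans (Finset.sum_le_sum fun A hA => ?_)
      (sum_le_of_unique (comps G U) (fun A => A = cmp G U x) zero_le_one fun a b ha hb =>
        ha.trans hb.symm)
    obtain ⟨z, -, rfl⟩ := mem_comps.1 hA
    have hy' : y ∉ cmp G U z := fun h => hy (cmp_sub _ _ h)
    split_ifs with h2
    · exact ind_le _ _ _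
    · have : x ∉ cmp G U z := fun h => h2 (cmp_eq h).symm
      simp [ind, this, hy']
  by_cases hx : x ∈ U <;> by_cases hy : y ∈ U
  · refine (Finset.sum_eq_zero fun A hA => ?_).le.trans (ind_nonneg _ _ _)
    obtain ⟨z, -, rfl⟩ := mem_comps.1 hA
    exact if_pos ⟨fun h' => cmp_adj h' h hy, fun h' => cmp_adj h' h.symm hx⟩
  · exact key x y hx hy
  · simp only [ind_symm _ x y]
    exact key y x hy hx
  · refine (Finset.sum_eq_zero fun A hA => ?_).le.trans (ind_nonneg _ _ _)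
    obtain ⟨z, -, rfl⟩ := mem_comps.1 hA
    exact if_pos ⟨fun h' => absurd (cmp_sub _ _ h') hx, fun h' => absurd (cmp_sub _ _ h') hy⟩

omit [Fintype V] in
theorem cn_compl (hG : G.Connected) {A : Set V} (hA : Cn G A) (y : V) : Cn G (cmp G Aᶜ y)ᶜ := by
  obtain ⟨a, ha⟩ := hA.1
  have hAB : A ⊆ (cmp G Aᶜ y)ᶜ := fun v hv h => cmp_sub _ _ h hv
  refine Cn.of_root (hAB ha) fun v hv => ?_
  by_cases hvA : v ∈ A
  · exact hA.sub_cmp hAB ha hvA
  · obtain ⟨q⟩ := hG.preconnected v a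
    obtain ⟨b, a', hba, q₁, q₂, -, ha', h1⟩ := first_exit q A hvA ⟨a, q.end_mem_support, ha⟩
    have h2 : ∀ u ∈ q₁.support, u ∈ (cmp G Aᶜ y)ᶜ := fun u hu h' =>
      hv (cmp_trans h' (cmp_symm (support_sub_cmp q₁ h1 u hu)))
    exact cmp_trans (cmp_adj (hA.sub_cmp hAB ha ha') hba.symm (h2 b q₁.end_mem_support))
      (cmp_symm ⟨q₁, h2⟩)

theorem bondify (hG : G.Connected) {ρ : V → V → ℝ} (hρ : IsCut ρ) :
    ∃ (ι : Type) (s : Finset ι) (c : ι → ℝ) (B : ι → Set V), (∀ i ∈ s, 0 ≤ c i) ∧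
      (∀ i ∈ s, Cn G (B i) ∧ Cn G (B i)ᶜ) ∧ (∀ x y, ρ x y ≤ ∑ i ∈ s, c i * ind (B i) x y) ∧
      ∀ x y, G.Adj x y → ∑ i ∈ s, c i * ind (B i) x y = ρ x y := by
  obtain ⟨w, hw, e⟩ := hρ
  have e' : ∀ x y, ρ x y = ∑ U : Finset V, w U * ind (U : Set V) x y := fun x y => by
    rw [e, cutw]
    simp only [ind, Finset.mem_coe]
  refine ⟨Σ _ : Finset V, Σ _ : Set V, Set V,
    Finset.univ.sigma fun U => (comps G (U : Set V)).sigma fun A => comps G Aᶜ,
    fun t => w t.1, fun t => t.2.2, fun t _ => hw _, fun t ht => ?_, fun x y => ?_,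
    fun x y h => ?_⟩
  · simp only [Finset.mem_sigma, Finset.mem_univ, true_and, mem_comps] at ht
    obtain ⟨⟨z, hz, h1⟩, y, hy, h2⟩ := ht
    dsimp only
    rw [← h2]
    exact ⟨cn_cmp hy, cn_compl hG (h1 ▸ cn_cmp hz) y⟩
  · simp only [e', Finset.sum_sigma, ← Finset.mul_sum]
    refine Finset.sum_le_sum fun U _ => mul_le_mul_of_nonneg_left ?_ (hw U)
    refine (comps_ge (G := G) _ x y).trans (Finset.sum_le_sum fun A _ => ?_)
    rw [← ind_compl]
    exact comps_ge _ x y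
  · simp only [e', Finset.sum_sigma, ← Finset.mul_sum, comps_adj _ h, ind_compl]

end bonds

theorem cons_succ {P : Finset ℕ} {p a b : ℕ} (ha : Cons P p a) (hb : Cons P p b) : a = b :=
  le_antisymm (ha.2.2.2 b hb.2.1 hb.2.2.1) (hb.2.2.2 a ha.2.1 ha.2.2.1)

theorem cons_pred {P : Finset ℕ} {p a b : ℕ} (ha : Cons P a p) (hb : Cons P b p) : a = b := by
  rcases lt_trichotomy a b with h | h | h
  · exact absurd (ha.2.2.2 b hb.1 h) (not_le.2 hb.2.2.1)
  · exact h
  · exact absurd (hb.2.2.2 a ha.1 h) (not_le.2 ha.2.2.1)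

/-- the neck inequality for one bond -/
theorem bond_ineq (h : WG G ℓ δ) (Q : Geo G ℓ) {η s0 : ℝ} (hη : η ≤ 1 / 2) (S : Splits Q η s0)
    (N : ℕ → Set V) (hN : ∀ p ∈ S.P, p ≠ 0 → p ≠ Q.n →
      N p ⊆ bl G ℓ (Q.v p) (S.D p) ∧ Sep G (N p) (Q.v 0) (Q.v Q.n))
    (ok : ℕ → Prop) {B : Set V} (hB : Cn G B) (h0 : Q.v 0 ∈ B) :
    ∑ p ∈ S.P, ∑ p' ∈ S.P,
        (if Cons S.P p p' ∧ ok p ∧ ok p' then ind B (Q.v p) (Q.v p') else 0) ≤
      ind B (Q.v 0) (Q.v Q.n) +
        2 * ∑ p ∈ S.P, if ok p ∧ ∃ u ∈ N p, ind B (Q.v p) u = 1 then (1 : ℝ) else 0 := by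
  set spl : ℕ → Prop := fun p => ∃ u ∈ N p, ind B (Q.v p) u = 1 with hspl
  have core : ∀ a ∈ S.P, ∀ b ∈ S.P, a ≤ b → ¬ spl a → Q.v a ∉ B → Q.v b ∉ B := by
    intro a ha b hb hab hs haB hbB
    rcases hab.eq_or_lt with rfl | hab
    · exact haB hbB
    have hbn := S.le_n b hb
    obtain ⟨h1, h2⟩ := hN a ha (fun e => haB (e ▸ h0)) (by omega)
    obtain ⟨q₁, hq₁⟩ := hB.2 _ h0 _ hbB
    obtain ⟨q₂, -, hq₂⟩ := Q.walk hbn le_rfl
    obtain ⟨u, hu, huN⟩ := h2 (q₁.append q₂)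
    rcases (Walk.mem_support_append_iff _ _).1 hu with hu | hu
    · exact hs ⟨u, huN, by simp [ind, haB, hq₁ u hu]⟩
    · obtain ⟨k, hk1, hk2, rfl⟩ := (hq₂ u).1 hu
      have h3 := h1 huN
      rw [mem_bl, Q.dist a k (by omega) hk2] at h3
      have h4 := S.far a ha b hb hab.ne
      have h5 := Q.pos_lt h hab hbn
      have h6 := Q.pos_mono h hk1 hk2
      rw [abs_sub_comm, abs_of_pos (by linarith)] at h4
      nlinarith
  set s : ℕ → ℝ := fun p => if ok p ∧ spl p then 1 else 0 with hs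
  have s0 : ∀ p, 0 ≤ s p := fun p => by simp only [hs]; split_ifs <;> norm_num
  set J : ℕ × ℕ → Prop := fun t => Cons S.P t.1 t.2 ∧ ¬ spl t.2 ∧ Q.v t.1 ∈ B ∧ Q.v t.2 ∉ B with hJ
  have h1 : ∀ p ∈ S.P, ∀ p' ∈ S.P,
      (if Cons S.P p p' ∧ ok p ∧ ok p' then ind B (Q.v p) (Q.v p') else 0) ≤
        (if J (p, p') then ind B (Q.v 0) (Q.v Q.n) else 0) + (if Cons S.P p p' then s p else 0) +
          if Cons S.P p p' then s p' else 0 := by
    intro p hp p' hp'
    have a1 : 0 ≤ if J (p, p') then ind B (Q.v 0) (Q.v Q.n) else 0 := by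
      split_ifs; exacts [ind_nonneg _ _ _, le_rfl]
    by_cases hc : Cons S.P p p' ∧ ok p ∧ ok p'
    · rw [if_pos hc, if_pos hc.1, if_pos hc.1]
      have a2 := ind_le B (Q.v p) (Q.v p')
      by_cases s1 : spl p
      · have : s p = 1 := if_pos ⟨hc.2.1, s1⟩
        linarith [s0 p']
      by_cases s2 : spl p'
      · have : s p' = 1 := if_pos ⟨hc.2.2, s2⟩
        linarith [s0 p]
      by_cases b1 : Q.v p ∈ B
      · by_cases b2 : Q.v p' ∈ B
        · have : ind B (Q.v p) (Q.v p') = 0 := by simp [ind, b1, b2]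
          linarith [s0 p, s0 p']
        · have hn := core p' hp' _ S.n_mem (S.le_n _ hp') s2 b2
          have : ind B (Q.v 0) (Q.v Q.n) = 1 := by simp [ind, h0, hn]
          rw [if_pos (show J (p, p') from ⟨hc.1, s2, b1, b2⟩)]
          linarith [s0 p, s0 p']
      · have b2 := core p hp p' hp' hc.1.2.2.1.le s1 b1
        have : ind B (Q.v p) (Q.v p') = 0 := by simp [ind, b1, b2]
        linarith [s0 p, s0 p']
    · rw [if_neg hc]
      have a2 : 0 ≤ if Cons S.P p p' then s p else 0 := by split_ifs; exacts [s0 _, le_rfl]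
      have a3 : 0 ≤ if Cons S.P p p' then s p' else 0 := by split_ifs; exacts [s0 _, le_rfl]
      linarith
  refine (Finset.sum_le_sum fun p hp => Finset.sum_le_sum fun p' hp' => h1 p hp p' hp').trans ?_
  simp only [Finset.sum_add_distrib]
  have b1 : ∑ p ∈ S.P, ∑ p' ∈ S.P, (if J (p, p') then ind B (Q.v 0) (Q.v Q.n) else 0) ≤
      ind B (Q.v 0) (Q.v Q.n) := by
    rw [← Finset.sum_product (f := fun t => if J t then ind B (Q.v 0) (Q.v Q.n) else 0)]
    refine sum_le_of_unique _ J (ind_nonneg _ _ _) ?_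
    have lt : ∀ a b, J a → J b → ¬ a.1 < b.1 := fun a b ha hb hlt =>
      core a.2 ha.1.2.1 b.1 hb.1.1 (ha.1.2.2.2 _ hb.1.1 hlt) ha.2.1 ha.2.2.2 hb.2.2.1
    rintro ⟨a, a'⟩ ⟨b, b'⟩ ha hb
    obtain rfl : a = b := le_antisymm (not_lt.1 (lt _ _ hb ha)) (not_lt.1 (lt _ _ ha hb))
    exact Prod.ext rfl (cons_succ ha.1 hb.1)
  have b2 : ∑ p ∈ S.P, ∑ p' ∈ S.P, (if Cons S.P p p' then s p else 0) ≤ ∑ p ∈ S.P, s p :=
    Finset.sum_le_sum fun p _ => sum_le_of_unique _ _ (s0 p) fun _ _ => cons_succ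
  have b3 : ∑ p ∈ S.P, ∑ p' ∈ S.P, (if Cons S.P p p' then s p' else 0) ≤ ∑ p ∈ S.P, s p := by
    rw [Finset.sum_comm]
    exact Finset.sum_le_sum fun p _ => sum_le_of_unique _ _ (s0 p) fun _ _ => cons_pred
  linarith

theorem darts_sum {ι : Type} (s : Finset ι) (c : ι → ℝ) (B : ι → Set V) {ρ : V → V → ℝ}
    (e : ∀ x y, G.Adj x y → ∑ i ∈ s, c i * ind (B i) x y = ρ x y) {K : ℝ} {a b : V}
    (q : G.Walk a b) (hK : ∀ x ∈ q.support, ∀ y ∈ q.support, G.Adj x y → ρ x y ≤ K * ℓ s(x, y)) :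
    ∑ i ∈ s, c i * (q.darts.map fun d => ind (B i) d.fst d.snd).sum ≤ K * wl ℓ q := by
  induction q with
  | nil => simp
  | @cons a c' b h q ih =>
    simp only [Walk.darts_cons, List.map_cons, List.sum_cons, mul_add, Finset.sum_add_distrib,
      wl_cons, e _ _ h]
    exact add_le_add (hK a (by simp) c' (by simp) h)
      (ih fun x hx y hy => hK x (by simp [hx]) y (by simp [hy]))

end Nk

open Nk in
theorem neckIneq (hN : NeckStmt) : NeckIneqStmt := by
  intro V _ G ℓ δ h hM ρ hρ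
  obtain ⟨ι, s, c, B, hc, hB, hge, hadj⟩ := bondify h.conn hρ
  refine ⟨fun x y => ∑ i ∈ s, c i * ind (B i) x y,
    IsCut.sum s _ fun i hi => (IsCut.one (B i)).smul (hc i hi), hadj, ?_⟩
  intro Q η s0 hη hη2 hs0 S K Dm hot hK hDm hρK hcold
  have hneck : ∀ p, ∃ (a b : V) (P₁ : G.Walk (Q.v p) a) (P₂ : G.Walk (Q.v p) b), p ∈ S.P →
      wl ℓ P₁ ≤ S.D p ∧ wl ℓ P₂ ≤ S.D p ∧ (p ≠ 0 → p ≠ Q.n →
        Sep G {v | v ∈ P₁.support ∨ v ∈ P₂.support} (Q.v 0) (Q.v Q.n)) := by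
    intro p
    by_cases hp : p ∈ S.P ∧ p ≠ 0 ∧ p ≠ Q.n
    · obtain ⟨hp, h0, hn⟩ := hp
      have h1 := S.size p hp h0 hn
      have h2 := S.far p hp 0 S.zero_mem h0
      have h3 := S.far p hp _ S.n_mem hn
      rw [← Q.d_abs h (S.le_n p hp) (Nat.zero_le _)] at h2
      rw [← Q.d_abs h (S.le_n p hp) le_rfl] at h3
      have h4 := h.nonneg (Q.v p) (Q.v 0)
      have h5 := h.nonneg (Q.v p) (Q.v Q.n)
      obtain ⟨a, b, P₁, P₂, e1, e2, e3⟩ := hN V G ℓ δ h hM (Q.v p) (Q.v 0) (Q.v Q.n) (S.D p)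
        (by linarith) (by nlinarith) (by nlinarith) (S.sep p hp h0 hn)
      exact ⟨a, b, P₁, P₂, fun _ => ⟨e1, e2, fun _ _ => e3⟩⟩
    · refine ⟨_, _, Walk.nil, Walk.nil, fun hp' => ?_⟩
      have : S.D p = 0 := by
        by_cases h0 : p = 0
        · rw [h0, S.D_zero]
        · by_cases hn : p = Q.n
          · rw [hn, S.D_n]
          · exact absurd ⟨hp', h0, hn⟩ hp
      exact ⟨by simp [this], by simp [this], fun h0 hn => absurd ⟨hp', h0, hn⟩ hp⟩
  choose a b P₁ P₂ hP using hneck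
  set N : ℕ → Set V := fun p => {v | v ∈ (P₁ p).support ∨ v ∈ (P₂ p).support} with hNd
  have hball : ∀ p ∈ S.P, N p ⊆ bl G ℓ (Q.v p) (S.D p) := fun p hp v hv => by
    rcases hv with hv | hv
    · exact (h.mem_left _ hv).trans (hP p hp).1
    · exact (h.mem_left _ hv).trans (hP p hp).2.1
  have key : ∀ i ∈ s, ∑ p ∈ S.P, ∑ p' ∈ S.P,
      (if Cons S.P p p' ∧ S.D p ≤ Dm ∧ S.D p' ≤ Dm then ind (B i) (Q.v p) (Q.v p') else 0) ≤
      ind (B i) (Q.v 0) (Q.v Q.n) + 2 * ∑ p ∈ S.P,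
        if S.D p ≤ Dm ∧ ∃ u ∈ N p, ind (B i) (Q.v p) u = 1 then (1 : ℝ) else 0 := by
    intro i hi
    by_cases h0 : Q.v 0 ∈ B i
    · convert bond_ineq h Q hη2 S N (fun p hp h0 hn => ⟨hball p hp, (hP p hp).2.2 h0 hn⟩)
          (fun p => S.D p ≤ Dm) (hB i hi).1 h0
    · simpa only [ind_compl] using
        bond_ineq h Q hη2 S N (fun p hp h0 hn => ⟨hball p hp, (hP p hp).2.2 h0 hn⟩)
          (fun p => S.D p ≤ Dm) (hB i hi).2 h0
  have hspl : ∀ p ∈ S.P, ∑ i ∈ s, c i *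
      (if S.D p ≤ Dm ∧ ∃ u ∈ N p, ind (B i) (Q.v p) u = 1 then (1 : ℝ) else 0) ≤
      2 * K * if S.D p ≤ Dm ∧ hot p then S.D p else 0 := by
    intro p hp
    by_cases hD : S.D p ≤ Dm
    swap
    · simp [hD]
    have nn : ∀ i {x y : V} (q : G.Walk x y),
        0 ≤ (q.darts.map fun d => ind (B i) d.fst d.snd).sum := fun i _ _ q =>
      List.sum_nonneg fun t ht => by
        obtain ⟨d, -, rfl⟩ := List.mem_map.1 ht
        exact ind_nonneg _ _ _
    have h1 : ∑ i ∈ s, c i *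
        (if S.D p ≤ Dm ∧ ∃ u ∈ N p, ind (B i) (Q.v p) u = 1 then (1 : ℝ) else 0) ≤
        ∑ i ∈ s, c i * ((P₁ p).darts.map fun d => ind (B i) d.fst d.snd).sum +
          ∑ i ∈ s, c i * ((P₂ p).darts.map fun d => ind (B i) d.fst d.snd).sum := by
      rw [← Finset.sum_add_distrib]
      refine Finset.sum_le_sum fun i hi => ?_
      rw [← mul_add]
      refine mul_le_mul_of_nonneg_left ?_ (hc i hi)
      have n1 := nn i (P₁ p)
      have n2 := nn i (P₂ p)
      split_ifs with h2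
      · obtain ⟨-, u, hu | hu, h3⟩ := h2
        · linarith [ind_walk (B i) _ hu]
        · linarith [ind_walk (B i) _ hu]
      · linarith
    refine h1.trans ?_
    by_cases hh : hot p
    · rw [if_pos ⟨hD, hh⟩]
      have d1 := darts_sum (ℓ := ℓ) s c B hadj (P₁ p) fun x _ y _ => hρK x y
      have d2 := darts_sum (ℓ := ℓ) s c B hadj (P₂ p) fun x _ y _ => hρK x y
      nlinarith [mul_le_mul_of_nonneg_left (hP p hp).1 hK,
        mul_le_mul_of_nonneg_left (hP p hp).2.1 hK]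
    · rw [if_neg fun h' => hh h'.2]
      have d1 := darts_sum (ℓ := ℓ) (K := 0) s c B hadj (P₁ p) fun x hx y hy hxy => by
        rw [hcold p hp hD hh x (hball p hp (Or.inl hx)) y (hball p hp (Or.inl hy)) hxy]; simp
      have d2 := darts_sum (ℓ := ℓ) (K := 0) s c B hadj (P₂ p) fun x hx y hy hxy => by
        rw [hcold p hp hD hh x (hball p hp (Or.inr hx)) y (hball p hp (Or.inr hy)) hxy]; simp
      linarith
  calc _ ≤ ∑ p ∈ S.P, ∑ p' ∈ S.P, ∑ i ∈ s, c i *
        (if Cons S.P p p' ∧ S.D p ≤ Dm ∧ S.D p' ≤ Dm then ind (B i) (Q.v p) (Q.v p') else 0) := by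
        refine Finset.sum_le_sum fun p _ => Finset.sum_le_sum fun p' _ => ?_
        split_ifs
        · exact hge _ _
        · simp
    _ = ∑ i ∈ s, c i * ∑ p ∈ S.P, ∑ p' ∈ S.P,
        (if Cons S.P p p' ∧ S.D p ≤ Dm ∧ S.D p' ≤ Dm then ind (B i) (Q.v p) (Q.v p') else 0) := by
        simp only [Finset.mul_sum]
        exact (Finset.sum_congr rfl fun p _ => Finset.sum_comm).trans Finset.sum_comm
    _ ≤ ∑ i ∈ s, c i * (ind (B i) (Q.v 0) (Q.v Q.n) + 2 * ∑ p ∈ S.P,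
        if S.D p ≤ Dm ∧ ∃ u ∈ N p, ind (B i) (Q.v p) u = 1 then (1 : ℝ) else 0) :=
        Finset.sum_le_sum fun i hi => mul_le_mul_of_nonneg_left (key i hi) (hc i hi)
    _ = ∑ i ∈ s, c i * ind (B i) (Q.v 0) (Q.v Q.n) + 2 * ∑ p ∈ S.P, ∑ i ∈ s, c i *
        (if S.D p ≤ Dm ∧ ∃ u ∈ N p, ind (B i) (Q.v p) u = 1 then (1 : ℝ) else 0) := by
        simp only [mul_add, Finset.sum_add_distrib]
        congr 1
        rw [Finset.sum_comm, Finset.mul_sum]
        refine Finset.sum_congr rfl fun i _ => ?_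
        rw [← Finset.mul_sum]; ring
    _ ≤ _ := by
        have := Finset.sum_le_sum hspl
        rw [← Finset.mul_sum] at this
        linarith

end Crest.Agent.N206.PL
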