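import Crest.Agent.N206.PL.Basic2

/-!
# Row 206, S0317: one scale noise `noise : KPRStmt → NoiseStmt` (helper62)
-/

set_option autoImplicit false

noncomputable section

open scoped Classical

namespace Crest.Agent.N206.PL

open Crest.GeometryTopology.GraphMetric Crest.Agent.R206.Iface534 SimpleGraph

/-- truncated distance to the other cells -/
theorem exists_depth {V κ : Type} [Fintype V] {G : SimpleGraph V} {ℓ : Sym2 V → ℝ} {δ : ℝ}
    (hw : WG G ℓ δ) (c : V → κ) {r : ℝ} (hr : 0 ≤ r) :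
    ∃ h : V → ℝ, (∀ v, 0 ≤ h v) ∧ (∀ v, h v ≤ r) ∧ (∀ v z, c z ≠ c v → h v ≤ wdist G ℓ v z) ∧
      (∀ x y, c x = c y → h x ≤ h y + wdist G ℓ x y) ∧
      ∀ v, (∀ y ∈ bl G ℓ v r, c y = c v) → h v = r := by
  have key : ∀ v, ∃ a : ℝ, a ≤ r ∧ (∀ z, c z ≠ c v → a ≤ wdist G ℓ v z) ∧
      (a = r ∨ ∃ z, c z ≠ c v ∧ a = wdist G ℓ v z) := by
    intro v
    by_cases h : ∃ z, c z ≠ c v ∧ wdist G ℓ v z ≤ r
    · obtain ⟨z₀, hz₀⟩ := h
      obtain ⟨z, hz, hmin⟩ := Finset.exists_min_image (Finset.univ.filter fun z => c z ≠ c v)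
        (fun z => wdist G ℓ v z) ⟨z₀, by simpa using hz₀.1⟩
      exact ⟨wdist G ℓ v z, (hmin z₀ (by simpa using hz₀.1)).trans hz₀.2,
        fun y hy => hmin y (by simpa using hy), Or.inr ⟨z, by simpa using hz, rfl⟩⟩
    · push Not at h
      exact ⟨r, le_rfl, fun z hz => (h z hz).le, Or.inl rfl⟩
  choose h h1 h2 h3 using key
  refine ⟨h, fun v => ?_, h1, h2, fun x y hxy => ?_, fun v hv => ?_⟩
  · rcases h3 v with e | ⟨z, -, e⟩ <;> rw [e]
    · exact hr
    · exact hw.nonneg _ _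
  · rcases h3 y with e | ⟨z, hz, e⟩ <;> rw [e]
    · linarith [h1 x, hw.nonneg x y]
    · linarith [h2 x z (hxy ▸ hz), hw.tri x y z]
  · rcases h3 v with e | ⟨z, hz, e⟩
    · exact e
    · exact absurd (hv z (show wdist G ℓ v z ≤ r from e ▸ h1 v)) hz

theorem noise (kpr : KPRStmt) : NoiseStmt := by
  obtain ⟨Δ, hΔ, kpr⟩ := kpr
  refine ⟨1 / (8 * Δ), 1 / (4 * Δ), by positivity, by positivity, ?_⟩
  intro V _ G ℓ δ hw hm D hD hδ χ hχ hlip ι _ a b ω hω hab
  set r : ℝ := 1 / (4 * Δ) * D with hr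
  have hr0 : 0 < r := by positivity
  have hrD : 1 / (4 * Δ) ≤ 1 := by rw [div_le_one (by positivity)]; linarith
  obtain ⟨c, -, hc, hpad⟩ := kpr V G ℓ δ hw hm r (1 / 2) hr0 (by norm_num) (by norm_num) hδ ι a
    (fun i => ω i * min D (χ (a i))) fun i => mul_nonneg (hω i) (le_min hD.le (hχ _))
  have hdiam : Δ * r / (1 / 2) = D / 2 := by rw [hr]; field_simp; norm_num
  rw [hdiam] at hc
  obtain ⟨h, h0, -, h2, h3, h4⟩ := exists_depth hw c hr0.le
  set g : V → ℝ := fun v => min (χ v) (h v) with hg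
  have g0 : ∀ v, 0 ≤ g v := fun v => le_min (hχ v) (h0 v)
  refine ⟨_, IsCut.cells c g, fun x y hxy => ?_, fun x y hx hy => ?_, ?_⟩
  · have e1 := hw.edge hxy
    have e2 := hw.comm x y
    have e3 := hw.adj_pos hxy
    split_ifs with hcxy
    · have a1 := h3 x y hcxy
      have a2 := h3 y x hcxy.symm
      have a3 := abs_le.1 (hlip x y hxy)
      have : |g x - g y| ≤ ℓ s(x, y) := by
        simp only [hg, min_def]
        rw [abs_le]
        split_ifs <;> constructor <;> linarith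
      linarith
    · have a1 := h2 x y (Ne.symm hcxy)
      have a2 := h2 y x hcxy
      rw [abs_of_nonneg (g0 x), abs_of_nonneg (g0 y)]
      linarith [min_le_right (χ x) (h x), min_le_right (χ y) (h y)]
  · have a1 : g x = 0 := le_antisymm (hx ▸ min_le_left _ _) (g0 x)
    have a2 : g y = 0 := le_antisymm (hy ▸ min_le_left _ _) (g0 y)
    simp [a1, a2]
  · have key : ∀ i, 1 / (4 * Δ) * (ω i * min D (χ (a i)) -
        if ∀ y ∈ bl G ℓ (a i) r, c y = c (a i) then 0 else ω i * min D (χ (a i))) ≤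
        ω i * if c (a i) = c (b i) then |g (a i) - g (b i)| else |g (a i)| + |g (b i)| := by
      intro i
      have hne : c (a i) ≠ c (b i) := fun e => by linarith [hc _ _ e, hab i]
      rw [if_neg hne, abs_of_nonneg (g0 _), abs_of_nonneg (g0 _)]
      split_ifs with hp
      · have a1 : 1 / (4 * Δ) * min D (χ (a i)) ≤ g (a i) := by
          refine le_min ?_ ?_
          · exact (mul_le_of_le_one_left (le_min hD.le (hχ _)) hrD).trans (min_le_right _ _)
          · rw [h4 _ hp, hr]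
            exact mul_le_mul_of_nonneg_left (min_le_left _ _) (by positivity)
        have := mul_le_mul_of_nonneg_left (a1.trans (le_add_of_nonneg_right (g0 (b i)))) (hω i)
        linarith
      · simpa using mul_nonneg (hω i) (add_nonneg (g0 _) (g0 _))
    refine le_trans ?_ (Finset.sum_le_sum fun i _ => key i)
    rw [← Finset.mul_sum, Finset.sum_sub_distrib]
    have e : 1 / (8 * Δ) = 1 / (4 * Δ) * (1 / 2) := by field_simp; norm_num
    rw [e, mul_assoc]
    exact mul_le_mul_of_nonneg_left (by linarith) (by positivity)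

end Crest.Agent.N206.PL
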