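import Crest.Agent.N206.PL.Portal1

/-! # Row 206, S0317: the deterministic portal lemma (helper20; proof of helper55's note) -/

set_option autoImplicit false

noncomputable section

open scoped Classical

namespace Crest.Agent.N206.PL.Port

open Crest.GeometryTopology.GraphMetric Crest.Agent.R206.Iface534 SimpleGraph

variable {V : Type} {G : SimpleGraph V} {ℓ : Sym2 V → ℝ} {δ : ℝ}

/-- the points of `K` reached through `C` within length `r` are covered by few balls -/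
def Thin (G : SimpleGraph V) (ℓ : Sym2 V → ℝ) (r ε : ℝ) (N : ℕ) (C K : Set V) : Prop :=
  ∀ x₀, Cov G ℓ {z | z ∈ K ∧ In G ℓ (insert z C) x₀ z r} N ε

theorem Thin.mono {r ε : ℝ} {N : ℕ} {C K C' K' : Set V} (h : Thin G ℓ r ε N C K) (hC : C' ⊆ C)
    (hK : K' ⊆ K) : Thin G ℓ r ε N C' K' := fun x₀ => (h x₀).mono
  (fun _ hz => ⟨hK hz.1, hz.2.mono (Set.insert_subset_insert hC) le_rfl⟩) le_rfl

/-- properties of the cop decomposition of `C` at `y` -/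
structure Good (G : SimpleGraph V) (ℓ : Sym2 V → ℝ) (r ε : ℝ) (N : ℕ) (C : Set V) (dom : V → Set V)
    (y : V) : Prop where
  mem : y ∈ dom y
  sub : dom y ⊆ C
  nest : ∀ y' ∈ dom y, dom y' ⊆ dom y
  up : ∀ y' ∈ dom y, ∀ z ∈ C, G.Adj y' z → z ∉ dom y → dom y ⊂ dom z
  out : ∀ x₀, Cov G ℓ {z | z ∉ dom y ∧ (∃ y' ∈ dom y, G.Adj y' z) ∧
    In G ℓ (insert z (dom y)) x₀ z r} (3 * (4 * (N + 1))) ε
  node : Thin G ℓ r ε (4 * (N + 1)) (dom y) {z | z ∈ C ∧ dom z = dom y}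

theorem decomp [Fintype V] (h : WG G ℓ δ) (hM : MF G) {r ε : ℝ} {N : ℕ} (hε : 0 < ε)
    (hN : 2 * r ≤ N * ε) (n : ℕ) : ∀ C : Set V, C.ncard < n → Cn G C → ∀ 𝒦 : Finset (Set V),
    (∀ K ∈ 𝒦, Cn G K ∧ Disjoint K C ∧ Tch G K C ∧ Thin G ℓ r ε (4 * (N + 1)) C K) →
    (∀ K ∈ 𝒦, ∀ K' ∈ 𝒦, K ≠ K' → Disjoint K K' ∧ Tch G K K') →
    (∀ y ∈ C, ∀ z, G.Adj y z → z ∉ C → ∃ K ∈ 𝒦, z ∈ K) →
    ∃ dom : V → Set V, ∀ y ∈ C, Good G ℓ r ε N C dom y := by
  induction n with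
  | zero => intro C hC; omega
  | succ n ih =>
  intro C hn hC 𝒦 h1 h2 h3
  obtain ⟨ρ, hρ⟩ := hC.1
  have hcard : 𝒦.card ≤ 3 := by
    have hnot : C ∉ 𝒦 := fun hm => Set.disjoint_left.1 (h1 C hm).2.1 hρ hρ
    have := clique_le hM (insert C 𝒦) (fun X hX => by
      rcases Finset.mem_insert.1 hX with rfl | hX
      exacts [hC, (h1 X hX).1]) fun X hX Y hY hne => by
        rcases Finset.mem_insert.1 hX with rfl | hX' <;>
          rcases Finset.mem_insert.1 hY with rfl | hY'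
        · exact absurd rfl hne
        · exact ⟨(h1 Y hY').2.1.symm, Tch_symm (h1 Y hY').2.2.1⟩
        · exact ⟨(h1 X hX').2.1, (h1 X hX').2.2.1⟩
        · exact h2 X hX' Y hY' hne
    rw [Finset.card_insert_of_notMem hnot] at this
    omega
  have hb : ∀ K ∈ 𝒦, ∃ b ∈ C, ∃ a ∈ K, G.Adj a b := fun K hK =>
    let ⟨a, ha, b, hb, e⟩ := (h1 K hK).2.2.1
    ⟨b, hb, a, ha, e⟩
  have : Nonempty V := ⟨ρ⟩
  choose! b hbC hbK using hb
  set B : Finset V := insert ρ (𝒦.image b) with hB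
  have hBC : ∀ x ∈ B, x ∈ C := fun x hx => by
    rcases Finset.mem_insert.1 hx with rfl | hx
    · exact hρ
    · obtain ⟨K, hK, rfl⟩ := Finset.mem_image.1 hx
      exact hbC K hK
  have hB4 : B.card ≤ 4 :=
    (Finset.card_insert_le _ _).trans (by linarith [Finset.card_image_le (s := 𝒦) (f := b)])
  have hgeo : ∀ x ∈ B, ∃ P : Set V, P ⊆ C ∧ x ∈ P ∧ (∀ z ∈ P, ∃ s, In G ℓ P ρ z s) ∧
      ∀ x₀, Cov G ℓ {z | z ∈ P ∧ In G ℓ C x₀ z r} (N + 1) ε := fun x hx =>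
    let ⟨p, g1, g2⟩ := exists_geo h hC hρ (hBC x hx) hε hN
    ⟨{v | v ∈ p.support}, g1, p.end_mem_support, fun z hz => ⟨_, in_support h p z hz⟩, g2⟩
  choose! P hP1 hP2 hP3 hP4 using hgeo
  set η : Set V := {z | ∃ x ∈ B, z ∈ P x} with hη
  have hηC : η ⊆ C := fun z ⟨x, hx, hz⟩ => hP1 x hx hz
  have hρη : ρ ∈ η := ⟨ρ, Finset.mem_insert_self _ _, hP2 ρ (Finset.mem_insert_self _ _)⟩
  have hηcn : Cn G η := cn_of_in (ℓ := ℓ) hρη fun z ⟨x, hx, hz⟩ =>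
    let ⟨s, hs⟩ := hP3 x hx z hz
    ⟨s, hs.mono (fun v hv => ⟨x, hx, hv⟩) le_rfl⟩
  have hηthin : Thin G ℓ r ε (4 * (N + 1)) C η := fun x₀ =>
    (cov_biUnion B _ fun x hx => hP4 x hx x₀).mono (fun z ⟨⟨x, hx, hz⟩, hi⟩ =>
      ⟨x, hx, hz, by rwa [Set.insert_eq_of_mem (hP1 x hx hz)] at hi⟩) (Nat.mul_le_mul_right _ hB4)
  have hrec : ∀ C' : Set V, (∃ y ∈ C \ η, C' = cp G ℓ (C \ η) y) →
      ∃ dom : V → Set V, ∀ y ∈ C', Good G ℓ r ε N C' dom y := by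
    rintro _ ⟨y, hy, rfl⟩
    have hsub : cp G ℓ (C \ η) y ⊆ C := cp_sub.trans Set.sdiff_subset
    have hmem : ∀ K ∈ (insert η 𝒦).filter fun K => Tch G K (cp G ℓ (C \ η) y),
        (K = η ∨ K ∈ 𝒦) ∧ Tch G K (cp G ℓ (C \ η) y) := fun K hK =>
      ⟨Finset.mem_insert.1 (Finset.mem_filter.1 hK).1, (Finset.mem_filter.1 hK).2⟩
    have hηK : ∀ K ∈ 𝒦, Disjoint K η ∧ Tch G K η := fun K hK =>
      ⟨(h1 K hK).2.1.mono_right hηC,
        let ⟨a, ha, e⟩ := hbK K hK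
        have hx := Finset.mem_insert_of_mem (b := ρ) (Finset.mem_image_of_mem b hK)
        ⟨a, ha, b K, ⟨b K, hx, hP2 _ hx⟩, e⟩⟩
    refine ih _ ?_ (cn_cp h hy) ((insert η 𝒦).filter fun K => Tch G K (cp G ℓ (C \ η) y))
      (fun K hK => ?_) (fun K hK K' hK' hne => ?_) fun y' hy' z e hz => ?_
    · have := Set.ncard_lt_ncard (s := cp G ℓ (C \ η) y) (t := C)
        ⟨hsub, fun hh => (cp_sub (hh hρ)).2 hρη⟩
      omega
    · obtain ⟨rfl | hK', ht⟩ := hmem K hK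
      · exact ⟨hηcn, Set.disjoint_left.2 fun z hz hz' => (cp_sub hz').2 hz, ht,
          hηthin.mono hsub subset_rfl⟩
      · exact ⟨(h1 K hK').1, (h1 K hK').2.1.mono_right hsub, ht,
          (h1 K hK').2.2.2.mono hsub subset_rfl⟩
    · obtain ⟨rfl | hK1, -⟩ := hmem K hK <;> obtain ⟨rfl | hK2, -⟩ := hmem K' hK'
      · exact absurd rfl hne
      · exact ⟨(hηK K' hK2).1.symm, Tch_symm (hηK K' hK2).2⟩
      · exact hηK K hK1
      · exact h2 K hK1 K' hK2 hne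
    · by_cases hzC : z ∈ C
      · have hzη : z ∈ η := by
          by_contra hh
          exact hz (cp_adj hy' ⟨hzC, hh⟩ e)
        exact ⟨η, Finset.mem_filter.2 ⟨Finset.mem_insert_self _ _, z, hzη, y', hy', e.symm⟩, hzη⟩
      · obtain ⟨K, hK, hzK⟩ := h3 y' (hsub hy') z e hzC
        exact ⟨K, Finset.mem_filter.2 ⟨Finset.mem_insert_of_mem hK, z, hzK, y', hy', e.symm⟩, hzK⟩
  choose! dd hdd using hrec
  set dom : V → Set V := fun y => if y ∈ η then C else dd (cp G ℓ (C \ η) y) y with hdom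
  have d1 : ∀ y ∈ η, dom y = C := fun y hy => if_pos hy
  have d2 : ∀ y ∈ C \ η, ∀ z ∈ cp G ℓ (C \ η) y, dom z = dd (cp G ℓ (C \ η) y) z :=
    fun y _ z hz => by rw [← cp_eq hz]; exact if_neg (cp_sub hz).2
  have d3 : ∀ y ∈ C \ η, Good G ℓ r ε N (cp G ℓ (C \ η) y) (dd (cp G ℓ (C \ η) y)) y :=
    fun y hy => hdd _ ⟨y, hy, rfl⟩ y (mem_cp hy)
  have d4 : ∀ y ∈ C \ η, y ∈ dom y ∧ dom y ⊆ cp G ℓ (C \ η) y := fun y hy => by
    rw [d2 y hy y (mem_cp hy)]; exact ⟨(d3 y hy).mem, (d3 y hy).sub⟩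
  have d5 : ∀ y ∈ C \ η, dom y ⊂ C := fun y hy =>
    ⟨(d4 y hy).2.trans (cp_sub.trans Set.sdiff_subset), fun hh => (cp_sub ((d4 y hy).2 (hh hρ))).2 hρη⟩
  refine ⟨dom, fun y hy => ?_⟩
  by_cases hyη : y ∈ η
  · have e := d1 y hyη
    refine ⟨e ▸ hy, e.le, fun y' hy' => ?_, fun _ _ z hz _ hz' => absurd (e ▸ hz) hz',
      fun x₀ => ?_, ?_⟩
    · rw [e] at hy' ⊢
      by_cases hh : y' ∈ η
      exacts [(d1 y' hh).le, (d5 y' ⟨hy', hh⟩).le]
    · rw [e]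
      exact (cov_biUnion 𝒦 _ fun K hK => (h1 K hK).2.2.2 x₀).mono
        (fun z ⟨g1, ⟨y', g2, g3⟩, g4⟩ =>
          let ⟨K, hK, hz⟩ := h3 y' g2 z g3 g1
          ⟨K, hK, hz, g4⟩) (Nat.mul_le_mul_right _ hcard)
    · rw [e]
      refine hηthin.mono subset_rfl fun z hz => ?_
      by_contra hh
      exact (d5 z ⟨hz.1, hh⟩).ne hz.2
  · have hy' : y ∈ C \ η := ⟨hy, hyη⟩
    have g := d3 y hy'
    have e := d2 y hy' y (mem_cp hy')
    refine ⟨(d4 y hy').1, (d5 y hy').le, fun y' h' => ?_, fun y' h' z hz a hz' => ?_, ?_, ?_⟩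
    · rw [d2 y hy' y' ((d4 y hy').2 h'), e]
      exact g.nest y' (e ▸ h')
    · by_cases hh : z ∈ η
      · rw [d1 z hh]; exact d5 y hy'
      · have hz2 := cp_adj ((d4 y hy').2 h') ⟨hz, hh⟩ a
        rw [d2 y hy' z hz2, e]
        exact g.up y' (e ▸ h') z hz2 a (e ▸ hz')
    · rw [e]; exact g.out
    · rw [e]
      refine g.node.mono subset_rfl fun z hz => ?_
      have hh : z ∉ η := fun hh => (d5 y hy').ne (e.trans (hz.2.symm.trans (d1 z hh)))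
      have hz2 : z ∈ cp G ℓ (C \ η) y := g.sub (hz.2 ▸ (d4 z ⟨hz.1, hh⟩).1)
      exact ⟨hz2, (d2 y hy' z hz2).symm.trans hz.2⟩

/-- size of the hitting sets -/
def hitM (k : ℕ) : ℕ → ℕ
  | 0 => 0
  | s + 1 => k + k + k * hitM k s

/-- the induction on cores -/
theorem hit (h : WG G ℓ δ) {ι : Type} (v : ι → V) (C R Γ : ι → Set V) (rk : ι → ℕ) {k : ℕ} {ε : ℝ}
    (hε : 0 ≤ ε) (h0 : ∀ I, ∀ z ∈ R I, z ∉ C I) (h1 : ∀ I, Cov G ℓ (R I) k ε)
    (h2 : ∀ I, Cov G ℓ (Γ I) k ε)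
    (h3 : ∀ I, ∀ y ∈ Γ I, bl G ℓ y (6 * ε) ⊆ C I ∨ wdist G ℓ (v I) y ≤ 12 * ε)
    (h4 : ∀ I₀, ∃ H : Finset V, H.card ≤ k ∧ ∀ I, rk I₀ ≤ rk I →
      (∃ g ∈ H, wdist G ℓ (v I) g ≤ 24 * ε) ∨ ∃ y ∈ Γ I₀, y ∈ R I) (s : ℕ) :
    ∀ W : Finset V, W.card + s = k + 1 → (∀ w ∈ W, ∀ w' ∈ W, w ≠ w' → 4 * ε < wdist G ℓ w w') →
    ∀ F : Set ι, (∀ I ∈ F, ∀ w ∈ W, ∃ z ∈ R I, wdist G ℓ z w ≤ ε) →
    ∃ H : Finset V, H.card ≤ hitM k s ∧ ∀ I ∈ F, ∃ g ∈ H, wdist G ℓ (v I) g ≤ 24 * ε := by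
  have tri := wdist_triangle h.conn h.pos
  have com := wdist_comm h.conn h.pos
  induction s with
  | zero =>
    intro W hW hsep F hF
    refine ⟨∅, le_rfl, fun I hI => absurd hW ?_⟩
    obtain ⟨H, g1, g2⟩ := h1 I
    have hex : ∀ w ∈ W, ∃ g ∈ H, wdist G ℓ w g ≤ 2 * ε := fun w hw => by
      obtain ⟨z, hz, a1⟩ := hF I hI w hw
      obtain ⟨g, hg, a2⟩ := g2 z hz
      exact ⟨g, hg, by linarith [tri w z g, com w z]⟩
    have : Nonempty V := ⟨v I⟩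
    choose! g hg hg' using hex
    have := Finset.card_le_card_of_injOn g hg fun w hw w' hw' e => by
      by_contra hne
      have a1 := hg' w hw
      rw [e] at a1
      linarith [hsep w hw w' hw' hne, tri w (g w') w', com (g w') w', hg' w' hw']
    omega
  | succ s ih =>
    intro W hW hsep F hF
    set F' : Set ι := {I | I ∈ F ∧ ∀ w ∈ W, 24 * ε < wdist G ℓ (v I) w} with hF'
    have hdrop : ∀ I ∈ F, I ∉ F' → ∃ g ∈ W, wdist G ℓ (v I) g ≤ 24 * ε := fun I hI hI' => by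
      by_contra hh
      push Not at hh
      exact hI' ⟨hI, hh⟩
    rcases F'.eq_empty_or_nonempty with he | hne
    · exact ⟨W, by rw [hitM]; omega, fun I hI => hdrop I hI (by simp [he])⟩
    obtain ⟨I₀, hI₀, hmin⟩ := (measure rk).wf.has_min F' hne
    obtain ⟨H₀, a1, a2⟩ := h4 I₀
    obtain ⟨G₀, b1, b2⟩ := h2 I₀
    have hex : ∀ g, ∃ H : Finset V, H.card ≤ hitM k s ∧ ∀ I ∈ F',
        (∃ y ∈ Γ I₀, y ∈ R I ∧ wdist G ℓ y g ≤ ε) → ∃ g ∈ H, wdist G ℓ (v I) g ≤ 24 * ε := by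
      intro g
      by_cases hy : ∃ y ∈ Γ I₀, wdist G ℓ y g ≤ ε
      · obtain ⟨y, hy, hyg⟩ := hy
        have hfar : ∀ w ∈ W, 4 * ε < wdist G ℓ g w := fun w hw => by
          rcases h3 I₀ y hy with c | c
          · obtain ⟨z, hz, c1⟩ := hF I₀ hI₀.1 w hw
            have c2 : 6 * ε < wdist G ℓ y z := not_le.1 fun c2 => h0 I₀ z hz (c c2)
            linarith [tri y g z, tri g w z, com w z]
          · linarith [hI₀.2 w hw, tri (v I₀) y w, tri y g w]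
        have hgW : g ∉ W := fun hg => by
          linarith [hfar g hg, wdist_self h.conn h.pos g]
        obtain ⟨H, c1, c2⟩ := ih (insert g W) (by rw [Finset.card_insert_of_notMem hgW]; omega)
          (fun w hw w' hw' hne => by
            rcases Finset.mem_insert.1 hw with rfl | hw1 <;>
              rcases Finset.mem_insert.1 hw' with rfl | hw2
            · exact absurd rfl hne
            · exact hfar w' hw2
            · rw [com]; exact hfar w hw1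
            · exact hsep w hw1 w' hw2 hne)
          {I | I ∈ F' ∧ ∃ y ∈ Γ I₀, y ∈ R I ∧ wdist G ℓ y g ≤ ε} fun I hI w hw => by
            rcases Finset.mem_insert.1 hw with rfl | hw
            · obtain ⟨y, -, c⟩ := hI.2
              exact ⟨y, c⟩
            · exact hF I hI.1.1 w hw
        exact ⟨H, c1, fun I hI hI' => c2 I ⟨hI, hI'⟩⟩
      · exact ⟨∅, Nat.zero_le _, fun I _ ⟨y, c1, _, c2⟩ => absurd ⟨y, c1, c2⟩ hy⟩
    choose H c1 c2 using hex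
    refine ⟨W ∪ H₀ ∪ G₀.biUnion H, ?_, fun I hI => ?_⟩
    · have e1 := Finset.card_union_le (W ∪ H₀) (G₀.biUnion H)
      have e2 := Finset.card_union_le W H₀
      have e3 := Finset.card_biUnion_le_card_mul G₀ H _ fun g _ => c1 g
      have e4 := Nat.mul_le_mul_right (hitM k s) b1
      rw [hitM]; omega
    by_cases hI' : I ∈ F'
    · rcases a2 I (not_lt.1 (hmin I hI')) with ⟨g, hg, c⟩ | ⟨y, hy, hyR⟩
      · exact ⟨g, by simp [hg], c⟩
      · obtain ⟨g, hg, c⟩ := b2 y hy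
        obtain ⟨g', hg', c'⟩ := c2 g I hI' ⟨y, hy, hyR, c⟩
        exact ⟨g', Finset.mem_union_right _ (Finset.mem_biUnion.2 ⟨g, hg, hg'⟩), c'⟩
    · obtain ⟨g, hg, c⟩ := hdrop I hI hI'
      exact ⟨g, by simp [hg], c⟩

theorem geo_in (Q : Geo G ℓ) {i j : ℕ} (hj : j ≤ Q.n) {a b : ℕ} (ha : i ≤ a) (hab : a ≤ b)
    (hb : b ≤ j) : In G ℓ {y | ∃ k, i ≤ k ∧ k ≤ j ∧ y = Q.v k} (Q.v a) (Q.v b) (Q.pos b - Q.pos a) := by
  induction b, hab using Nat.le_induction with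
  | base => exact In.refl (by exact ⟨a, ha, hb, rfl⟩) (by simp)
  | succ b hab ih =>
    refine ((ih (by omega)).trans (In.adj (by exact ⟨b, by omega, by omega, rfl⟩)
      (by exact ⟨b + 1, by omega, hb, rfl⟩) (Q.adj b (by omega)))).mono subset_rfl ?_
    rw [Q.step b (by omega)]; linarith

theorem geo_in' (h : WG G ℓ δ) (Q : Geo G ℓ) {i j : ℕ} (hj : j ≤ Q.n) {a b : ℕ} (ha : i ≤ a)
    (ha' : a ≤ j) (hb : i ≤ b) (hb' : b ≤ j) :
    In G ℓ {y | ∃ k, i ≤ k ∧ k ≤ j ∧ y = Q.v k} (Q.v a) (Q.v b) (Q.pos j - Q.pos i) := by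
  have mono : ∀ a b, a ≤ b → b ≤ j → Q.pos a ≤ Q.pos b := fun a b h1 h2 => by
    linarith [Q.dist a b h1 (h2.trans hj), wdist_nonneg h.conn h.pos (Q.v a) (Q.v b)]
  rcases le_total a b with hab | hab
  · exact (geo_in Q hj ha hab hb').mono subset_rfl (by linarith [mono i a ha ha', mono b j hb' le_rfl])
  · exact (geo_in Q hj hb hab ha').symm.mono subset_rfl
      (by linarith [mono i b hb hb', mono a j ha' le_rfl])

end Port

open Port Crest.GeometryTopology.GraphMetric Crest.Agent.R206.Iface534 in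
theorem portal : PortalStmt := by
  intro A
  obtain ⟨N, hN⟩ := exists_nat_ge (24 * (|A| + 2))
  refine ⟨hitM (3 * (4 * (N + 1))) (3 * (4 * (N + 1)) + 1), fun V _ G ℓ δ h hM D hD => ?_⟩
  have tri := wdist_triangle h.conn h.pos
  have com := wdist_comm h.conn h.pos
  have self := wdist_self h.conn h.pos
  have hε : 0 < D / 12 := by positivity
  have hA := abs_nonneg A
  have hN' : 2 * ((|A| + 2) * D) ≤ N * (D / 12) := by nlinarith
  obtain ⟨dom, hdom⟩ := decomp h hM hε hN' (Set.ncard (Set.univ : Set V) + 1) Set.univ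
    (Nat.lt_succ_self _) ⟨h.conn.nonempty.elim fun x => ⟨x, trivial⟩, fun x _ y _ =>
      (h.conn.preconnected x y).elim fun p => ⟨p, fun _ _ => trivial⟩⟩ ∅ (by simp) (by simp)
    (by simp)
  replace hdom := fun y => hdom y trivial
  have hex : ∀ y, ∃ a, wdist G ℓ y a ≤ D ∧ ∀ z, wdist G ℓ y z ≤ D → (dom z).ncard ≤ (dom a).ncard :=
    fun y => by
      obtain ⟨a, ha, hmax⟩ := Finset.exists_max_image (Finset.univ.filter fun z => wdist G ℓ y z ≤ D)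
        (fun z => (dom z).ncard) ⟨y, by simp [self, hD.le]⟩
      exact ⟨a, by simpa using ha, by simpa using hmax⟩
  choose a ha hmax using hex
  have hle : ∀ S : Set V, S.ncard ≤ Fintype.card V := fun S => by
    simpa [Set.ncard_univ] using Set.ncard_le_ncard (Set.subset_univ S)
  refine ⟨fun y => Fintype.card V - (dom (a y)).ncard, fun x₀ => ?_⟩
  let ι := {x : Geo G ℓ × ℕ × ℕ × ℕ × ℕ // x.2.1 ≤ x.2.2.2.1 ∧ x.2.2.2.1 ≤ x.2.2.1 ∧
    x.2.1 ≤ x.2.2.2.2 ∧ x.2.2.2.2 ≤ x.2.2.1 ∧ x.2.2.1 ≤ x.1.n ∧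
    x.1.pos x.2.2.1 - x.1.pos x.2.1 ≤ A * D ∧ wdist G ℓ x₀ (x.1.v x.2.2.2.1) ≤ D / 2 ∧
    ∀ k', x.2.1 ≤ k' → k' ≤ x.2.2.1 → Fintype.card V - (dom (a (x.1.v x.2.2.2.2))).ncard ≤
      Fintype.card V - (dom (a (x.1.v k'))).ncard}
  let v : ι → V := fun I => I.1.1.v I.1.2.2.2.2
  have key : ∀ I : ι, ∃ p : G.Walk x₀ (a (v I)), wl ℓ p ≤ (|A| + 2) * D ∧
      ∀ y ∈ p.support, y ∈ dom (a (v I)) ∧
        (bl G ℓ y (6 * (D / 12)) ⊆ dom (a (v I)) ∨ wdist G ℓ (v I) y ≤ 12 * (D / 12)) := by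
    rintro ⟨⟨Q, i, j, k, m⟩, g1, g2, g3, g4, g5, g6, g7, g8⟩
    dsimp only at g1 g2 g3 g4 g5 g6 g7 g8
    dsimp only [v]
    have hq : ∀ {b c}, i ≤ b → b ≤ j → i ≤ c → c ≤ j →
        In G ℓ {y | ∃ k, i ≤ k ∧ k ≤ j ∧ y = Q.v k} (Q.v b) (Q.v c) (|A| * D) :=
      fun b1 b2 c1 c2 => (geo_in' h Q g5 b1 b2 c1 c2).mono subset_rfl
        (g6.trans (by gcongr; exact le_abs_self A))
    have hin : ∀ k', i ≤ k' → k' ≤ j → bl G ℓ (Q.v k') D ⊆ dom (a (Q.v m)) := fun k' c1 c2 y hy => by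
      have hS : ∀ k'', i ≤ k'' → k'' ≤ j →
          bl G ℓ (Q.v k'') D ⊆ {z | (dom z).ncard ≤ (dom (a (Q.v m))).ncard} := fun k'' d1 d2 z hz => by
        have e1 := hmax _ z hz
        have e2 : Fintype.card V - (dom (a (Q.v m))).ncard ≤
          Fintype.card V - (dom (a (Q.v k''))).ncard := g8 k'' d1 d2
        have e3 := hle (dom (a (Q.v k'')))
        have e4 := hle (dom (a (Q.v m)))
        show (dom z).ncard ≤ _
        omega
      have w := (((in_ball h (ha (Q.v m))).symm.mono (hS m g3 g4) le_rfl).trans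
        ((hq g3 g4 c1 c2).mono (fun z ⟨k'', d1, d2, e⟩ => hS k'' d1 d2
          (show wdist G ℓ _ _ ≤ D by rw [e, self]; exact hD.le)) le_rfl)).trans
        ((in_ball h hy).mono (hS k' c1 c2) le_rfl)
      refine w.closed (fun y' hy' z hz e => ?_) (hdom _).mem
      by_contra hh
      exact absurd (Set.ncard_lt_ncard ((hdom _).up y' hy' z trivial e hh)) (not_lt.2 hz)
    have hb : ∀ k', i ≤ k' → k' ≤ j → bl G ℓ (Q.v k') (D / 2) ⊆ {y | y ∈ dom (a (Q.v m)) ∧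
        (bl G ℓ y (6 * (D / 12)) ⊆ dom (a (Q.v m)) ∨ wdist G ℓ (Q.v m) y ≤ 12 * (D / 12))} :=
      fun k' c1 c2 y (hy : wdist G ℓ _ _ ≤ _) =>
        ⟨hin k' c1 c2 (show wdist G ℓ _ _ ≤ D by linarith),
          Or.inl fun z (hz : wdist G ℓ _ _ ≤ _) => hin k' c1 c2
            (show wdist G ℓ _ _ ≤ D by linarith [tri (Q.v k') y z])⟩
    obtain ⟨p, c1, c2⟩ := (((in_ball h (com x₀ _ ▸ g7)).symm.mono (hb k g1 g2) le_rfl).trans
      ((hq g1 g2 g3 g4).mono (fun z ⟨k'', d1, d2, e⟩ => hb k'' d1 d2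
        (show wdist G ℓ _ _ ≤ D / 2 by rw [e, self]; positivity)) le_rfl)).trans
      ((in_ball h (ha (Q.v m))).mono (fun z (hz : wdist G ℓ _ _ ≤ _) =>
        ⟨hin m g3 g4 hz, Or.inr (by linarith)⟩) le_rfl)
    exact ⟨p, by linarith, c1⟩
  choose p hp1 hp2 using key
  obtain ⟨H, c1, c2⟩ := hit h v (fun I => dom (a (v I)))
    (fun I => {z | z ∉ dom (a (v I)) ∧ (∃ y' ∈ dom (a (v I)), G.Adj y' z) ∧
      In G ℓ (insert z (dom (a (v I)))) x₀ z ((|A| + 2) * D)})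
    (fun I => {y | y ∈ (p I).support}) (fun I => Fintype.card V - (dom (a (v I))).ncard) hε.le
    (fun _ _ hz => hz.1) (fun I => (hdom _).out x₀)
    (fun I => (cov_walk h (p I) hε (N := N) (by nlinarith [hp1 I])).mono subset_rfl (by omega))
    (fun I y hy => (hp2 I y hy).2)
    (fun I₀ => by
      obtain ⟨H, c1, c2⟩ := (hdom (a (v I₀))).node x₀
      refine ⟨H, by omega, fun I hI => ?_⟩
      by_cases hm : a (v I₀) ∈ dom (a (v I))
      · have e : dom (a (v I₀)) = dom (a (v I)) := by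
          have := hle (dom (a (v I)))
          exact Set.eq_of_subset_of_ncard_le ((hdom _).nest _ hm) (by omega)
        obtain ⟨g, hg, c⟩ := c2 (a (v I)) ⟨⟨trivial, e.symm⟩, p I,
          fun y hy => Set.mem_insert_of_mem _ (e ▸ (hp2 I y hy).1), hp1 I⟩
        exact Or.inl ⟨g, hg, by linarith [tri (v I) (a (v I)) g, ha (v I)]⟩
      · obtain ⟨y, d1, d2, d3, d4⟩ := exit h (p I₀) (hp2 I x₀ (p I).start_mem_support).1 hm
        exact Or.inr ⟨y, d1, d2, d3, d4.mono subset_rfl (hp1 I₀)⟩)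
    _ ∅ (zero_add _) (by simp) Set.univ (by simp)
  refine ⟨H, c1, fun Q i j k m g1 g2 g3 g4 g5 g6 g7 g8 => ?_⟩
  obtain ⟨g, hg, c⟩ := c2 ⟨⟨Q, i, j, k, m⟩, g1, g2, g3, g4, g5, g6, g7, g8⟩ trivial
  exact ⟨g, hg, c.trans_eq (by ring)⟩

end Crest.Agent.N206.PL
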