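import Crest.Agent.N206.PL.Defs

/-! # Row 206, S0317: portal lemma, part 1: walks inside a set, covers, cop decomposition (helper20) -/

set_option autoImplicit false

noncomputable section

open scoped Classical

namespace Crest.Agent.N206.PL.Port

open Crest.GeometryTopology.GraphMetric Crest.Agent.R206.Iface534 SimpleGraph

variable {V : Type} {G : SimpleGraph V} {ℓ : Sym2 V → ℝ} {δ : ℝ}

/-- a walk from `x` to `y` inside `C` of length at most `r` -/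
def In (G : SimpleGraph V) (ℓ : Sym2 V → ℝ) (C : Set V) (x y : V) (r : ℝ) : Prop :=
  ∃ p : G.Walk x y, (∀ v ∈ p.support, v ∈ C) ∧ wl ℓ p ≤ r

theorem wl_nil (x : V) : wl ℓ (Walk.nil : G.Walk x x) = 0 := by simp [wl]

theorem wl_cons {x y z : V} (h : G.Adj x y) (p : G.Walk y z) :
    wl ℓ (Walk.cons h p) = ℓ s(x, y) + wl ℓ p := by simp [wl]

theorem wl_nn (h : WG G ℓ δ) {x y : V} (p : G.Walk x y) : 0 ≤ wl ℓ p := edges_sum_nonneg h.pos p

theorem adj_pos (h : WG G ℓ δ) {x y : V} (e : G.Adj x y) : 0 < ℓ s(x, y) := h.pos _ e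

theorem In.refl {C : Set V} {x : V} (hx : x ∈ C) {r : ℝ} (hr : 0 ≤ r) : In G ℓ C x x r :=
  ⟨.nil, by simpa using hx, by rwa [wl_nil]⟩

theorem In.adj {C : Set V} {x y : V} (hx : x ∈ C) (hy : y ∈ C) (e : G.Adj x y) :
    In G ℓ C x y (ℓ s(x, y)) := ⟨.cons e .nil, by simp [hx, hy], by simp [wl]⟩

theorem In.trans {C : Set V} {x y z : V} {r r' : ℝ} (h : In G ℓ C x y r) (h' : In G ℓ C y z r') :
    In G ℓ C x z (r + r') := by
  obtain ⟨p, h1, h2⟩ := h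
  obtain ⟨q, h3, h4⟩ := h'
  refine ⟨p.append q, fun v hv => ?_, ?_⟩
  · rcases (Walk.mem_support_append_iff _ _).1 hv with hv | hv
    exacts [h1 v hv, h3 v hv]
  · simp only [wl, Walk.edges_append, List.map_append, List.sum_append] at h2 h4 ⊢
    linarith

theorem In.symm {C : Set V} {x y : V} {r : ℝ} (h : In G ℓ C x y r) : In G ℓ C y x r := by
  obtain ⟨p, h1, h2⟩ := h
  refine ⟨p.reverse, fun v hv => h1 v (by simpa using hv), ?_⟩
  simpa only [wl, Walk.edges_reverse, List.map_reverse, List.sum_reverse] using h2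

theorem In.mono {C C' : Set V} {x y : V} {r r' : ℝ} (h : In G ℓ C x y r) (hC : C ⊆ C')
    (hr : r ≤ r') : In G ℓ C' x y r' :=
  let ⟨p, h1, h2⟩ := h
  ⟨p, fun v hv => hC (h1 v hv), h2.trans hr⟩

theorem In.left {C : Set V} {x y : V} {r : ℝ} (h : In G ℓ C x y r) : x ∈ C :=
  let ⟨p, h1, _⟩ := h
  h1 x p.start_mem_support

theorem In.right {C : Set V} {x y : V} {r : ℝ} (h : In G ℓ C x y r) : y ∈ C := h.symm.left

/-- a set closed under adjacency inside `C` -/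
theorem In.closed {C U : Set V} (hU : ∀ y ∈ U, ∀ z ∈ C, G.Adj y z → z ∈ U) {x y : V} {r : ℝ}
    (h : In G ℓ C x y r) (hx : x ∈ U) : y ∈ U := by
  obtain ⟨p, h1, -⟩ := h
  induction p with
  | nil => exact hx
  | cons e p ih => exact ih (hU _ hx _ (h1 _ (by simp)) e) fun v hv => h1 v (by simp [hv])

theorem in_support (h : WG G ℓ δ) {x y : V} (p : G.Walk x y) :
    ∀ z ∈ p.support, In G ℓ {v | v ∈ p.support} x z (wl ℓ p) := by
  induction p with
  | nil => intro z hz; obtain rfl : z = _ := by simpa using hz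
           exact In.refl (by simp) (wl_nil _).ge
  | cons e p ih =>
    intro z hz
    rcases List.mem_cons.1 ((Walk.support_cons _ _) ▸ hz) with rfl | hz
    · exact In.refl (by simp) (wl_nn h _)
    · exact ((In.adj (by simp) (by simp) e).trans
        ((ih z hz).mono (fun v hv => by simp [show v ∈ p.support from hv]) le_rfl)).mono subset_rfl
        (wl_cons _ _).ge

theorem In.dist (h : WG G ℓ δ) {C : Set V} {x y : V} {r : ℝ} (hi : In G ℓ C x y r) :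
    wdist G ℓ x y ≤ r :=
  let ⟨p, _, h2⟩ := hi
  (wdist_le_walk h.pos p).trans h2

theorem exit (h : WG G ℓ δ) {C : Set V} {x a : V} (p : G.Walk x a) (hx : x ∈ C) (ha : a ∉ C) :
    ∃ y ∈ p.support, y ∉ C ∧ (∃ y' ∈ C, G.Adj y' y) ∧ In G ℓ (insert y C) x y (wl ℓ p) := by
  induction p with
  | nil => exact absurd hx ha
  | @cons x x' a e p ih =>
    by_cases hx' : x' ∈ C
    · obtain ⟨y, h1, h2, h3, h4⟩ := ih hx' ha
      exact ⟨y, by simp [h1], h2, h3, ((In.adj (Set.mem_insert_of_mem _ hx)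
        (Set.mem_insert_of_mem _ hx') e).trans h4).mono subset_rfl (wl_cons _ _).ge⟩
    · refine ⟨x', by simp, hx', ⟨x, hx, e⟩,
        (In.adj (Set.mem_insert_of_mem _ hx) (Set.mem_insert _ _) e).mono subset_rfl ?_⟩
      rw [wl_cons]; linarith [wl_nn h p]

theorem In.least [Fintype V] (h : WG G ℓ δ) {C : Set V} {x y : V} {r : ℝ} (hi : In G ℓ C x y r) :
    ∃ r₀, IsLeast {r | In G ℓ C x y r} r₀ := by
  have key : ∀ r, In G ℓ C x y r → ∃ p : G.Path x y, (∀ v ∈ p.1.support, v ∈ C) ∧ wl ℓ p.1 ≤ r := by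
    rintro r ⟨p, h1, h2⟩
    refine ⟨p.toPath, fun v hv => h1 v (p.support_toPath_subset_support hv), le_trans ?_ h2⟩
    refine (p.edges_bypass_sublist_edges.map ℓ).sum_le_sum fun a ha => ?_
    obtain ⟨e, he, rfl⟩ := List.mem_map.1 ha
    exact (h.pos e (p.edges_subset_edgeSet he)).le
  obtain ⟨p, h1, -⟩ := key r hi
  obtain ⟨q, hq, hmin⟩ := Finset.exists_min_image
    (Finset.univ.filter fun p : G.Path x y => ∀ v ∈ p.1.support, v ∈ C) (fun p => wl ℓ p.1)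
    ⟨p, by simpa using h1⟩
  refine ⟨wl ℓ q.1, ⟨q.1, by simpa using hq, le_rfl⟩, fun r hr => ?_⟩
  obtain ⟨p, h1, h2⟩ := key r hr
  exact (hmin p (by simpa using h1)).trans h2

/-- geodesics stay in the ball -/
theorem in_ball [Fintype V] (h : WG G ℓ δ) {x y : V} {D : ℝ} (hD : wdist G ℓ x y ≤ D) :
    In G ℓ (bl G ℓ x D) x y D := by
  obtain ⟨p⟩ := h.conn.preconnected x y
  obtain ⟨r, ⟨q, -, h2⟩, h3⟩ := In.least h (C := Set.univ) ⟨p, by simp, le_rfl⟩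
  have h4 : wl ℓ q ≤ D :=
    h2.trans ((le_wdist h.conn fun p => h3 ⟨p, by simp, le_rfl⟩).trans hD)
  exact ⟨q, fun v hv => ((in_support h q v hv).dist h).trans h4, h4⟩

/-- `R` is covered by `k` balls of radius `ε` -/
def Cov (G : SimpleGraph V) (ℓ : Sym2 V → ℝ) (R : Set V) (k : ℕ) (ε : ℝ) : Prop :=
  ∃ H : Finset V, H.card ≤ k ∧ ∀ z ∈ R, ∃ g ∈ H, wdist G ℓ z g ≤ ε

theorem Cov.mono {R R' : Set V} {k k' : ℕ} {ε : ℝ} (h : Cov G ℓ R k ε) (hR : R' ⊆ R) (hk : k ≤ k') :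
    Cov G ℓ R' k' ε :=
  let ⟨H, h1, h2⟩ := h
  ⟨H, h1.trans hk, fun z hz => h2 z (hR hz)⟩

theorem cov_biUnion {ι : Type} (I : Finset ι) (R : ι → Set V) {k : ℕ} {ε : ℝ}
    (h : ∀ i ∈ I, Cov G ℓ (R i) k ε) : Cov G ℓ {z | ∃ i ∈ I, z ∈ R i} (I.card * k) ε := by
  choose! H h1 h2 using h
  refine ⟨I.biUnion H, Finset.card_biUnion_le_card_mul _ _ _ h1, ?_⟩
  rintro z ⟨i, hi, hz⟩
  obtain ⟨g, hg, h3⟩ := h2 i hi z hz
  exact ⟨g, Finset.mem_biUnion.2 ⟨i, hi, hg⟩, h3⟩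

theorem cov_of_fun {R : Set V} (f : V → ℝ) {a L ε : ℝ} {N : ℕ} (hε : 0 < ε) (hN : L ≤ N * ε)
    (hf : ∀ z ∈ R, a ≤ f z ∧ f z ≤ a + L) (hd : ∀ z ∈ R, ∀ z' ∈ R, wdist G ℓ z z' ≤ |f z - f z'|) :
    Cov G ℓ R (N + 1) ε := by
  have := cov_biUnion (G := G) (ℓ := ℓ) (Finset.range (N + 1))
    (fun i => {z | z ∈ R ∧ ⌊(f z - a) / ε⌋₊ = i}) (k := 1) (ε := ε) fun i _ => by
      by_cases hne : ∃ g, g ∈ R ∧ ⌊(f g - a) / ε⌋₊ = i
      · obtain ⟨g, hg, hi⟩ := hne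
        refine ⟨{g}, by simp, fun z hz => ⟨g, by simp, (hd z hz.1 g hg).trans ?_⟩⟩
        have a1 := Nat.floor_le (div_nonneg (sub_nonneg.2 (hf z hz.1).1) hε.le)
        have a2 := Nat.floor_le (div_nonneg (sub_nonneg.2 (hf g hg).1) hε.le)
        have a3 := Nat.lt_floor_add_one ((f z - a) / ε)
        have a4 := Nat.lt_floor_add_one ((f g - a) / ε)
        rw [hz.2] at a1 a3
        rw [hi] at a2 a4
        rw [le_div_iff₀ hε] at a1 a2
        rw [div_lt_iff₀ hε] at a3 a4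
        rw [abs_le]
        constructor <;> linarith
      · exact ⟨∅, by simp, fun z hz => absurd ⟨z, hz⟩ hne⟩
  refine this.mono (fun z hz => ⟨_, ?_, hz, rfl⟩) (by simp)
  refine Finset.mem_range.2 (Nat.lt_succ_of_le (Nat.floor_le_of_le ?_))
  rw [div_le_iff₀ hε]
  linarith [(hf z hz).2]

theorem walk_fun (h : WG G ℓ δ) {x y : V} (p : G.Walk x y) : ∃ f : V → ℝ,
    (∀ z ∈ p.support, wdist G ℓ x z ≤ f z ∧ f z ≤ wl ℓ p) ∧
    ∀ z ∈ p.support, ∀ z' ∈ p.support, wdist G ℓ z z' ≤ |f z - f z'| := by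
  induction p with
  | nil => exact ⟨fun _ => 0, by simp [wdist_self h.conn h.pos, wl],
      by simp [wdist_self h.conn h.pos]⟩
  | @cons x x' y e p ih =>
    obtain ⟨f, h1, h2⟩ := ih
    have key : ∀ z ∈ (Walk.cons e p).support, z ≠ x → wdist G ℓ x z ≤ ℓ s(x, x') + f z :=
      fun z hz hne => (wdist_triangle h.conn h.pos x x' z).trans
        (add_le_add (wdist_edge_le h.pos e) (h1 z (by simpa [hne] using hz)).1)
    refine ⟨fun z => if z = x then 0 else ℓ s(x, x') + f z, fun z hz => ?_, fun z hz z' hz' => ?_⟩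
    · by_cases hx : z = x
      · simp only [hx, if_true, wdist_self h.conn h.pos, le_rfl, wl_nn h, and_self]
      · simp only [hx, if_false, wl_cons, add_le_add_iff_left]
        exact ⟨key z hz hx, (h1 z (by simpa [hx] using hz)).2⟩
    · by_cases hx : z = x <;> by_cases hx' : z' = x <;> simp only [hx, hx', if_true, if_false]
      · simp [wdist_self h.conn h.pos]
      · rw [zero_sub, abs_neg]; exact (key z' hz' hx').trans (le_abs_self _)
      · rw [sub_zero, wdist_comm h.conn h.pos]; exact (key z hz hx).trans (le_abs_self _)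
      · rw [add_sub_add_left_eq_sub]
        exact h2 z (by simpa [hx] using hz) z' (by simpa [hx'] using hz')

theorem cov_walk (h : WG G ℓ δ) {x y : V} (p : G.Walk x y) {ε : ℝ} {N : ℕ} (hε : 0 < ε)
    (hN : wl ℓ p ≤ N * ε) : Cov G ℓ {v | v ∈ p.support} (N + 1) ε := by
  obtain ⟨f, h1, h2⟩ := walk_fun h p
  exact cov_of_fun f (a := 0) hε hN
    (fun z hz => ⟨(wdist_nonneg h.conn h.pos _ _).trans (h1 z hz).1, by simpa using (h1 z hz).2⟩) h2

theorem lip_walk {C : Set V} {f : V → ℝ}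
    (hf : ∀ x ∈ C, ∀ y ∈ C, G.Adj x y → f y ≤ f x + ℓ s(x, y)) {x y : V} {r : ℝ}
    (hi : In G ℓ C x y r) : f y ≤ f x + r := by
  obtain ⟨p, h1, h2⟩ := hi
  refine le_trans ?_ (add_le_add_right h2 _)
  clear h2
  induction p with
  | nil => simp [wl]
  | cons e p ih =>
    have a1 := ih fun v hv => h1 v (by simp [hv])
    have a2 := hf _ (h1 _ (by simp)) _ (h1 _ (by simp)) e
    rw [wl_cons]; linarith

theorem tight_walk (h : WG G ℓ δ) {C : Set V} {f : V → ℝ}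
    (hf : ∀ x ∈ C, ∀ y ∈ C, G.Adj x y → f y ≤ f x + ℓ s(x, y)) {x y : V} (p : G.Walk x y)
    (hp : ∀ v ∈ p.support, v ∈ C) (ht : f x + wl ℓ p ≤ f y) :
    (∀ z ∈ p.support, wdist G ℓ x z ≤ f z - f x) ∧
    ∀ z ∈ p.support, ∀ z' ∈ p.support, wdist G ℓ z z' ≤ |f z - f z'| := by
  induction p with
  | nil => simp [wdist_self h.conn h.pos]
  | @cons x x' y e p ih =>
    have hp' : ∀ v ∈ p.support, v ∈ C := fun v hv => hp v (by simp [hv])
    have a1 := lip_walk hf ⟨p, hp', le_rfl⟩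
    have a2 := hf _ (hp _ (by simp)) _ (hp _ (by simp)) e
    rw [wl_cons] at ht
    obtain ⟨h1, h2⟩ := ih hp' (by linarith)
    have key : ∀ z ∈ (Walk.cons e p).support, wdist G ℓ x z ≤ f z - f x := fun z hz => by
      rcases List.mem_cons.1 ((Walk.support_cons _ _) ▸ hz) with rfl | hz
      · simp [wdist_self h.conn h.pos]
      · linarith [wdist_triangle h.conn h.pos x x' z, wdist_edge_le h.pos e, h1 z hz]
    refine ⟨key, fun z hz z' hz' => ?_⟩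
    rcases List.mem_cons.1 ((Walk.support_cons _ _) ▸ hz) with rfl | hz1
    · rw [abs_sub_comm]; exact (key z' hz').trans (le_abs_self _)
    rcases List.mem_cons.1 ((Walk.support_cons _ _) ▸ hz') with rfl | hz2
    · rw [wdist_comm h.conn h.pos]; exact (key z hz).trans (le_abs_self _)
    · exact h2 z hz1 z' hz2

/-- an intrinsic geodesic of `C` is thin -/
theorem exists_geo [Fintype V] (h : WG G ℓ δ) {C : Set V} (hC : Cn G C) {ρ b : V} (hρ : ρ ∈ C)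
    (hb : b ∈ C) {r ε : ℝ} {N : ℕ} (hε : 0 < ε) (hN : 2 * r ≤ N * ε) :
    ∃ p : G.Walk ρ b, (∀ v ∈ p.support, v ∈ C) ∧
      ∀ x₀, Cov G ℓ {z | z ∈ p.support ∧ In G ℓ C x₀ z r} (N + 1) ε := by
  have hex : ∀ z ∈ C, ∃ r₀, IsLeast {r | In G ℓ C ρ z r} r₀ := fun z hz =>
    let ⟨p, hp⟩ := hC.2 ρ hρ z hz
    In.least h ⟨p, hp, le_rfl⟩
  choose! f hf using hex
  have hl : ∀ x ∈ C, ∀ y ∈ C, G.Adj x y → f y ≤ f x + ℓ s(x, y) := fun x hx y hy e =>
    (hf y hy).2 ((hf x hx).1.trans (In.adj hx hy e))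
  obtain ⟨p, h1, h2⟩ := (hf b hb).1
  have h0 : f ρ ≤ 0 := (hf ρ hρ).2 (In.refl hρ le_rfl)
  refine ⟨p, h1, fun x₀ => cov_of_fun f (a := f x₀ - r) hε hN (fun z hz => ?_)
    fun z hz z' hz' => (tight_walk h hl p h1 (by linarith)).2 z hz.1 z' hz'.1⟩
  constructor <;> linarith [lip_walk hl hz.2, lip_walk hl hz.2.symm]

theorem cn_of_in {C : Set V} {ρ : V} (hρ : ρ ∈ C) (h : ∀ z ∈ C, ∃ r, In G ℓ C ρ z r) : Cn G C :=
  ⟨⟨ρ, hρ⟩, fun x hx y hy =>
    let ⟨_, h1⟩ := h x hx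
    let ⟨_, h2⟩ := h y hy
    let ⟨p, hp, _⟩ := h1.symm.trans h2
    ⟨p, hp⟩⟩

theorem clique_le (hM : MF G) (𝒳 : Finset (Set V)) (h1 : ∀ X ∈ 𝒳, Cn G X)
    (h2 : ∀ X ∈ 𝒳, ∀ Y ∈ 𝒳, X ≠ Y → Disjoint X Y ∧ Tch G X Y) : 𝒳.card ≤ 4 := by
  by_contra hc
  obtain ⟨f, hf⟩ := Function.Embedding.exists_of_card_le_finset (α := Fin 5) (s := 𝒳)
    (by simp; omega)
  have hm : ∀ i, f i ∈ 𝒳 := fun i => hf ⟨i, rfl⟩
  exact hM.k5 f (fun i => h1 _ (hm i)) (fun i j e => (h2 _ (hm i) _ (hm j) (f.injective.ne e)).1)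
    fun i j e => (h2 _ (hm i) _ (hm j) (f.injective.ne e)).2

theorem Tch_symm {A B : Set V} (h : Tch G A B) : Tch G B A :=
  let ⟨a, ha, b, hb, e⟩ := h
  ⟨b, hb, a, ha, e.symm⟩

/-- component of `y` in `S` -/
def cp (G : SimpleGraph V) (ℓ : Sym2 V → ℝ) (S : Set V) (y : V) : Set V := {z | ∃ r, In G ℓ S y z r}

theorem cp_sub {S : Set V} {y : V} : cp G ℓ S y ⊆ S := fun _ ⟨_, h⟩ => h.right

theorem mem_cp {S : Set V} {y : V} (hy : y ∈ S) : y ∈ cp G ℓ S y := ⟨0, In.refl hy le_rfl⟩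

theorem cp_adj {S : Set V} {y z z' : V} (hz : z ∈ cp G ℓ S y) (hz' : z' ∈ S) (e : G.Adj z z') :
    z' ∈ cp G ℓ S y :=
  let ⟨_, h⟩ := hz
  ⟨_, h.trans (In.adj h.right hz' e)⟩

theorem cp_eq {S : Set V} {y z : V} (hz : z ∈ cp G ℓ S y) : cp G ℓ S z = cp G ℓ S y :=
  let ⟨_, h⟩ := hz
  Set.ext fun _ => ⟨fun ⟨_, h'⟩ => ⟨_, h.trans h'⟩, fun ⟨_, h'⟩ => ⟨_, h.symm.trans h'⟩⟩

theorem cn_cp (h : WG G ℓ δ) {S : Set V} {y : V} (hy : y ∈ S) : Cn G (cp G ℓ S y) :=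
  cn_of_in (ℓ := ℓ) (mem_cp hy) fun _ ⟨_, p, h1, _⟩ => ⟨_, p, fun v hv =>
    ⟨_, (in_support h p v hv).mono h1 le_rfl⟩, le_rfl⟩

end Crest.Agent.N206.PL.Port
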