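import Crest.Agent.N206.Dual.Opt

/-! # Row 206, S0317: reduction to efficient cuts on geodesic routings (helper6) -/

set_option autoImplicit false

open Finset SimpleGraph
open Crest.GeometryTopology.GraphMetric Crest.Agent.R206.Iface534 Crest.Agent.N206.Dual

namespace Crest.Agent.N206.PL

namespace Red

variable {V : Type}

/-- the cut semimetric of `U` on unordered pairs -/
def kap [DecidableEq V] (U : Finset V) : Sym2 V → ℝ :=
  Sym2.lift ⟨fun x y => if (x ∈ U ↔ y ∈ U) then 0 else 1, fun x y => by simp only [Iff.comm]⟩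

theorem kap_mk [DecidableEq V] (U : Finset V) (x y : V) :
    kap U s(x, y) = if (x ∈ U ↔ y ∈ U) then 0 else 1 := rfl

theorem kap_nonneg [DecidableEq V] (U : Finset V) (e : Sym2 V) : 0 ≤ kap U e := by
  induction e using Sym2.ind with
  | h x y => rw [kap_mk]; split_ifs <;> norm_num

/-- flow-cut gap -/
theorem gap (h : Eff0Stmt) : ∃ K : ℝ, 0 ≤ K ∧ ∀ (V : Type) [Fintype V] [DecidableEq V]
    (G : SimpleGraph V) (ℓ : Sym2 V → ℝ), G.Connected → MF G → (∀ e ∈ G.edgeSet, 0 < ℓ e) →
    ∀ (w : V × V → ℝ) (c : Sym2 V → ℝ), (∀ p, 0 ≤ w p) → (∀ e, 0 ≤ c e) →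
    (∀ U : Finset V, ∑ p, w p * kap U s(p.1, p.2) ≤ ∑ e, c e * ext0 G (kap U) e) →
    ∑ p, w p * wdist G ℓ p.1 p.2 ≤ K * ∑ e, c e * ext0 G ℓ e := by
  obtain ⟨K, h⟩ := h
  refine ⟨max K 0 + 1, by positivity, fun V _ _ G ℓ hG hMF hℓ w c hw hc hcut => ?_⟩
  classical
  set Λ := max K 0 + 1 with hΛ
  have hΛ0 : 0 < Λ := by positivity
  have : ∀ p : V × V, Nonempty (G.Path p.1 p.2) := fun p =>
    (hG.preconnected p.1 p.2).elim fun q => ⟨q.toPath⟩
  have h0 := ext0_nonneg hℓ
  obtain ⟨x, μ, θ, x1, x2, h1, -, h2, h3, h4, h5, -, h7⟩ := exists_opt (P := V × V)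
    (Γ := fun p => G.Path p.1 p.2) (fun _ g => cnt g.1) w hw (fun e => Λ * c e) 0 (ext0 G ℓ) h0
  simp only [dot_cnt] at h1 h2 h5
  by_contra hcon
  have h6 := h2 _ h0 le_rfl (fun p => wdist G ℓ p.1 p.2) fun p g =>
    (wdist_le_walk hℓ g.1).trans_eq (wl_congr (ext0_eq ℓ) _).symm
  have e1 : ext0 G ℓ ⬝ᵥ (fun e => Λ * c e) = Λ * ∑ e, c e * ext0 G ℓ e := by
    rw [dotProduct, mul_sum]; exact sum_congr rfl fun e _ => by ring
  have e2 : 0 ≤ x ⬝ᵥ fun e => Λ * c e :=
    sum_nonneg fun e _ => mul_nonneg (x1 e) (mul_nonneg hΛ0.le (hc e))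
  let ι := {q : Σ p : V × V, G.Path p.1 p.2 // wl x q.2.1 = μ q.1}
  have hsum : ∀ F : (Σ p : V × V, G.Path p.1 p.2) → ℝ,
      ∑ q : ι, θ q.1.1 q.1.2 * F q.1 = ∑ p, ∑ g, θ p g * F ⟨p, g⟩ := fun F => by
    rw [← Fintype.sum_sigma (fun q : Σ p : V × V, G.Path p.1 p.2 => θ q.1 q.2 * F q),
      ← sum_subtype (univ.filter fun q : Σ p : V × V, G.Path p.1 p.2 => wl x q.2.1 = μ q.1)
        (by simp) (fun q => θ q.1 q.2 * F q), sum_filter_of_ne]
    exact fun q _ hq => h5 _ _ (left_ne_zero_of_mul hq)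
  obtain ⟨ρ, ⟨ω, hω, hρ⟩, r1, r2, r3⟩ := h V G x hG hMF (fun e _ => x1 e) ι (fun q => q.1.1.1)
    (fun q => q.1.1.2) (fun q => q.1.2.1) (fun q => θ q.1.1 q.1.2) (fun q => h3 _ _)
    (fun q p' => q.2.trans_le ((h1 _ p'.toPath).trans (wl_toPath_le (fun e _ => x1 e) p')))
    (by
      have : ∑ q : ι, θ q.1.1 q.1.2 * wl x q.1.2.1 = ∑ q : ι, θ q.1.1 q.1.2 * μ q.1.1 :=
        sum_congr rfl fun q _ => by rw [q.2]
      rw [this, hsum fun q => μ q.1]
      simp only [← sum_mul, h4]
      linarith [not_le.1 hcon])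
  set r : Sym2 V → ℝ := fun e => ∑ U, ω U * kap U e with hr
  have hρ' : ∀ a b, ρ a b = r s(a, b) := fun a b => by
    rw [hρ]
    unfold cutw
    exact sum_congr rfl fun U _ => by rw [kap_mk]; congr
  have hr0 : ∀ e, 0 ≤ r e := fun e => sum_nonneg fun U _ => mul_nonneg (hω U) (kap_nonneg U e)
  have e3 : ∑ q : ι, θ q.1.1 q.1.2 * ρ q.1.1.1 q.1.1.2 = ∑ p, w p * r s(p.1, p.2) := by
    rw [hsum fun q => ρ q.1.1 q.1.2]
    simp only [← sum_mul, h4, hρ']
  have e4 : ∑ q : ι, θ q.1.1 q.1.2 * (q.1.2.1.darts.map fun d => ρ d.fst d.snd).sum =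
      ∑ e, ext0 G r e * ∑ p, ∑ g, θ p g * cnt g.1 e := by
    rw [hsum fun q => (q.2.1.darts.map fun d => ρ d.fst d.snd).sum]
    simp only [mul_sum]
    rw [sum_comm]
    refine sum_congr rfl fun p _ => ?_
    rw [sum_comm]
    refine sum_congr rfl fun g _ => ?_
    simp only [mul_left_comm _ (θ p g), ← mul_sum]
    congr 1
    refine Eq.trans ?_ ((dot_cnt _ g.1).trans (wl_congr (ext0_eq r) _)).symm
    simp only [wl, Walk.edges, List.map_map, hρ']
    rfl
  have e5 : ∑ p, w p * r s(p.1, p.2) ≤ ∑ e, c e * ext0 G r e := by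
    calc _ = ∑ U, ω U * ∑ p, w p * kap U s(p.1, p.2) := by
          simp only [hr, mul_sum]
          rw [sum_comm]
          simp only [mul_left_comm]
      _ ≤ ∑ U, ω U * ∑ e, c e * ext0 G (kap U) e :=
          sum_le_sum fun U _ => mul_le_mul_of_nonneg_left (hcut U) (hω U)
      _ = _ := by
          simp only [mul_sum]
          rw [sum_comm]
          refine sum_congr rfl fun e _ => ?_
          simp only [ext0, hr]
          split_ifs
          · simp only [mul_sum, mul_left_comm]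
          · simp
  have e6 : Λ * ∑ e, c e * ext0 G r e ≤ ∑ e, ext0 G r e * ∑ p, ∑ g, θ p g * cnt g.1 e := by
    rw [mul_sum]
    refine sum_le_sum fun e _ => ?_
    unfold ext0
    split_ifs with he
    · rcases (x1 e).eq_or_lt with h' | h'
      · induction e using Sym2.ind with
        | h a b => rw [← hρ', r1 a b he h'.symm]; simp
      · rw [← mul_assoc, mul_comm]
        exact mul_le_mul_of_nonneg_left (h7 e h') (hr0 e)
    · simp
  rw [e3] at r2
  rw [e3, e4] at r3
  nlinarith [le_max_left K 0]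

end Red

open Red in
theorem reduce' (top : TopStmt) (h : Eff0Stmt) : Goal := by
  obtain ⟨K, hK, h⟩ := gap h
  refine ⟨K, fun V _ G hG hP ℓ hℓ => ?_⟩
  classical
  set triv : Finset V → Prop := fun U => ∀ x y, G.Adj x y → (x ∈ U ↔ y ∈ U) with htriv
  set v : Finset V → (V × V) ⊕ Sym2 V → ℝ := fun U =>
    Sum.elim (fun p => -kap U s(p.1, p.2)) (ext0 G (kap U)) with hv
  set a₀ : (V × V) ⊕ Sym2 V → ℝ :=
    Sum.elim (fun p => wdist G ℓ p.1 p.2) (fun e => -(K * ext0 G ℓ e)) with ha₀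
  rcases ville (fun U => v U + if triv U then a₀ else 0) with ⟨θ, h1, h2, h3⟩ | ⟨y, h1, h2⟩
  · set t := ∑ U, if triv U then θ U else 0 with ht
    have h4 : ∀ e, ∑ U, θ U * v U e + t * a₀ e ≤ 0 := fun e => by
      refine le_of_eq_of_le ?_ (h3 e)
      rw [ht, sum_mul, ← sum_add_distrib]
      refine sum_congr rfl fun U _ => ?_
      split_ifs <;> simp [mul_add]
    have h5 : ∀ x y, t * wdist G ℓ x y ≤ cutw θ x y := fun x y => by
      have := h4 (.inl (x, y))
      simp only [hv, ha₀, Sum.elim_inl, mul_neg, sum_neg_distrib, kap_mk] at this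
      rw [cutw]; linarith
    have h6 : ∀ x y, G.Adj x y → cutw θ x y ≤ t * (K * ℓ s(x, y)) := fun x y hxy => by
      have := h4 (.inr s(x, y))
      simp only [hv, ha₀, Sum.elim_inr, mul_neg, ext0_eq _ _ (G.mem_edgeSet.2 hxy), kap_mk] at this
      rw [cutw]; linarith
    have ht0 : 0 < t := by
      refine lt_of_le_of_ne (sum_nonneg fun U _ => by split_ifs; exacts [h1 U, le_rfl]) fun e => ?_
      refine one_ne_zero (h2.symm.trans (sum_eq_zero fun U _ => ?_))
      by_cases hU : triv U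
      · simpa [hU] using (sum_eq_zero_iff_of_nonneg fun U _ => by
          split_ifs; exacts [h1 U, le_rfl]).1 e.symm U (mem_univ U)
      · simp only [htriv, not_forall] at hU
        obtain ⟨x, y, hxy, hU⟩ := hU
        have := h6 x y hxy
        rw [← e, zero_mul, cutw] at this
        have h7 := (single_le_sum (f := fun S => θ S * if (x ∈ S ↔ y ∈ S) then (0 : ℝ) else 1)
          (fun S _ => mul_nonneg (h1 S) (by split_ifs <;> norm_num)) (mem_univ U)).trans this
        simp only [hU, if_false, mul_one] at h7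
        exact le_antisymm h7 (h1 U)
    have e : ∀ x y, cutw (fun U => θ U / t) x y = cutw θ x y / t := fun x y => by
      simp only [cutw, sum_div, div_mul_eq_mul_div]
    exact embed_of_cuts hG hK (fun U => θ U / t) (fun U => div_nonneg (h1 U) ht0.le)
      (fun x y hxy => by rw [e, div_le_iff₀' ht0]; exact h6 x y hxy)
      fun x y => by rw [e, le_div_iff₀' ht0]; exact h5 x y
  · exfalso
    have hz : ∀ U, triv U → v U = 0 := fun U hU => by
      have : ∀ x y, kap U s(x, y) = 0 := fun x y => by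
        obtain ⟨q⟩ := hG.preconnected x y
        refine if_pos ?_
        induction q with
        | nil => rfl
        | cons hq _ ih => exact (hU _ _ hq).trans ih
      ext (p | e)
      · simp [hv, this]
      · induction e using Sym2.ind with
        | h a b => simp [hv, ext0, this]
    have h3 := h V G ℓ hG (top V G hP) hℓ (fun p => y (.inl p)) (fun e => y (.inr e))
      (fun p => h1 _) (fun e => h1 _) fun U => by
        have : 0 ≤ y ⬝ᵥ v U := by
          by_cases hU : triv U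
          · rw [hz U hU, dotProduct_zero]
          · simpa [hU] using (h2 U).le
        simp only [dotProduct, Fintype.sum_sum_type, hv, Sum.elim_inl, Sum.elim_inr, mul_neg,
          sum_neg_distrib] at this
        linarith
    have h4 := h2 ∅
    have h5 : triv ∅ := fun _ _ _ => by simp
    simp only [hz ∅ h5, if_pos h5, zero_add, dotProduct, Fintype.sum_sum_type, ha₀, Sum.elim_inl,
      Sum.elim_inr, mul_neg, sum_neg_distrib, mul_left_comm _ K, ← mul_sum] at h4
    linarith

theorem reduce : TopStmt → KKTStmt → Eff0Stmt → Goal := fun t _ h => reduce' t h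

end Crest.Agent.N206.PL
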