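import Crest.Agent.N206.PL.Defs

/-!
# Row 206, S0317: selection of an offset avoiding periodic families of intervals (helper61)
-/

set_option autoImplicit false

noncomputable section

open scoped Classical

namespace Crest.Agent.N206.PL

open MeasureTheory Set

namespace Sel

/-- indicator of a periodic family of intervals -/
def ind (c P r t : ℝ) : ℝ := if ∃ m : ℤ, |c - t - m * P| ≤ r then 1 else 0

theorem ind_nonneg (c P r t : ℝ) : 0 ≤ ind c P r t := by
  unfold ind; split_ifs <;> norm_num

theorem ind_le (c P r t : ℝ) : ind c P r t ≤ 1 := by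
  unfold ind; split_ifs <;> norm_num

theorem ind_meas (c P r : ℝ) : Measurable (ind c P r) := by
  refine Measurable.ite ?_ measurable_const measurable_const
  rw [setOf_exists]
  exact MeasurableSet.iUnion fun m => measurableSet_le (by fun_prop) measurable_const

theorem ind_per (c P r : ℝ) : Function.Periodic (ind c P r) P := by
  intro t
  unfold ind
  refine if_congr ⟨fun ⟨m, h⟩ => ⟨m + 1, ?_⟩, fun ⟨m, h⟩ => ⟨m - 1, ?_⟩⟩ rfl rfl
  · convert h using 2; push_cast; ring
  · convert h using 2; push_cast; ring

theorem ind_on (c P r a b : ℝ) : IntegrableOn (ind c P r) (Icc a b) := by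
  refine Measure.integrableOn_of_bounded (M := 1) (by simp) (ind_meas c P r).aestronglyMeasurable
    (Filter.Eventually.of_forall fun t => ?_)
  rw [Real.norm_eq_abs, abs_of_nonneg (ind_nonneg _ _ _ _)]
  exact ind_le _ _ _ _

theorem ind_ii (c P r a b : ℝ) : IntervalIntegrable (ind c P r) volume a b :=
  ⟨(ind_on c P r a b).mono_set Ioc_subset_Icc_self,
    (ind_on c P r b a).mono_set Ioc_subset_Icc_self⟩

theorem one_period (c : ℝ) {P r : ℝ} (hP : 0 < P) (hr : 0 ≤ r) (a : ℝ) :
    ∫ t in a..a + P, ind c P r t ≤ 2 * r := by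
  rw [(ind_per c P r).intervalIntegral_add_eq a (c + r - P),
    intervalIntegral.integral_of_le (by linarith)]
  have hi : Integrable (indicator (Icc (c - r) (c + r)) fun _ : ℝ => (1 : ℝ)) := by
    rw [integrable_indicator_iff measurableSet_Icc]
    exact integrableOn_const (by simp)
  calc ∫ t in Ioc (c + r - P) (c + r - P + P), ind c P r t
      ≤ ∫ t in Ioc (c + r - P) (c + r - P + P),
          indicator (Icc (c - r) (c + r)) (fun _ : ℝ => (1 : ℝ)) t := by
        refine setIntegral_mono_on ((ind_on c P r _ _).mono_set Ioc_subset_Icc_self)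
          hi.integrableOn measurableSet_Ioc fun t ht => ?_
        unfold ind
        split_ifs with h
        · obtain ⟨m, hm⟩ := h
          rw [abs_le] at hm
          have h1 := ht.1
          have h2 := ht.2
          have hm0 : (m : ℝ) ≤ 0 := by
            by_contra h0
            have : (1 : ℝ) ≤ m := by exact_mod_cast (show (1 : ℤ) ≤ m by
              have : (0 : ℤ) < m := by exact_mod_cast not_le.1 h0
              omega)
            nlinarith
          rw [indicator_of_mem (show t ∈ Icc (c - r) (c + r) from ⟨by nlinarith, by linarith⟩)]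
        · exact indicator_nonneg (fun _ _ => zero_le_one) t
    _ ≤ ∫ t, indicator (Icc (c - r) (c + r)) (fun _ : ℝ => (1 : ℝ)) t :=
        setIntegral_le_integral hi (Filter.Eventually.of_forall fun t =>
          indicator_nonneg (fun _ _ => zero_le_one) t)
    _ = 2 * r := by
        rw [integral_indicator measurableSet_Icc]
        simp only [integral_const, MeasurableSet.univ, measureReal_restrict_apply, univ_inter,
          smul_eq_mul, mul_one]
        rw [Real.volume_real_Icc_of_le (by linarith)]; ring

theorem window (c : ℝ) {P r L : ℝ} (hP : 0 < P) (hr : 0 ≤ r) (hL : 0 < L) (a : ℝ) :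
    ∫ t in Ico a (a + L), ind c P r t ≤ L * (2 * r * (1 / P + 1 / L)) := by
  rw [integral_Ico_eq_integral_Ioc, ← intervalIntegral.integral_of_le (by linarith)]
  have hN : L / P ≤ (⌈L / P⌉ : ℝ) := Int.le_ceil _
  have hN' : (⌈L / P⌉ : ℝ) ≤ L / P + 1 := (Int.ceil_lt_add_one _).le
  have h0 : (0 : ℝ) ≤ ⌈L / P⌉ := (div_pos hL hP).le.trans hN
  calc ∫ t in a..a + L, ind c P r t ≤ ∫ t in a..a + ⌈L / P⌉ • P, ind c P r t := by
        refine intervalIntegral.integral_mono_interval le_rfl (by linarith) ?_
          (Filter.Eventually.of_forall fun t => ind_nonneg _ _ _ t) (ind_ii _ _ _ _ _)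
        rw [zsmul_eq_mul]
        rw [div_le_iff₀ hP] at hN
        linarith
    _ = ⌈L / P⌉ * ∫ t in a..a + P, ind c P r t := by
        rw [(ind_per c P r).intervalIntegral_add_zsmul_eq _ _ (ind_ii c P r), zsmul_eq_mul]
    _ ≤ ⌈L / P⌉ * (2 * r) := mul_le_mul_of_nonneg_left (one_period c hP hr a) h0
    _ ≤ (L / P + 1) * (2 * r) := mul_le_mul_of_nonneg_right hN' (by linarith)
    _ = L * (2 * r * (1 / P + 1 / L)) := by field_simp

end Sel

open Sel in
theorem sel : SelStmt := by
  intro ι J _ _ ω c P r a L hL hω hP hr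
  have hI : ∀ i j, IntegrableOn (ind (c i j) (P i j) (r i j)) (Ico a (a + L)) := fun i j =>
    (ind_on _ _ _ _ _).mono_set Ico_subset_Icc_self
  have hJ : ∀ i, IntegrableOn (fun t => ω i * ∑ j, ind (c i j) (P i j) (r i j) t)
      (Ico a (a + L)) := fun i =>
    Integrable.const_mul (integrable_finsetSum _ fun j _ => hI i j) _
  obtain ⟨t, ht, hle⟩ := exists_le_setAverage (μ := volume) (s := Ico a (a + L))
    (f := fun t => ∑ i, ω i * ∑ j, ind (c i j) (P i j) (r i j) t) (by simpa using hL) (by simp)
    (integrable_finsetSum _ fun i _ => hJ i)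
  refine ⟨t, ht.1, ht.2, le_trans (Finset.sum_le_sum fun i _ => ?_) (hle.trans ?_)⟩
  · have hs : 0 ≤ ∑ j, ind (c i j) (P i j) (r i j) t :=
      Finset.sum_nonneg fun j _ => ind_nonneg _ _ _ _
    split_ifs with h
    · obtain ⟨j, m, hm⟩ := h
      have h1 : ind (c i j) (P i j) (r i j) t = 1 := if_pos ⟨m, hm⟩
      have h2 := Finset.single_le_sum (f := fun j => ind (c i j) (P i j) (r i j) t)
        (fun j _ => ind_nonneg _ _ _ _) (Finset.mem_univ j)
      nlinarith [hω i]
    · exact mul_nonneg (hω i) hs
  · rw [setAverage_eq, integral_finsetSum _ fun i _ => hJ i, Real.volume_real_Ico_of_le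
      (by linarith), add_sub_cancel_left, smul_eq_mul, inv_mul_le_iff₀ hL, Finset.mul_sum]
    refine Finset.sum_le_sum fun i _ => ?_
    rw [integral_const_mul, integral_finsetSum _ fun j _ => hI i j, mul_left_comm]
    refine mul_le_mul_of_nonneg_left ?_ (hω i)
    rw [Finset.mul_sum]
    exact Finset.sum_le_sum fun j _ => window _ (hP i j) (hr i j) hL a

end Crest.Agent.N206.PL
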