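import Crest.Agent.N206.PL.Level

/-!
# Row 206, S0317: service of the pairs near one protected set (helper55)
-/

set_option autoImplicit false

noncomputable section

open scoped Classical

namespace Crest.Agent.N206.PL

open Crest.GeometryTopology.GraphMetric Crest.Agent.R206.Iface534 SimpleGraph

theorem card_class' {s T α β : ℝ} (hs : 0 < s) (hα : 0 < α) (m : ℕ) (hm : β ≤ α * 2 ^ m)
    (S : Finset ℕ) (h : ∀ k ∈ S, α * (s * 2 ^ k) ≤ T ∧ T ≤ β * (s * 2 ^ k)) : S.card ≤ m + 1 := by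
  rcases S.eq_empty_or_nonempty with rfl | hne
  · simp
  have hsub : S ⊆ Finset.Icc (S.min' hne) (S.min' hne + m) := by
    intro k hk
    refine Finset.mem_Icc.2 ⟨S.min'_le k hk, ?_⟩
    have h1 := (h k hk).1
    have h2 := (h _ (S.min'_mem hne)).2
    have h3 : (0 : ℝ) < s * 2 ^ S.min' hne := by positivity
    have h4 : α * s * (2 : ℝ) ^ k ≤ α * s * 2 ^ (S.min' hne + m) := by
      rw [pow_add]
      nlinarith [mul_le_mul_of_nonneg_right hm h3.le]
    exact (pow_le_pow_iff_right₀ one_lt_two).1 (le_of_mul_le_mul_left h4 (mul_pos hα hs))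
  have := Finset.card_le_card hsub
  rw [Nat.card_Icc] at this
  omega

theorem WG.d_zero {V : Type} {G : SimpleGraph V} {ℓ : Sym2 V → ℝ} {δ : ℝ} (h : WG G ℓ δ)
    (hδ : δ ≤ 0) (x y : V) : wdist G ℓ x y = 0 := by
  have := le_mul_wdist (ℓ := ℓ) h.conn (wdist G ℓ) 0 le_rfl h.self h.tri
    (fun u v huv => by linarith [h.adj_pos huv, h.adj_le huv]) x y
  linarith [h.nonneg x y]

/-- distance to a nonempty set -/
theorem WG.exists_dist {V : Type} [Fintype V] {G : SimpleGraph V} {ℓ : Sym2 V → ℝ} {δ : ℝ}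
    (h : WG G ℓ δ) {S : Set V} (hS : S.Nonempty) :
    ∃ σ : V → ℝ, (∀ x, ∀ v ∈ S, σ x ≤ wdist G ℓ v x) ∧ (∀ x, ∃ v ∈ S, σ x = wdist G ℓ v x) ∧
      ∀ x y, |σ x - σ y| ≤ wdist G ℓ x y := by
  have : ∀ x, ∃ v ∈ S, ∀ v' ∈ S, wdist G ℓ v x ≤ wdist G ℓ v' x := fun x =>
    Set.exists_min_image S _ (Set.toFinite S) hS
  choose n hn hmin using this
  have key : ∀ x y, wdist G ℓ (n x) x ≤ wdist G ℓ (n y) y + wdist G ℓ y x := fun x y =>
    (hmin x _ (hn y)).trans (h.tri _ _ _)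
  refine ⟨fun x => wdist G ℓ (n x) x, hmin, fun x => ⟨n x, hn x, rfl⟩, fun x y => ?_⟩
  have h1 := key x y
  rw [h.comm y x] at h1
  rw [abs_le]; constructor <;> linarith [key y x]

/-- pairs whose first point is not too close to the set -/
theorem serve_far (hN : NoiseStmt) (B η : ℝ) (hB : 1 ≤ B) (hη : 0 < η) (hη1 : η ≤ 1) :
    ∃ K c ε : ℝ, 0 < K ∧ 0 < c ∧ 0 < ε ∧
    ∀ (V : Type) [Fintype V] (G : SimpleGraph V) (ℓ : Sym2 V → ℝ) (δ : ℝ), WG G ℓ δ → MF G →
    ∀ (R : ℝ) (σ : V → ℝ), (∀ x y, |σ x - σ y| ≤ wdist G ℓ x y) →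
    ∀ (ι : Type) [Fintype ι] (a b : ι → V) (ω : ι → ℝ), (∀ i, 0 ≤ ω i) →
      (∀ i, δ ≤ ε * wdist G ℓ (a i) (b i) ∧ 20 * B * wdist G ℓ (a i) (b i) ≤ R ∧
        η * wdist G ℓ (a i) (b i) ≤ σ (a i) ∧ σ (a i) ≤ 2 * B * wdist G ℓ (a i) (b i)) →
      ∃ ρ : V → V → ℝ, IsCut ρ ∧ (∀ x y, G.Adj x y → ρ x y ≤ K * ℓ s(x, y)) ∧
        (∀ x y, R / 4 ≤ σ x → R / 4 ≤ σ y → ρ x y = 0) ∧
        c * ∑ i, ω i * wdist G ℓ (a i) (b i) ≤ ∑ i, ω i * ρ (a i) (b i) := by
  obtain ⟨cN, εN, hcN, hεN, hN⟩ := hN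
  obtain ⟨m, hm⟩ := pow_unbounded_of_one_lt (10 * B / η) (one_lt_two (α := ℝ))
  rw [div_lt_iff₀ hη] at hm
  refine ⟨4 * (m + 1), cN * η / 4, εN, by positivity, by positivity, hεN, ?_⟩
  intro V _ G ℓ δ h hMF R σ hσ ι _ a b ω hω hab
  rcases le_or_gt δ 0 with hδ | hδ
  · exact ⟨fun _ _ => 0, IsCut.zero, fun x y hxy => by linarith [h.adj_pos hxy, h.adj_le hxy],
      fun _ _ _ _ => rfl, by simp [h.d_zero hδ]⟩
  have hs : 0 < δ / εN := div_pos hδ hεN
  obtain ⟨D, hD⟩ : ∃ D : ℕ → ℝ, ∀ j, D j = δ / εN * 2 ^ j := ⟨_, fun _ => rfl⟩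
  have hD0 : ∀ j, δ / εN ≤ D j := fun j => by
    rw [hD]; exact le_mul_of_one_le_right hs.le (one_le_pow₀ one_le_two)
  have hDp : ∀ j, 0 < D j := fun j => hs.trans_le (hD0 j)
  obtain ⟨N, hNR⟩ := pow_unbounded_of_one_lt (R / (δ / εN)) (one_lt_two (α := ℝ))
  rw [div_lt_iff₀ hs] at hNR
  let P : ℕ → ι → Prop := fun j i =>
    D j ≤ wdist G ℓ (a i) (b i) ∧ wdist G ℓ (a i) (b i) < 2 * D j
  let χ : ℕ → V → ℝ := fun j x => max 0 (min (σ x - η / 2 * D j) (5 * B * D j - σ x))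
  have hNj := fun j => hN V G ℓ δ h hMF (D j) (hDp j)
    (by have := hD0 j; rw [div_le_iff₀ hεN] at this; linarith) (χ j) (fun v => le_max_left _ _)
    (fun x y hxy => by
      have h1 := (hσ x y).trans (h.edge hxy)
      refine (abs_max_sub_max_le_max _ _ _ _).trans (max_le (by simpa using h.nn _ hxy) ?_)
      refine (abs_min_sub_min_le_max _ _ _ _).trans (max_le ?_ ?_)
      · exact le_of_eq_of_le (by congr 1; ring) h1
      · exact le_of_eq_of_le (by rw [abs_sub_comm]; congr 1; ring) h1)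
    {i // P j i} (fun i => a i.1) (fun i => b i.1) (fun i => ω i.1) (fun i => hω i.1)
    fun i => i.2.1
  choose ρ h1 h2 h3 h4 using hNj
  have hχ : ∀ j v, χ j v ≠ 0 → η / 2 * D j < σ v ∧ σ v < 5 * B * D j := by
    intro j v hv
    have h1 : 0 < min (σ v - η / 2 * D j) (5 * B * D j - σ v) := by
      by_contra h2
      exact hv (max_eq_left (not_lt.1 h2))
    rwa [lt_min_iff, sub_pos, sub_pos] at h1
  let J := (Finset.range N).filter fun j => 20 * B * D j ≤ R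
  have hcard : ∀ v, (J.filter fun j => χ j v ≠ 0).card ≤ m + 1 := fun v =>
    card_class' (T := σ v) (α := η / 2) (β := 5 * B) hs (by linarith) m (by linarith) _
      fun k hk => by
        have := hχ k v (Finset.mem_filter.1 hk).2
        rw [← hD]; exact ⟨this.1.le, this.2.le⟩
  refine ⟨fun x y => ∑ j ∈ J, ρ j x y, IsCut.sum _ _ fun j _ => h1 j, fun x y hxy => ?_,
    fun x y hx hy => Finset.sum_eq_zero fun j hj => ?_, ?_⟩
  · beta_reduce
    have e1 : ∑ j ∈ J, ρ j x y ≤ ∑ j ∈ J.filter (fun j => χ j x ≠ 0 ∨ χ j y ≠ 0),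
        (2 * ℓ s(x, y) : ℝ) := by
      rw [Finset.sum_filter (s := J)]
      refine Finset.sum_le_sum fun j _ => ?_
      split_ifs with hj
      · exact h2 j x y hxy
      · push Not at hj
        exact (h3 j x y hj.1 hj.2).le
    rw [Finset.sum_const, nsmul_eq_mul, Finset.filter_or] at e1
    have e2 : (((J.filter fun j => χ j x ≠ 0) ∪ J.filter fun j => χ j y ≠ 0).card : ℝ) ≤
        (m + 1 : ℝ) + (m + 1 : ℝ) := by
      exact_mod_cast (Finset.card_union_le _ _).trans (add_le_add (hcard x) (hcard y))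
    have := mul_le_mul_of_nonneg_right e2 (show 0 ≤ 2 * ℓ s(x, y) by linarith [h.adj_pos hxy])
    linarith
  · have hj' := (Finset.mem_filter.1 hj).2
    refine h3 j x y (by_contra fun hne => ?_) (by_contra fun hne => ?_)
    · linarith [(hχ j x hne).2]
    · linarith [(hχ j y hne).2]
  · refine (cover_gain J P ω (fun i => wdist G ℓ (a i) (b i)) (fun j i => ρ j (a i) (b i)) _
      (by positivity) hω (fun i => h.nonneg _ _) (fun i => ?_) fun j _ => ?_).trans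
      (Finset.sum_le_sum fun i _ => mul_le_mul_of_nonneg_left
        (Finset.sum_le_sum fun j _ => ?_) (hω i))
    · obtain ⟨e1, e2, -⟩ := hab i
      obtain ⟨j, f1, f2⟩ := exists_class hs (T := wdist G ℓ (a i) (b i))
        (by rw [div_le_iff₀ hεN]; linarith)
      rw [← hD] at f1 f2
      have f3 : 20 * B * D j ≤ R := (mul_le_mul_of_nonneg_left f1 (by linarith)).trans e2
      refine ⟨j, Finset.mem_filter.2 ⟨Finset.mem_range.2 ?_, f3⟩, f1, f2⟩
      have f4 : δ / εN * 2 ^ j < δ / εN * 2 ^ N := by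
        rw [← hD j]; nlinarith [hDp j]
      exact (pow_lt_pow_iff_right₀ one_lt_two).1 (lt_of_mul_lt_mul_left f4 hs.le)
    · have key : cN * η / 4 * ∑ i : {i // P j i}, ω i.1 * wdist G ℓ (a i.1) (b i.1) ≤
          ∑ i : {i // P j i}, ω i.1 * ρ j (a i.1) (b i.1) := ?_
      · rw [sum_sub_eq (P j) fun i => ω i * wdist G ℓ (a i) (b i),
          sum_sub_eq (P j) fun i => ω i * ρ j (a i) (b i)] at key
        convert key
      refine le_trans ?_ (h4 j)
      rw [Finset.mul_sum, Finset.mul_sum]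
      refine Finset.sum_le_sum fun i _ => ?_
      obtain ⟨-, -, e3, e4⟩ := hab i.1
      obtain ⟨f1, f2⟩ := i.2
      have f3 : η / 2 * D j ≤ min (D j) (χ j (a i.1)) := by
        refine le_min (by nlinarith [hDp j]) (le_max_of_le_right (le_min ?_ ?_))
        · nlinarith [mul_le_mul_of_nonneg_left f1 hη.le]
        · nlinarith [mul_le_mul_of_nonneg_left f2.le (show 0 ≤ 2 * B by linarith), hDp j]
      rw [mul_left_comm, mul_left_comm cN]
      refine mul_le_mul_of_nonneg_left ?_ (hω _)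
      nlinarith [mul_le_mul_of_nonneg_left f3 hcN.le,
        mul_le_mul_of_nonneg_left f2.le (mul_pos hcN hη).le]
    · split_ifs
      · exact le_rfl
      · exact (h1 j).nonneg _ _

/-- pairs inside the protected set -/
theorem serve_near (hK : KPRStmt) (hA : A2Stmt) :
    ∃ Λ C K c ε : ℝ, 1 ≤ Λ ∧ 1 ≤ C ∧ 0 < K ∧ 0 < c ∧ 0 < ε ∧
    ∀ (V : Type) [Fintype V] (G : SimpleGraph V) (ℓ : Sym2 V → ℝ) (δ : ℝ), WG G ℓ δ → MF G →
    ∀ (ℓ' : Sym2 V → ℝ) (z : V) (T : Set V) (lam R : ℝ) (S : Set V), 0 < R → 5 * δ ≤ R →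
      TypeOK G ℓ ℓ' z T lam R Λ S →
    ∀ (ι : Type) [Fintype ι] (a b : ι → V) (ω : ι → ℝ), (∀ i, 0 ≤ ω i) →
      (∀ i, a i ∈ S ∧ b i ∈ S ∧ δ ≤ ε * wdist G ℓ (a i) (b i) ∧ C * wdist G ℓ (a i) (b i) ≤ R) →
      ∃ ρ : V → V → ℝ, IsCut ρ ∧ (∀ x y, G.Adj x y → ρ x y ≤ K * ℓ s(x, y)) ∧
        (∀ x y, (∀ v ∈ S, R / 4 ≤ wdist G ℓ v x) → (∀ v ∈ S, R / 4 ≤ wdist G ℓ v y) →
          ρ x y = 0) ∧
        c * ∑ i, ω i * wdist G ℓ (a i) (b i) ≤ ∑ i, ω i * ρ (a i) (b i) := by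
  obtain ⟨Δ, hΔ, hK⟩ := hK
  obtain ⟨KA, cA, CA, hKA, hcA, hCA, hA⟩ := hA (2 * Δ) (by linarith)
  refine ⟨2 * Δ + 1, 4 * CA, 2 * KA, cA / 2, 1 / (2 * CA), by linarith, by linarith, by positivity,
    by positivity, by positivity, ?_⟩
  intro V _ G ℓ δ h hMF ℓ' z T lam R S hR hδ hT ι _ a b ω hω hab
  have h' := h.two hT.len
  have hle := h.two_le hT.len
  obtain ⟨c, -, hc2, hc3⟩ := hK V G ℓ' (2 * δ) h' hMF R (1 / 2) hR (by norm_num) (by norm_num)
    (by linarith) ι a (fun i => ω i * wdist G ℓ (a i) (b i))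
    fun i => mul_nonneg (hω i) (h.nonneg _ _)
  have e0 : Δ * R / (1 / 2) = 2 * Δ * R := by ring
  rw [e0] at hc2
  let Sg : V → Set V := fun w => {x | x ∈ S ∧ ∀ y ∈ bl G ℓ' x (R / 2), c y = w}
  have hSg : ∀ w, ∀ x ∈ Sg w, c x = w := fun w x hx =>
    hx.2 x (by rw [mem_bl, h'.self]; linarith)
  let P : V → ι → Prop := fun w i => c (a i) = w ∧ ∀ y ∈ bl G ℓ' (a i) R, c y = c (a i)
  have hd' : ∀ i, 2 * CA * wdist G ℓ' (a i) (b i) ≤ R := fun i => by
    have := mul_le_mul_of_nonneg_left (hle (a i) (b i)).2 (show 0 ≤ 2 * CA by linarith)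
    linarith [(hab i).2.2.2]
  have hP : ∀ w i, P w i → a i ∈ Sg w ∧ b i ∈ Sg w := by
    rintro w i ⟨rfl, hp⟩
    refine ⟨⟨(hab i).1, fun y hy => hp y (le_trans (mem_bl.1 hy) (half_le_self hR.le))⟩,
      (hab i).2.1, fun y hy => hp y ?_⟩
    have h1 : wdist G ℓ' (b i) y ≤ R / 2 := hy
    have h2 := h'.tri (a i) (b i) y
    have h3 := h'.nonneg (a i) (b i)
    rw [mem_bl]
    nlinarith [hd' i]
  have hAw : ∀ w, ∃ ρ : V → V → ℝ, IsCut ρ ∧ (∀ x y, G.Adj x y → ρ x y ≤ KA * ℓ' s(x, y)) ∧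
      (∀ x y, (∀ v ∈ Sg w, R / 10 ≤ wdist G ℓ' v x) → (∀ v ∈ Sg w, R / 10 ≤ wdist G ℓ' v y) →
        ρ x y = 0) ∧
      cA * ∑ i : {i // P w i}, ω i.1 * wdist G ℓ' (a i.1) (b i.1) ≤
        ∑ i : {i // P w i}, ω i.1 * ρ (a i.1) (b i.1) := by
    intro w
    rcases (Sg w).eq_empty_or_nonempty with he | ⟨x₀, hx₀⟩
    · refine ⟨fun _ _ => 0, IsCut.zero, fun x y hxy => (mul_pos hKA (h'.adj_pos hxy)).le,
        fun _ _ _ _ => rfl, ?_⟩
      have : IsEmpty {i // P w i} := ⟨fun i => by simpa [he] using (hP w i.1 i.2).1⟩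
      simp
    have hdiam : ∀ x ∈ Sg w, wdist G ℓ' x x₀ ≤ 2 * Δ * R := fun x hx =>
      hc2 x x₀ ((hSg w x hx).trans (hSg w x₀ hx₀).symm)
    refine hA V G ℓ' (2 * δ) h' hMF z T lam R (wdist G ℓ' z x₀) (Sg w) hR
      ⟨hT.conn, hT.high, fun x hx => hT.tight x hx.1,
        fun x hx => by nlinarith [hT.room x hx.1], ?_⟩
      (fun x hx => (h'.abs_sub z x x₀).trans (hdiam x hx)) {i // P w i} (fun i => a i.1)
      (fun i => b i.1) (fun i => ω i.1) (fun i => hω i.1) fun i =>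
        ⟨(hP w i.1 i.2).1, (hP w i.1 i.2).2, ?_, by nlinarith [hd' i.1, h'.nonneg (a i.1) (b i.1)]⟩
    · obtain ⟨τ, hτ, p₀, hp₀⟩ := hT.away x₀ hx₀.1
      refine ⟨τ, hτ, p₀, fun v hv x hx => ?_⟩
      have h1 := h.tri x₀ x v
      rw [h.comm x₀ x] at h1
      linarith [hp₀ v hv, (hle x v).1, (hle x x₀).1, hdiam x hx]
    · have h1 := (hab i.1).2.2.1
      rw [one_div_mul_eq_div, le_div_iff₀ (by linarith)] at h1
      linarith [(hle (a i.1) (b i.1)).1]
  choose ρ h1 h2 h3 h4 using hAw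
  refine ⟨fun x y => ∑ w, ρ w x y, IsCut.sum _ _ fun w _ => h1 w, fun x y hxy => ?_,
    fun x y hx hy => Finset.sum_eq_zero fun w _ => h3 w x y
      (fun v hv => by linarith [hx v hv.1, (hle v x).1])
      (fun v hv => by linarith [hy v hv.1, (hle v y).1]), ?_⟩
  · beta_reduce
    rw [Finset.sum_eq_single (c x) (fun w _ hw => ?_) fun hc => absurd (Finset.mem_univ _) hc]
    · nlinarith [h2 (c x) x y hxy, (hT.len s(x, y) hxy).2]
    · have hfar : ∀ v ∈ Sg w, R / 2 < wdist G ℓ' v x := fun v hv => by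
        by_contra hcon
        exact hw (hv.2 x (not_lt.1 hcon)).symm
      refine h3 w x y (fun v hv => by linarith [hfar v hv]) fun v hv => ?_
      linarith [hfar v hv, h'.tri v y x, h'.edge' hxy.symm]
  · let pad : ι → Prop := fun i => ∀ y ∈ bl G ℓ' (a i) R, c y = c (a i)
    have e1 : ∑ i, ω i * wdist G ℓ (a i) (b i) =
        ∑ i, (if pad i then 0 else ω i * wdist G ℓ (a i) (b i)) +
          ∑ i, (if pad i then ω i else 0) * wdist G ℓ (a i) (b i) := by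
      rw [← Finset.sum_add_distrib]
      exact Finset.sum_congr rfl fun i _ => by split_ifs <;> simp
    have e2 := cover_gain Finset.univ (fun w i => c (a i) = w) (fun i => if pad i then ω i else 0)
      (fun i => wdist G ℓ (a i) (b i)) (fun w i => ρ w (a i) (b i)) cA hcA.le
      (fun i => by split_ifs; exacts [hω i, le_rfl]) (fun i => h.nonneg _ _)
      (fun i => ⟨_, Finset.mem_univ _, rfl⟩) fun w _ => by
        have key := h4 w
        rw [sum_sub_eq (P w) fun i => ω i * wdist G ℓ' (a i) (b i),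
          sum_sub_eq (P w) fun i => ω i * ρ w (a i) (b i)] at key
        refine le_trans (mul_le_mul_of_nonneg_left (Finset.sum_le_sum fun i _ => ?_) hcA.le)
          (key.trans (le_of_eq (Finset.sum_congr rfl fun i _ => ?_)))
        · by_cases p1 : c (a i) = w <;> by_cases p2 : pad i
          · rw [if_pos p1, if_pos p2, if_pos ⟨p1, p2⟩]
            exact mul_le_mul_of_nonneg_left (hle _ _).1 (hω i)
          · rw [if_pos p1, if_neg p2, if_neg fun hp : P w i => p2 hp.2, zero_mul]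
          · rw [if_neg p1, if_neg fun hp : P w i => p1 hp.1]
          · rw [if_neg p1, if_neg fun hp : P w i => p1 hp.1]
        · by_cases p1 : c (a i) = w <;> by_cases p2 : pad i
          · rw [if_pos p1, if_pos p2, if_pos ⟨p1, p2⟩]
          · rw [if_pos p1, if_neg p2, if_neg fun hp : P w i => p2 hp.2, zero_mul]
          · rw [if_neg p1, if_neg fun hp : P w i => p1 hp.1]
          · rw [if_neg p1, if_neg fun hp : P w i => p1 hp.1]
    have e3 : ∑ i, (if pad i then ω i else 0) *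
        ∑ w, (if c (a i) = w then ρ w (a i) (b i) else 0) ≤ ∑ i, ω i * ∑ w, ρ w (a i) (b i) := by
      refine Finset.sum_le_sum fun i _ => mul_le_mul ?_ (Finset.sum_le_sum fun w _ => ?_)
        (Finset.sum_nonneg fun w _ => ?_) (hω i)
      · split_ifs; exacts [le_rfl, hω i]
      · split_ifs; exacts [le_rfl, (h1 w).nonneg _ _]
      · split_ifs; exacts [(h1 w).nonneg _ _, le_rfl]
    have e4 : ∑ i, (if pad i then 0 else ω i * wdist G ℓ (a i) (b i)) ≤
        1 / 2 * ∑ i, ω i * wdist G ℓ (a i) (b i) := hc3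
    have e5 := le_trans e2 (by convert e3)
    nlinarith

theorem serve (hK : KPRStmt) (hN : NoiseStmt) (hA : A2Stmt) : ServeStmt := by
  obtain ⟨Λ, C, K, c, ε, hΛ, hC, hK0, hc, hε, hnear⟩ := serve_near hK hA
  refine ⟨Λ, 20 * C, hΛ, by linarith, fun B hB => ?_⟩
  set η : ℝ := min (1 / 4) (c / (8 * K)) with hη
  have hη0 : 0 < η := by positivity
  have hη1 : η ≤ 1 / 4 := min_le_left _ _
  have hη2 : 8 * K * η ≤ c := by
    have := min_le_right (1 / 4) (c / (8 * K))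
    rw [← hη, le_div_iff₀ (by positivity)] at this
    linarith
  obtain ⟨K', c', ε', hK', hc', hε', hfar⟩ := serve_far hN B η hB hη0 (by linarith)
  refine ⟨K + K', min (c / 4) c', min (min 1 (ε / 2)) ε', by positivity, by positivity,
    by positivity, ?_⟩
  intro V _ G ℓ δ h hMF ℓ' z T lam R S hR hT ι _ a b ω hω hab
  rcases isEmpty_or_nonempty ι with hι | ⟨⟨i₀⟩⟩
  · exact ⟨fun _ _ => 0, IsCut.zero, fun x y hxy => (mul_pos (by linarith) (h.adj_pos hxy)).le,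
      fun _ _ _ _ => rfl, by simp⟩
  obtain ⟨σ, hσ1, hσ2, hσ3⟩ := h.exists_dist (S := S) (let ⟨x, hx, _⟩ := (hab i₀).2.2; ⟨x, hx⟩)
  choose n hn hσn using hσ2
  obtain ⟨d, hd⟩ : ∃ d : ι → ℝ, ∀ i, d i = wdist G ℓ (a i) (b i) := ⟨_, fun _ => rfl⟩
  simp only [← hd] at hab ⊢
  have hd0 : ∀ i, 0 ≤ d i := fun i => hd i ▸ h.nonneg _ _
  have hδ1 : ∀ i, δ ≤ d i := fun i => (hab i).1.trans ((mul_le_mul_of_nonneg_right
    ((min_le_left _ _).trans (min_le_left _ _)) (hd0 i)).trans_eq (one_mul _))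
  have hδ2 : ∀ i, δ ≤ ε / 2 * d i := fun i => (hab i).1.trans
    (mul_le_mul_of_nonneg_right ((min_le_left _ _).trans (min_le_right _ _)) (hd0 i))
  have hδ3 : ∀ i, δ ≤ ε' * d i := fun i => (hab i).1.trans
    (mul_le_mul_of_nonneg_right (min_le_right _ _) (hd0 i))
  have hR1 : ∀ i, 20 * C * d i ≤ R := fun i => by
    nlinarith [(hab i).2.1, mul_nonneg (mul_nonneg (show 0 ≤ C by linarith) (hd0 i))
      (show 0 ≤ B - 1 by linarith)]
  have hR2 : ∀ i, 20 * B * d i ≤ R := fun i => by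
    nlinarith [(hab i).2.1, mul_nonneg (mul_nonneg (show 0 ≤ B by linarith) (hd0 i))
      (show 0 ≤ C - 1 by linarith)]
  have hσa : ∀ i, σ (a i) ≤ B * d i := fun i => by
    obtain ⟨x, hx, hxd⟩ := (hab i).2.2
    rw [h.comm] at hxd
    exact (hσ1 _ x hx).trans hxd
  let P : ι → Prop := fun i => σ (a i) < η * d i ∧ σ (b i) < η * d i
  have hnn : ∀ i, P i → d i / 2 ≤ wdist G ℓ (n (a i)) (n (b i)) ∧
      wdist G ℓ (n (a i)) (n (b i)) ≤ 2 * d i := by
    rintro i ⟨p1, p2⟩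
    rw [hσn] at p1 p2
    have q1 := h.tri (a i) (n (a i)) (b i)
    have q2 := h.tri (n (a i)) (n (b i)) (b i)
    have q3 := h.tri (n (a i)) (a i) (n (b i))
    have q4 := h.tri (a i) (b i) (n (b i))
    rw [h.comm (a i) (n (a i)), ← hd] at q1
    rw [h.comm (b i) (n (b i)), ← hd] at q4
    have := mul_le_mul_of_nonneg_right hη1 (hd0 i)
    constructor <;> linarith [hd0 i]
  obtain ⟨ρ₁, a1, a2, a3, a4⟩ := hnear V G ℓ δ h hMF ℓ' z T lam R S hR
    (by nlinarith [hδ1 i₀, hR1 i₀, hd0 i₀]) hT {i // P i} (fun i => n (a i.1))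
    (fun i => n (b i.1)) (fun i => ω i.1) (fun i => hω i.1) fun i =>
      ⟨hn _, hn _, by nlinarith [hδ2 i.1, (hnn i.1 i.2).1],
        by nlinarith [hR1 i.1, (hnn i.1 i.2).2, hd0 i.1]⟩
  let a' : ι → V := fun i => if η * d i ≤ σ (a i) then a i else b i
  let b' : ι → V := fun i => if η * d i ≤ σ (a i) then b i else a i
  have hd' : ∀ i, wdist G ℓ (a' i) (b' i) = d i := fun i => by
    simp only [a', b']; split_ifs
    · exact (hd i).symm
    · rw [h.comm, hd]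
  obtain ⟨ρ₂, b1, b2, b3, b4⟩ := hfar V G ℓ δ h hMF R σ hσ3 {i // ¬ P i} (fun i => a' i.1)
    (fun i => b' i.1) (fun i => ω i.1) (fun i => hω i.1) fun i => by
      rw [hd']
      refine ⟨hδ3 _, hR2 _, ?_⟩
      simp only [a']; split_ifs with h1
      · exact ⟨h1, by nlinarith [hσa i.1, hd0 i.1]⟩
      · have h2 := (abs_le.1 (hσ3 (a i.1) (b i.1))).1
        rw [← hd] at h2
        exact ⟨by_contra fun h3 => i.2 ⟨not_le.1 h1, not_le.1 h3⟩,
          by nlinarith [hσa i.1, hd0 i.1]⟩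
  have hρ' : ∀ i, ρ₂ (a' i) (b' i) = ρ₂ (a i) (b i) := fun i => by
    simp only [a', b']; split_ifs
    · rfl
    · exact b1.symm _ _
  simp only [hd', hρ'] at b4
  refine ⟨fun x y => ρ₁ x y + ρ₂ x y, a1.add b1, fun x y hxy => by
    linarith [a2 x y hxy, b2 x y hxy], fun x y hx hy => ?_, ?_⟩
  · beta_reduce
    rw [a3 x y hx hy, b3 x y (hσn x ▸ hx _ (hn x)) (hσn y ▸ hy _ (hn y)), add_zero]
  have k1 : min (c / 4) c' * ∑ i : {i // P i}, ω i.1 * d i.1 ≤
      ∑ i : {i // P i}, ω i.1 * ρ₁ (a i.1) (b i.1) := by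
    have k2 : ∑ i : {i // P i}, ω i.1 * ρ₁ (n (a i.1)) (n (b i.1)) ≤
        ∑ i : {i // P i}, ω i.1 * ρ₁ (a i.1) (b i.1) + c / 4 * ∑ i : {i // P i}, ω i.1 * d i.1 := by
      rw [Finset.mul_sum, ← Finset.sum_add_distrib]
      refine Finset.sum_le_sum fun i _ => ?_
      rw [mul_left_comm, ← mul_add]
      refine mul_le_mul_of_nonneg_left ?_ (hω _)
      obtain ⟨p1, p2⟩ := i.2
      rw [hσn] at p1 p2
      have q1 := a1.le_d h hK0.le a2 (n (a i.1)) (a i.1)
      have q2 := a1.le_d h hK0.le a2 (n (b i.1)) (b i.1)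
      have q3 := a1.tri (n (a i.1)) (a i.1) (n (b i.1))
      have q4 := a1.tri (a i.1) (b i.1) (n (b i.1))
      rw [a1.symm (b i.1)] at q4
      nlinarith [mul_le_mul_of_nonneg_left p1.le hK0.le, mul_le_mul_of_nonneg_left p2.le hK0.le,
        mul_le_mul_of_nonneg_right hη2 (hd0 i.1)]
    have k3 : c / 2 * ∑ i : {i // P i}, ω i.1 * d i.1 ≤
        c * ∑ i : {i // P i}, ω i.1 * wdist G ℓ (n (a i.1)) (n (b i.1)) := by
      rw [Finset.mul_sum, Finset.mul_sum]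
      refine Finset.sum_le_sum fun i _ => ?_
      nlinarith [mul_le_mul_of_nonneg_left (hnn i.1 i.2).1 (mul_nonneg hc.le (hω i.1))]
    have k4 := mul_le_mul_of_nonneg_right (min_le_left (c / 4) c')
      (Finset.sum_nonneg fun (i : {i // P i}) (_ : i ∈ Finset.univ) => mul_nonneg (hω i.1) (hd0 i.1))
    linarith
  have k5 := (mul_le_mul_of_nonneg_right (min_le_right (c / 4) c') (Finset.sum_nonneg
    fun (i : {i // ¬ P i}) (_ : i ∈ Finset.univ) => mul_nonneg (hω i.1) (hd0 i.1))).trans b4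
  rw [sum_sub_eq P fun i => ω i * d i, sum_sub_eq P fun i => ω i * ρ₁ (a i) (b i)] at k1
  rw [sum_sub_eq (fun i => ¬ P i) fun i => ω i * d i,
    sum_sub_eq (fun i => ¬ P i) fun i => ω i * ρ₂ (a i) (b i)] at k5
  have k6 : ∑ i, ω i * d i = (∑ i, if P i then ω i * d i else 0) +
      ∑ i, if ¬ P i then ω i * d i else 0 := by
    rw [← Finset.sum_add_distrib]
    exact Finset.sum_congr rfl fun i _ => by by_cases hp : P i <;> simp [hp]
  rw [k6, mul_add]
  refine (add_le_add k1 k5).trans ?_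
  rw [← Finset.sum_add_distrib]
  refine Finset.sum_le_sum fun i _ => ?_
  have n1 := mul_nonneg (hω i) (a1.nonneg (a i) (b i))
  have n2 := mul_nonneg (hω i) (b1.nonneg (a i) (b i))
  rw [mul_add]
  by_cases hp : P i
  · rw [if_pos hp, if_neg (not_not.2 hp)]; linarith
  · rw [if_neg hp, if_pos hp]; linarith

end Crest.Agent.N206.PL
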