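import Crest.Agent.N206.PL.Defs

/-! Row 206: existence of split points (greedy choice by increasing size). -/

set_option autoImplicit false

open scoped Classical

namespace Crest.Agent.N206.PL

theorem exists_greedy {α : Type} (D : α → ℝ) (d : α → α → ℝ) (hd : ∀ a b, d a b = d b a)
    (T : Finset α) : ∃ P ⊆ T, (∀ p ∈ P, ∀ p' ∈ P, p ≠ p' → D p ≤ d p p') ∧
      ∀ i ∈ T, i ∉ P → ∃ p ∈ P, d p i < D i := by
  induction T using Finset.induction_on_max_value D with
  | empty => exact ⟨∅, by simp⟩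
  | insert a s _ hmax ih =>
    obtain ⟨P, h1, h2, h3⟩ := ih
    by_cases h : ∃ p ∈ P, d p a < D a
    · refine ⟨P, h1.trans (Finset.subset_insert _ _), h2, fun i hi hiP => ?_⟩
      rcases Finset.mem_insert.1 hi with rfl | hi
      exacts [h, h3 i hi hiP]
    · push Not at h
      refine ⟨insert a P, Finset.insert_subset_insert _ h1, fun p hp p' hp' hne => ?_,
        fun i hi hiP => ?_⟩
      · rcases Finset.mem_insert.1 hp with rfl | g <;> rcases Finset.mem_insert.1 hp' with rfl | g'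
        exacts [absurd rfl hne, hd p' p ▸ h p' g', (hmax p (h1 g)).trans (h p g), h2 p g p' g' hne]
      · rw [Finset.mem_insert, not_or] at hiP
        obtain ⟨p, hp, h4⟩ := h3 i ((Finset.mem_insert.1 hi).resolve_left hiP.1) hiP.2
        exact ⟨p, Finset.mem_insert_of_mem hp, h4⟩

theorem split : SplitStmt := by
  intro V _ G ℓ δ _ Q η s0 hη hs0
  set A : ℕ → Set ℝ := fun i => {r | s0 ≤ r ∧ Sep G (bl G ℓ (Q.v i) r) (Q.v 0) (Q.v Q.n)}
  have hm : ∀ i, ∃ m, (A i).Nonempty → m ∈ A i ∧ ∀ r ∈ A i, m ≤ 2 * r := fun i => by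
    by_cases h : (A i).Nonempty
    · have hb : BddBelow (A i) := ⟨s0, fun _ hr => hr.1⟩
      have h1 : s0 ≤ sInf (A i) := le_csInf h fun _ hr => hr.1
      obtain ⟨m, hm, h2⟩ := exists_lt_of_csInf_lt h (show sInf (A i) < 2 * sInf (A i) by linarith)
      exact ⟨m, fun _ => ⟨hm, fun r hr => by linarith [csInf_le hb hr]⟩⟩
    · exact ⟨0, fun h' => absurd h' h⟩
  choose m hm using hm
  obtain ⟨P, h1, h2, h3⟩ := exists_greedy (fun i => if i = 0 ∨ i = Q.n then 0 else m i)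
    (fun p p' => η * |Q.pos p - Q.pos p'|) (fun a b => by rw [abs_sub_comm])
    ((Finset.range (Q.n + 1)).filter fun i => (i = 0 ∨ i = Q.n) ∨ (A i).Nonempty)
  have hend : ∀ i, i = 0 ∨ i = Q.n → i ∈ P := fun i hi => by
    by_contra hP
    obtain ⟨p, -, hp⟩ := h3 i (Finset.mem_filter.2 ⟨Finset.mem_range.2 (by omega), Or.inl hi⟩) hP
    rw [if_pos hi] at hp
    exact absurd hp (not_lt.2 (by positivity))
  have hin : ∀ p ∈ P, p ≠ 0 → p ≠ Q.n → (if p = 0 ∨ p = Q.n then 0 else m p) ∈ A p :=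
    fun p hp a b => by
      rw [if_neg (not_or.2 ⟨a, b⟩)]
      exact (hm p ((Finset.mem_filter.1 (h1 hp)).2.resolve_left (not_or.2 ⟨a, b⟩))).1
  refine ⟨⟨P, _, fun p hp => Nat.lt_succ_iff.1 (Finset.mem_range.1 (Finset.mem_filter.1 (h1 hp)).1),
    hend 0 (Or.inl rfl), hend _ (Or.inr rfl), by simp, by simp, fun p hp a b => (hin p hp a b).1,
    fun p hp a b => (hin p hp a b).2, h2, fun i hi r hr hf hs => ?_⟩⟩
  by_cases hP : i ∈ P
  · have := hf i hP
    rw [sub_self, abs_zero, mul_zero] at this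
    linarith
  · obtain ⟨p, hp, h4⟩ := h3 i
      (Finset.mem_filter.2 ⟨Finset.mem_range.2 (by omega), Or.inr ⟨r, hr, hs⟩⟩) hP
    rw [if_neg fun h => hP (hend i h)] at h4
    linarith [hf p hp, (hm i ⟨r, hr, hs⟩).2 r ⟨hr, hs⟩]

end Crest.Agent.N206.PL
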