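import Crest.Agent.N206.PL.Defs
import Crest.Agent.N206.Top.Par

/-! # Row 206, S0317: `TopStmt` (helper6) -/

set_option autoImplicit false

namespace Crest.Agent.N206.PL

theorem top : TopStmt := fun _ _ h =>
  ⟨fun X h1 h2 h3 => Top.no_k5 h X (fun i => (h1 i).2) h2 h3,
    fun A B h1 h2 h3 h4 h5 h6 =>
      Top.no_k33 h A B (fun i => (h1 i).2) (fun i => (h2 i).2) h3 h4 h5 h6⟩

end Crest.Agent.N206.PL
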